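import Vale.Agent.P057.Bdry

/-! # P057: few progressions (module APC) -/

open Finset

namespace Vale.Agent.P057

namespace AP

noncomputable section

open BD

variable {G : Type} [AddCommGroup G] [Fintype G]

omit [AddCommGroup G] in
open Classical in
theorem sum_mu_mu (S T : Finset G) (φ : G → G) :
    ∑ s, mu S s * mu T (φ s) =
      ((S.filter (fun s => φ s ∈ T)).card : ℝ) / (S.card * T.card) := by
  unfold mu
  have h : ∀ s : G, (if s ∈ S then 1 / (S.card : ℝ) else 0) *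
      (if φ s ∈ T then 1 / (T.card : ℝ) else 0) =
      if (s ∈ S ∧ φ s ∈ T) then 1 / ((S.card : ℝ) * T.card) else 0 := by
    intro s
    by_cases h1 : s ∈ S <;> by_cases h2 : φ s ∈ T <;> simp [h1, h2, mul_comm]
  simp_rw [h]
  rw [← sum_filter, sum_const, nsmul_eq_mul]
  have : (univ.filter (fun s => s ∈ S ∧ φ s ∈ T)) = S.filter (fun s => φ s ∈ T) := by
    ext s; simp
  rw [this]
  ring

/-- expansion of the convolution of the balanced function -/
theorem conv_expand (A₁ B₁ : Finset G) (y : G) :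
    conv (fun x => mu A₁ x - mu B₁ x) y =
      ∑ s, mu A₁ s * mu A₁ (y - s) - 2 * ∑ s, mu A₁ s * mu B₁ (y - s)
        + ∑ s, mu B₁ s * mu B₁ (y - s) := by
  unfold conv
  have h : ∑ s, mu B₁ s * mu A₁ (y - s) = ∑ s, mu A₁ s * mu B₁ (y - s) := by
    rw [← Equiv.sum_comp (Equiv.subLeft y)]
    apply sum_congr rfl
    intro s _
    simp only [Equiv.subLeft_apply, sub_sub_cancel]
    ring
  calc ∑ s, (mu A₁ s - mu B₁ s) * (mu A₁ (y - s) - mu B₁ (y - s))
      = ∑ s, mu A₁ s * mu A₁ (y - s) - ∑ s, mu A₁ s * mu B₁ (y - s)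
          - ∑ s, mu B₁ s * mu A₁ (y - s) + ∑ s, mu B₁ s * mu B₁ (y - s) := by
        rw [← sum_sub_distrib, ← sum_sub_distrib, ← sum_add_distrib]
        apply sum_congr rfl
        intro s _
        ring
    _ = _ := by rw [h]; ring

/-- expansion of the autocorrelation of the balanced function -/
theorem corr_expand (A₁ B₁ : Finset G) (x : G) :
    corr (fun x => mu A₁ x - mu B₁ x) x =
      ∑ s, mu A₁ s * mu A₁ (s + x) - ∑ s, mu A₁ s * mu B₁ (s - x)
        - ∑ s, mu A₁ s * mu B₁ (s + x) + ∑ s, mu B₁ s * mu B₁ (s + x) := by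
  unfold corr
  have h : ∑ s, mu A₁ (s + x) * mu B₁ s = ∑ s, mu A₁ s * mu B₁ (s - x) := by
    rw [← Equiv.sum_comp (Equiv.addRight x) (fun s => mu A₁ s * mu B₁ (s - x))]
    apply sum_congr rfl
    intro s _
    simp only [Equiv.coe_addRight, add_sub_cancel_right]
  calc ∑ s, (mu A₁ (s + x) - mu B₁ (s + x)) * (mu A₁ s - mu B₁ s)
      = ∑ s, mu A₁ s * mu A₁ (s + x) - ∑ s, mu A₁ (s + x) * mu B₁ s
          - ∑ s, mu A₁ s * mu B₁ (s + x) + ∑ s, mu B₁ s * mu B₁ (s + x) := by
        rw [← sum_sub_distrib, ← sum_sub_distrib, ← sum_add_distrib]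
        apply sum_congr rfl
        intro s _
        ring
    _ = _ := by rw [h]

omit [Fintype G] in
open Classical in
theorem rep_eq (A : Finset G) (x : G) : rep A x = (A.filter (fun s => s + x ∈ A)).card := by
  unfold rep
  refine card_bij' (fun q _ => q.2) (fun s _ => (s + x, s)) ?_ ?_ ?_ ?_
  · intro q hq
    rw [mem_filter, mem_product] at hq
    rw [mem_filter]
    refine ⟨hq.1.2, ?_⟩
    rw [← hq.2]
    simpa using hq.1.1
  · intro s hs
    rw [mem_filter] at hs
    rw [mem_filter, mem_product]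
    exact ⟨⟨hs.2, hs.1⟩, by simp⟩
  · intro q hq
    rw [mem_filter, mem_product] at hq
    ext
    · simp [← hq.2]
    · rfl
  · intro s _
    rfl

end

end AP

open BD AP in
theorem apc_proof (hB : BDRY) : APC := by
  classical
  intro G _ _ Γ ρ₁ ρ₂ α A A₁ A₂ h2 hTAF hρ₁ hreg hρ₂ hρ₂' hα hα1 hA₁A hA₁B hA₁all hA₂A hA₂B
    hdens hne hcnt hbig
  have hk := kap_pos Γ.card
  set κ := kap Γ.card with hκ
  set B₁ := bohr Γ ρ₁ with hB₁
  set N := (B₁.card : ℝ) with hN
  set n := (A₁.card : ℝ) with hn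
  have hα2 : α ^ 2 ≤ 1 := by nlinarith
  have hNpos : 0 < N := by
    by_contra h
    push Not at h
    nlinarith [sq_nonneg α]
  have hnpos : 0 < n := lt_of_lt_of_le (by positivity) hdens
  -- the core of `A₁`
  have hcore : n - (1 + 1 / 500) * α * eps0 * N ≤
      ((A₁.filter (fun a => a ∈ bohr Γ ((1 - κ) * ρ₁))).card : ℝ) := by
    have h1 := hB G Γ ρ₁ ρ₂ ((1 + 1 / 500) * α) A hρ₁ hreg hρ₂ (by linarith) (by positivity)
      hcnt 0
    have e1 : cnt A (bohr Γ ρ₁) 0 = A₁.card := by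
      unfold cnt
      congr 1
      ext a
      rw [mem_filter, sub_zero]
      exact ⟨fun h => hA₁all a h.1 h.2, fun h => ⟨hA₁A h, hA₁B h⟩⟩
    have e2 : cnt A (bohr Γ ((1 - κ) * ρ₁)) 0 =
        (A₁.filter (fun a => a ∈ bohr Γ ((1 - κ) * ρ₁))).card := by
      unfold cnt
      congr 1
      ext a
      rw [mem_filter, mem_filter, sub_zero]
      constructor
      · intro h
        refine ⟨hA₁all a h.1 (mono ?_ h.2), h.2⟩
        nlinarith
      · intro h
        exact ⟨hA₁A h.1, h.2⟩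
    rw [e1, e2] at h1
    linarith
  have heps : (1 + 1 / 500) * α * eps0 * N ≤ (1 / 4000) * n := by
    rw [eps0_val]
    nlinarith
  -- a general lower bound for cross terms
  have hcross : ∀ φ : G → G, (∀ a ∈ bohr Γ ((1 - κ) * ρ₁), φ a ∈ B₁) →
      (1 - 1 / 4000 ≤ N * ∑ s, mu A₁ s * mu B₁ (φ s)) ∧
        N * ∑ s, mu A₁ s * mu B₁ (φ s) ≤ 1 := by
    intro φ hφ
    rw [sum_mu_mu]
    have e : N * (((A₁.filter (fun s => φ s ∈ B₁)).card : ℝ) / (A₁.card * B₁.card)) =
        ((A₁.filter (fun s => φ s ∈ B₁)).card : ℝ) / n := by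
      rw [← hN, ← hn]
      field_simp
    rw [e]
    constructor
    · rw [le_div_iff₀ hnpos]
      have h1 : (A₁.filter (fun a => a ∈ bohr Γ ((1 - κ) * ρ₁))).card ≤
          (A₁.filter (fun s => φ s ∈ B₁)).card := by
        apply card_le_card
        intro a ha
        rw [mem_filter] at ha ⊢
        exact ⟨ha.1, hφ a ha.2⟩
      have h2 : ((A₁.filter (fun a => a ∈ bohr Γ ((1 - κ) * ρ₁))).card : ℝ) ≤
          (A₁.filter (fun s => φ s ∈ B₁)).card := by exact_mod_cast h1
      linarith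
    · rw [div_le_one hnpos]
      exact Nat.cast_le.mpr (card_filter_le _ _)
  have hself : ∀ φ : G → G, (∀ a ∈ bohr Γ ((1 - κ) * ρ₁), φ a ∈ B₁) →
      (1 - eps0 ≤ N * ∑ s, mu B₁ s * mu B₁ (φ s)) ∧
        N * ∑ s, mu B₁ s * mu B₁ (φ s) ≤ 1 := by
    intro φ hφ
    rw [sum_mu_mu]
    have e : N * (((B₁.filter (fun s => φ s ∈ B₁)).card : ℝ) / (B₁.card * B₁.card)) =
        ((B₁.filter (fun s => φ s ∈ B₁)).card : ℝ) / N := by
      rw [← hN]
      field_simp
    rw [e]
    constructor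
    · rw [le_div_iff₀ hNpos]
      have h1 : (bohr Γ ((1 - 2 * κ) * ρ₁)).card ≤ (B₁.filter (fun s => φ s ∈ B₁)).card := by
        apply card_le_card
        intro a ha
        rw [mem_filter]
        exact ⟨mono (by nlinarith) ha, hφ a (mono (by nlinarith) ha)⟩
      have h2 : ((bohr Γ ((1 - 2 * κ) * ρ₁)).card : ℝ) ≤
          (B₁.filter (fun s => φ s ∈ B₁)).card := by exact_mod_cast h1
      have h3 : ((bohr Γ ((1 + 2 * κ) * ρ₁)).card : ℝ) ≤
        (1 + eps0) * ((bohr Γ ((1 - 2 * κ) * ρ₁)).card : ℝ) := hreg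
      have h4 : N ≤ (bohr Γ ((1 + 2 * κ) * ρ₁)).card := by
        exact Nat.cast_le.mpr (card_le_card (subset (by nlinarith)))
      have h5 : ((bohr Γ ((1 - 2 * κ) * ρ₁)).card : ℝ) ≤ N := by
        exact Nat.cast_le.mpr (card_le_card (subset (by nlinarith)))
      rw [eps0_val] at h3 ⊢
      linarith
    · rw [div_le_one hNpos]
      exact Nat.cast_le.mpr (card_filter_le _ _)
  constructor
  · -- progressions
    have hAA : ∑ z ∈ A₂, N * ∑ s, mu A₁ s * mu A₁ (z + z - s) ≤ (A₂.card : ℝ) * (N / n ^ 2) := by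
      rw [← nsmul_eq_mul]
      apply sum_le_card_nsmul
      intro z hz
      rw [sum_mu_mu]
      have h1 : (A₁.filter (fun s => z + z - s ∈ A₁)).card ≤ 1 := by
        rw [card_le_one]
        have key : ∀ s ∈ A₁.filter (fun s => z + z - s ∈ A₁), s = z := by
          intro s hs
          rw [mem_filter] at hs
          have h3 := hTAF s (hA₁A hs.1) (z + z - s) (hA₁A hs.2) z (hA₂A hz) (by abel)
          apply h2
          calc s + s = s + (z + z - s) := by rw [← h3]
            _ = z + z := by abel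
        intro a ha b hb
        rw [key a ha, key b hb]
      have h1' : ((A₁.filter (fun s => z + z - s ∈ A₁)).card : ℝ) ≤ 1 := by exact_mod_cast h1
      calc N * (((A₁.filter (fun s => z + z - s ∈ A₁)).card : ℝ) / (A₁.card * A₁.card))
          ≤ N * (1 / (A₁.card * A₁.card)) := by
            apply mul_le_mul_of_nonneg_left _ hNpos.le
            apply div_le_div_of_nonneg_right h1' (by positivity)
        _ = N / n ^ 2 := by rw [hn]; ring
    have hNn : N / n ^ 2 ≤ 1 / 15 := by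
      rw [div_le_div_iff₀ (by positivity) (by norm_num)]
      have h3 : ((1 - 1 / 200) * α * N) ^ 2 ≤ n ^ 2 :=
        pow_le_pow_left₀ (by positivity) hdens 2
      have h4 : ((1 - 1 / 200) * α * N) ^ 2 = (1 - 1 / 200) ^ 2 * ((α ^ 2 * N) * N) := by ring
      have h5 : 16 * N ≤ (α ^ 2 * N) * N := mul_le_mul_of_nonneg_right hbig hNpos.le
      nlinarith
    have hterm : ∀ z ∈ A₂, N * conv (fun x => mu A₁ x - mu B₁ x) (z + z) ≤
        N * ∑ s, mu A₁ s * mu A₁ (z + z - s) + (-1 + 1 / 2000) := by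
      intro z hz
      rw [conv_expand]
      have hz2 : z + z ∈ bohr Γ (κ * ρ₁) := mono (by linarith) (add_mem (hA₂B hz) (hA₂B hz))
      have hφ : ∀ a ∈ bohr Γ ((1 - κ) * ρ₁), z + z - a ∈ B₁ := by
        intro a ha
        exact mono (by nlinarith) (sub_mem hz2 ha)
      have c1 := (hcross (fun a => z + z - a) hφ).1
      have c2 := (hself (fun a => z + z - a) hφ).2
      linarith
    calc ∑ z ∈ A₂, N * conv (fun x => mu A₁ x - mu B₁ x) (z + z)
        ≤ ∑ z ∈ A₂, (N * ∑ s, mu A₁ s * mu A₁ (z + z - s) + (-1 + 1 / 2000)) :=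
          sum_le_sum hterm
      _ = ∑ z ∈ A₂, N * ∑ s, mu A₁ s * mu A₁ (z + z - s) + (A₂.card : ℝ) * (-1 + 1 / 2000) := by
          rw [sum_add_distrib, sum_const, nsmul_eq_mul]
      _ ≤ (A₂.card : ℝ) * (1 / 15) + (A₂.card : ℝ) * (-1 + 1 / 2000) := by
          have := mul_le_mul_of_nonneg_left hNn (Nat.cast_nonneg A₂.card : (0:ℝ) ≤ A₂.card)
          linarith
      _ ≤ - (A₂.card : ℝ) / 2 := by
          have : (0 : ℝ) ≤ A₂.card := Nat.cast_nonneg _
          linarith
  · intro x hx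
    rw [corr_expand]
    have hφ1 : ∀ a ∈ bohr Γ ((1 - κ) * ρ₁), a - x ∈ B₁ := by
      intro a ha
      exact mono (by nlinarith) (sub_mem ha hx)
    have hφ2 : ∀ a ∈ bohr Γ ((1 - κ) * ρ₁), a + x ∈ B₁ := by
      intro a ha
      exact mono (by nlinarith) (add_mem ha hx)
    have c1 := hcross (fun a => a - x) hφ1
    have c2 := hcross (fun a => a + x) hφ2
    have c3 := hself (fun a => a + x) hφ2
    have c4 : N * ∑ s, mu A₁ s * mu A₁ (s + x) = N / n ^ 2 * rep A₁ x := by
      rw [sum_mu_mu A₁ A₁ (fun s => s + x), rep_eq]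
      ring
    rw [eps0_val] at c3
    obtain ⟨c1a, c1b⟩ := c1
    obtain ⟨c2a, c2b⟩ := c2
    obtain ⟨c3a, c3b⟩ := c3
    have e5 : N * (∑ s, mu A₁ s * mu A₁ (s + x) - ∑ s, mu A₁ s * mu B₁ (s - x)
        - ∑ s, mu A₁ s * mu B₁ (s + x) + ∑ s, mu B₁ s * mu B₁ (s + x)) =
        N / n ^ 2 * rep A₁ x - N * ∑ s, mu A₁ s * mu B₁ (s - x)
        - N * ∑ s, mu A₁ s * mu B₁ (s + x) + N * ∑ s, mu B₁ s * mu B₁ (s + x) := by
      rw [← c4]; ring
    rw [e5, abs_le]
    constructor <;> linarith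

end Vale.Agent.P057
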