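import Vale.Agent.P057.Bdry

/-! # P057: a translate on which both densities are almost as large as before (module AVER) -/

open Finset

namespace Vale.Agent.P057

namespace AV

noncomputable section

open BD

variable {G : Type} [AddCommGroup G] [Fintype G]

/-- the averaged count over a translate of the large Bohr set -/
theorem sum_cnt (hB : BDRY) (Γ : Finset (AddChar G ℂ)) (ρ ρ₁ s : ℝ) (A : Finset G) (x₀ : G)
    (hρ : 0 < ρ) (hreg : Reg Γ ρ) (hρ₁ : 0 < ρ₁) (hρ₁' : ρ₁ ≤ kap Γ.card * ρ) (hs : 0 ≤ s)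
    (hA : ∀ x, (cnt A (bohr Γ ρ₁) x : ℝ) ≤ s * (bohr Γ ρ₁).card) :
    ((bohr Γ ρ₁).card : ℝ) * (cnt A (bohr Γ ρ) x₀ - s * eps0 * (bohr Γ ρ).card) ≤
      ∑ t ∈ bohr Γ ρ, (cnt A (bohr Γ ρ₁) (x₀ + t) : ℝ) := by
  classical
  have hk := kap_pos Γ.card
  set κ := kap Γ.card with hκ
  have h1 := hB G Γ ρ ρ₁ s A hρ hreg hρ₁ hρ₁' hs hA x₀
  have h2 : (bohr Γ ρ₁).card * cnt A (bohr Γ ((1 - κ) * ρ)) x₀ ≤
      ∑ t ∈ bohr Γ ρ, cnt A (bohr Γ ρ₁) (x₀ + t) := by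
    have e1 : ∑ t ∈ bohr Γ ρ, cnt A (bohr Γ ρ₁) (x₀ + t) =
        ∑ a ∈ A, ((bohr Γ ρ).filter (fun t => a - (x₀ + t) ∈ bohr Γ ρ₁)).card := by
      unfold cnt
      simp only [card_filter]
      rw [sum_comm]
    have e2 : (bohr Γ ρ₁).card * cnt A (bohr Γ ((1 - κ) * ρ)) x₀ =
        ∑ a ∈ A.filter (fun a => a - x₀ ∈ bohr Γ ((1 - κ) * ρ)), (bohr Γ ρ₁).card := by
      rw [sum_const, smul_eq_mul, mul_comm]
      rfl
    rw [e1, e2]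
    refine le_trans (sum_le_sum ?_) (sum_le_sum_of_subset (filter_subset _ _))
    intro a ha
    rw [mem_filter] at ha
    apply card_le_card_of_injOn (fun b => a - x₀ - b)
    · intro b hb
      have hb' : b ∈ bohr Γ ρ₁ := by exact_mod_cast hb
      simp only [coe_filter, Set.mem_ofPred_eq]
      constructor
      · exact mono (by nlinarith) (sub_mem ha.2 hb')
      · have : a - (x₀ + (a - x₀ - b)) = b := by abel
        rw [this]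
        exact hb'
    · intro b _ b' _ h
      exact sub_right_injective h
  have h3 : ((bohr Γ ρ₁).card : ℝ) * cnt A (bohr Γ ((1 - κ) * ρ)) x₀ ≤
      ∑ t ∈ bohr Γ ρ, (cnt A (bohr Γ ρ₁) (x₀ + t) : ℝ) := by exact_mod_cast h2
  refine le_trans ?_ h3
  apply mul_le_mul_of_nonneg_left _ (Nat.cast_nonneg _)
  linarith

end

end AV

open BD AV in
theorem aver_proof (hB : BDRY) : AVER := by
  classical
  intro G _ _ Γ ρ ρ₁ ρ₂ α A x₀ hρ hreg hρ₁ hρ₁' hρ₂ hρ₂' hα hdens h1 h2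
  have hs : (0 : ℝ) ≤ (1 + 1 / 500) * α := by positivity
  have s1 := sum_cnt hB Γ ρ ρ₁ ((1 + 1 / 500) * α) A x₀ hρ hreg hρ₁ hρ₁' hs h1
  have s2 := sum_cnt hB Γ ρ ρ₂ ((1 + 1 / 500) * α) A x₀ hρ hreg hρ₂ hρ₂' hs h2
  have p0 : (0 : ℝ) < (bohr Γ ρ).card := by
    exact_mod_cast card_pos.mpr ⟨(0 : G), zero_mem hρ.le⟩
  have p1 : (0 : ℝ) < (bohr Γ ρ₁).card := by
    exact_mod_cast card_pos.mpr ⟨(0 : G), zero_mem hρ₁.le⟩
  have p2 : (0 : ℝ) < (bohr Γ ρ₂).card := by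
    exact_mod_cast card_pos.mpr ⟨(0 : G), zero_mem hρ₂.le⟩
  set n := ((bohr Γ ρ).card : ℝ) with hn
  set n1 := ((bohr Γ ρ₁).card : ℝ) with hn1
  set n2 := ((bohr Γ ρ₂).card : ℝ) with hn2
  -- normalised sum
  have key : ∃ t ∈ bohr Γ ρ, (2 - 1 / 1000) * α ≤
      (cnt A (bohr Γ ρ₁) (x₀ + t) : ℝ) / n1 + (cnt A (bohr Γ ρ₂) (x₀ + t) : ℝ) / n2 := by
    by_contra hcon
    push Not at hcon
    have hsum : ∑ t ∈ bohr Γ ρ, ((cnt A (bohr Γ ρ₁) (x₀ + t) : ℝ) / n1 +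
        (cnt A (bohr Γ ρ₂) (x₀ + t) : ℝ) / n2) < ∑ t ∈ bohr Γ ρ, (2 - 1 / 1000) * α := by
      apply sum_lt_sum_of_nonempty ⟨(0 : G), zero_mem hρ.le⟩
      intro t ht
      exact hcon t ht
    rw [sum_const, nsmul_eq_mul, sum_add_distrib, ← sum_div, ← sum_div] at hsum
    have a1 : cnt A (bohr Γ ρ) x₀ - (1 + 1 / 500) * α * eps0 * n ≤
        (∑ t ∈ bohr Γ ρ, (cnt A (bohr Γ ρ₁) (x₀ + t) : ℝ)) / n1 := by
      rw [le_div_iff₀ p1]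
      linarith
    have a2 : cnt A (bohr Γ ρ) x₀ - (1 + 1 / 500) * α * eps0 * n ≤
        (∑ t ∈ bohr Γ ρ, (cnt A (bohr Γ ρ₂) (x₀ + t) : ℝ)) / n2 := by
      rw [le_div_iff₀ p2]
      linarith
    rw [eps0_val] at a1 a2
    have hαn : 0 < α * n := by positivity
    nlinarith
  obtain ⟨t, _, ht⟩ := key
  have b1 : (cnt A (bohr Γ ρ₁) (x₀ + t) : ℝ) / n1 ≤ (1 + 1 / 500) * α := by
    rw [div_le_iff₀ p1]
    exact h1 _
  have b2 : (cnt A (bohr Γ ρ₂) (x₀ + t) : ℝ) / n2 ≤ (1 + 1 / 500) * α := by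
    rw [div_le_iff₀ p2]
    exact h2 _
  refine ⟨x₀ + t, ?_, ?_⟩
  · have : (1 - 1 / 200) * α ≤ (cnt A (bohr Γ ρ₁) (x₀ + t) : ℝ) / n1 := by linarith
    rwa [le_div_iff₀ p1] at this
  · have : (1 - 1 / 200) * α ≤ (cnt A (bohr Γ ρ₂) (x₀ + t) : ℝ) / n2 := by linarith
    rwa [le_div_iff₀ p2] at this

end Vale.Agent.P057
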