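import Vale.Agent.P057.Mods

open Finset

namespace Vale.Agent.P057
namespace BdoubAux

variable {G : Type} [AddCommGroup G] [Fintype G]

/-- cell of a point with respect to one character -/
noncomputable def cell (ρ : ℝ) (ψ : AddChar G ℂ) (x : G) : ℤ × ℤ :=
  (⌊4 * ((ψ x).re - 1) / ρ⌋, ⌊4 * (ψ x).im / ρ⌋)

lemma floor_mem (u : ℝ) (h : |u| ≤ 4) : ⌊u⌋ ∈ Finset.Icc (-4 : ℤ) 4 := by
  rw [Finset.mem_Icc]
  obtain ⟨h1, h2⟩ := abs_le.mp h
  constructor
  · rw [Int.le_floor]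
    push_cast
    exact h1
  · have : (⌊u⌋ : ℝ) ≤ 4 := (Int.floor_le u).trans h2
    exact_mod_cast this

lemma floor_close (u v : ℝ) (h : ⌊u⌋ = ⌊v⌋) : |u - v| ≤ 1 := by
  have h1 := Int.floor_le u
  have h2 := Int.lt_floor_add_one u
  have h3 := Int.floor_le v
  have h4 := Int.lt_floor_add_one v
  rw [h] at h1 h2
  rw [abs_le]
  constructor <;> linarith

lemma cell_mem (ρ : ℝ) (hρ : 0 < ρ) (ψ : AddChar G ℂ) (x : G) (h : ‖ψ x - 1‖ ≤ ρ) :
    cell ρ ψ x ∈ Finset.Icc (-4 : ℤ) 4 ×ˢ Finset.Icc (-4 : ℤ) 4 := by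
  rw [Finset.mem_product]
  constructor
  · apply floor_mem
    have h1 : |(ψ x).re - 1| ≤ ρ := by
      have := Complex.abs_re_le_norm (ψ x - 1)
      simp only [Complex.sub_re, Complex.one_re] at this
      exact this.trans h
    rw [abs_div, abs_mul, abs_of_pos hρ, abs_of_pos (by norm_num : (0:ℝ) < 4), div_le_iff₀ hρ]
    linarith
  · apply floor_mem
    have h1 : |(ψ x).im| ≤ ρ := by
      have := Complex.abs_im_le_norm (ψ x - 1)
      simp only [Complex.sub_im, Complex.one_im, sub_zero] at this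
      exact this.trans h
    rw [abs_div, abs_mul, abs_of_pos hρ, abs_of_pos (by norm_num : (0:ℝ) < 4), div_le_iff₀ hρ]
    linarith

lemma norm_sub_char (ψ : AddChar G ℂ) (x x' : G) : ‖ψ (x - x') - 1‖ = ‖ψ x - ψ x'‖ := by
  have e : ψ x = ψ (x - x') * ψ x' := by
    rw [← AddChar.map_add_eq_mul, sub_add_cancel]
  have e2 : ψ x - ψ x' = (ψ (x - x') - 1) * ψ x' := by
    rw [sub_mul, one_mul, ← e]
  rw [e2, norm_mul, AddChar.norm_apply, mul_one]

lemma cell_close (ρ : ℝ) (hρ : 0 < ρ) (ψ : AddChar G ℂ) (x x' : G) (h : cell ρ ψ x = cell ρ ψ x') :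
    ‖ψ (x - x') - 1‖ ≤ ρ / 2 := by
  rw [norm_sub_char]
  unfold cell at h
  rw [Prod.mk.injEq] at h
  obtain ⟨h1, h2⟩ := h
  have h3 := floor_close _ _ h1
  have h4 := floor_close _ _ h2
  have e1 : 4 * ((ψ x).re - 1) / ρ - 4 * ((ψ x').re - 1) / ρ = 4 * ((ψ x).re - (ψ x').re) / ρ := by ring
  have e2 : 4 * (ψ x).im / ρ - 4 * (ψ x').im / ρ = 4 * ((ψ x).im - (ψ x').im) / ρ := by ring
  rw [e1, abs_div, abs_mul, abs_of_pos hρ, abs_of_pos (by norm_num : (0:ℝ) < 4), div_le_iff₀ hρ] at h3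
  rw [e2, abs_div, abs_mul, abs_of_pos hρ, abs_of_pos (by norm_num : (0:ℝ) < 4), div_le_iff₀ hρ] at h4
  have h5 := Complex.norm_le_abs_re_add_abs_im (ψ x - ψ x')
  simp only [Complex.sub_re, Complex.sub_im] at h5
  linarith

end BdoubAux

open Classical in
theorem bdoub_proof : BDOUB := by
  intro G _ _ Γ ρ hρ
  set t : Finset (↥Γ → ℤ × ℤ) :=
    Fintype.piFinset (fun _ : ↥Γ => Finset.Icc (-4 : ℤ) 4 ×ˢ Finset.Icc (-4 : ℤ) 4) with ht
  have htc : t.card = 81 ^ Γ.card := by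
    rw [ht, Fintype.card_piFinset, Finset.prod_const, Finset.card_product, Int.card_Icc, Finset.card_univ,
      Fintype.card_coe]
    rfl
  set f : G → (↥Γ → ℤ × ℤ) := fun x ψ => BdoubAux.cell ρ ψ.1 x with hf
  have hmaps : ∀ x ∈ bohr Γ ρ, f x ∈ t := by
    intro x hx
    unfold bohr at hx
    rw [Finset.mem_filter] at hx
    rw [ht, Fintype.mem_piFinset]
    intro ψ
    exact BdoubAux.cell_mem ρ hρ ψ.1 x (hx.2 ψ.1 ψ.2)
  have hfib : ∀ c ∈ t, ((bohr Γ ρ).filter (fun x => f x = c)).card ≤ (bohr Γ (ρ / 2)).card := by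
    intro c _
    rcases Finset.eq_empty_or_nonempty ((bohr Γ ρ).filter (fun x => f x = c)) with he | ⟨x₀, hx₀⟩
    · rw [he]; simp
    · refine Finset.card_le_card_of_injOn (fun x => x - x₀) ?_ (fun a _ b _ hab => sub_left_injective hab)
      intro x hx
      rw [Finset.mem_coe, Finset.mem_filter] at hx
      rw [Finset.mem_filter] at hx₀
      rw [Finset.mem_coe]
      unfold bohr
      rw [Finset.mem_filter]
      refine ⟨Finset.mem_univ _, fun ψ hψ => ?_⟩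
      apply BdoubAux.cell_close ρ hρ
      have h1 : f x ⟨ψ, hψ⟩ = f x₀ ⟨ψ, hψ⟩ := by rw [hx.2, hx₀.2]
      exact h1
  have h := Finset.card_le_mul_card_image_of_maps_to hmaps _ hfib
  rw [htc] at h
  refine h.trans (le_of_eq ?_)
  ring

end Vale.Agent.P057
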