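import Vale.Agent.P057.Mods

/-! # P057: mass near the boundary of a regular Bohr set (module BDRY) -/

open Finset

namespace Vale.Agent.P057

namespace BD

noncomputable section

variable {G : Type} [AddCommGroup G] [Fintype G]

theorem mem_bohr {Γ : Finset (AddChar G ℂ)} {ρ : ℝ} {x : G} :
    x ∈ bohr Γ ρ ↔ ∀ ψ ∈ Γ, ‖ψ x - 1‖ ≤ ρ := by
  unfold bohr
  simp

theorem zero_mem {Γ : Finset (AddChar G ℂ)} {ρ : ℝ} (h : 0 ≤ ρ) : (0 : G) ∈ bohr Γ ρ := by
  rw [mem_bohr]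
  intro ψ _
  simpa using h

theorem mono {Γ : Finset (AddChar G ℂ)} {ρ ρ' : ℝ} (h : ρ ≤ ρ') {x : G} (hx : x ∈ bohr Γ ρ) :
    x ∈ bohr Γ ρ' := by
  rw [mem_bohr] at hx ⊢
  exact fun ψ hψ => (hx ψ hψ).trans h

theorem subset {Γ : Finset (AddChar G ℂ)} {ρ ρ' : ℝ} (h : ρ ≤ ρ') :
    bohr Γ ρ ⊆ bohr Γ ρ' := fun _ hx => mono h hx

theorem neg_mem {Γ : Finset (AddChar G ℂ)} {ρ : ℝ} {x : G} (hx : x ∈ bohr Γ ρ) :
    -x ∈ bohr Γ ρ := by
  rw [mem_bohr] at hx ⊢
  intro ψ hψ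
  have h1 := hx ψ hψ
  have h2 : ψ (-x) - 1 = - (ψ (-x) * (ψ x - 1)) := by
    have : ψ (-x) * ψ x = 1 := by
      rw [← AddChar.map_add_eq_mul]; simp
    rw [mul_sub, this]; ring
  rw [h2, norm_neg, norm_mul, AddChar.norm_apply, one_mul]
  exact h1

theorem add_mem {Γ : Finset (AddChar G ℂ)} {ρ ρ' : ℝ} {x y : G} (hx : x ∈ bohr Γ ρ)
    (hy : y ∈ bohr Γ ρ') : x + y ∈ bohr Γ (ρ + ρ') := by
  rw [mem_bohr] at hx hy ⊢
  intro ψ hψ
  have h1 := hx ψ hψ
  have h2 := hy ψ hψ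
  have h3 : ψ (x + y) - 1 = ψ x * (ψ y - 1) + (ψ x - 1) := by
    rw [AddChar.map_add_eq_mul]; ring
  rw [h3]
  calc ‖ψ x * (ψ y - 1) + (ψ x - 1)‖ ≤ ‖ψ x * (ψ y - 1)‖ + ‖ψ x - 1‖ := norm_add_le _ _
    _ = ‖ψ y - 1‖ + ‖ψ x - 1‖ := by rw [norm_mul, AddChar.norm_apply, one_mul]
    _ ≤ ρ + ρ' := by linarith

theorem sub_mem {Γ : Finset (AddChar G ℂ)} {ρ ρ' : ℝ} {x y : G} (hx : x ∈ bohr Γ ρ)
    (hy : y ∈ bohr Γ ρ') : x - y ∈ bohr Γ (ρ + ρ') := by
  rw [sub_eq_add_neg]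
  exact add_mem hx (neg_mem hy)

theorem kap_pos (d : ℕ) : 0 < kap d := by unfold kap; positivity

theorem kap_le (d : ℕ) : kap d ≤ 1 / 2 ^ 24 := by
  unfold kap
  apply one_div_le_one_div_of_le (by positivity)
  have : (0 : ℝ) ≤ d := Nat.cast_nonneg d
  nlinarith

theorem eps0_val : eps0 = 1 / 4096 := by unfold eps0; norm_num

open Classical in
/-- the annulus -/
theorem annulus {Γ : Finset (AddChar G ℂ)} {ρ : ℝ} (hρ : 0 < ρ) (hreg : Reg Γ ρ) :
    ((bohr Γ ((1 + kap Γ.card) * ρ) \ bohr Γ ((1 - 2 * kap Γ.card) * ρ)).card : ℝ) ≤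
      eps0 * (bohr Γ ρ).card := by
  have hk := kap_pos Γ.card
  have h1 : bohr Γ ((1 - 2 * kap Γ.card) * ρ) ⊆ bohr Γ ((1 + kap Γ.card) * ρ) :=
    subset (by nlinarith)
  rw [cast_card_sdiff h1]
  have h2 : ((bohr Γ ((1 + kap Γ.card) * ρ)).card : ℝ) ≤
      (bohr Γ ((1 + 2 * kap Γ.card) * ρ)).card := by
    exact_mod_cast card_le_card (subset (by nlinarith))
  have h3 : ((bohr Γ ((1 - 2 * kap Γ.card) * ρ)).card : ℝ) ≤ (bohr Γ ρ).card := by
    exact_mod_cast card_le_card (subset (by nlinarith))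
  have h4 : ((bohr Γ ((1 + 2 * kap Γ.card) * ρ)).card : ℝ) ≤
    (1 + eps0) * ((bohr Γ ((1 - 2 * kap Γ.card) * ρ)).card : ℝ) := hreg
  have h5 : 0 ≤ eps0 := by rw [eps0_val]; norm_num
  nlinarith [mul_le_mul_of_nonneg_left h3 h5]

omit [Fintype G] in
theorem cnt_le_card (A B : Finset G) (x : G) : cnt A B x ≤ B.card := by
  classical
  unfold cnt
  apply card_le_card_of_injOn (fun a => a - x)
  · intro a ha
    simp only [coe_filter, Set.mem_ofPred_eq] at ha
    exact ha.2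
  · intro a _ b _ h
    simpa using h

end

end BD

open BD in
theorem bdry_proof : BDRY := by
  classical
  intro G _ _ Γ ρ ρ' s A hρ hreg hρ' hρ'' hs hA x
  have hk := kap_pos Γ.card
  set κ := kap Γ.card with hκ
  set R := bohr Γ ρ \ bohr Γ ((1 - κ) * ρ) with hR
  set S := bohr Γ ((1 + κ) * ρ) \ bohr Γ ((1 - 2 * κ) * ρ) with hS
  set B' := bohr Γ ρ' with hB'
  have hsub : bohr Γ ((1 - κ) * ρ) ⊆ bohr Γ ρ := subset (by nlinarith)
  -- splitting
  have hsplit : cnt A (bohr Γ ρ) x ≤ cnt A (bohr Γ ((1 - κ) * ρ)) x + cnt A R x := by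
    unfold cnt
    refine le_trans (card_le_card ?_) (card_union_le _ _)
    intro a ha
    rw [mem_filter] at ha
    rw [mem_union, mem_filter, mem_filter, hR, mem_sdiff]
    by_cases h : a - x ∈ bohr Γ ((1 - κ) * ρ)
    · exact Or.inl ⟨ha.1, h⟩
    · exact Or.inr ⟨ha.1, ha.2, h⟩
  -- R - B' inside S
  have hRS : ∀ r ∈ R, ∀ b ∈ B', r - b ∈ S := by
    intro r hr b hb
    rw [hR, mem_sdiff] at hr
    rw [hS, mem_sdiff]
    constructor
    · exact mono (by nlinarith) (sub_mem hr.1 hb)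
    · intro h
      apply hr.2
      have := add_mem h hb
      rw [sub_add_cancel] at this
      exact mono (by nlinarith) this
  -- double counting
  have hcount : cnt A R x * B'.card ≤ ∑ y ∈ S.image (fun t => x + t), cnt A B' y := by
    have h1 : cnt A R x * B'.card = ((A.filter (fun a => a - x ∈ R)) ×ˢ B').card := by
      rw [card_product]; rfl
    rw [h1]
    have h2 : ∀ q ∈ (A.filter (fun a => a - x ∈ R)) ×ˢ B',
        q.1 - q.2 ∈ S.image (fun t => x + t) := by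
      intro q hq
      rw [mem_product, mem_filter] at hq
      rw [mem_image]
      exact ⟨q.1 - x - q.2, hRS _ hq.1.2 _ hq.2, by abel⟩
    rw [card_eq_sum_card_fiberwise h2]
    apply sum_le_sum
    intro y _
    unfold cnt
    apply card_le_card_of_injOn (fun q => q.1)
    · intro q hq
      simp only [coe_filter, Set.mem_ofPred_eq, mem_product, mem_filter] at hq ⊢
      refine ⟨hq.1.1.1, ?_⟩
      rw [← hq.2]
      simpa using hq.1.2
    · intro q hq q' hq' h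
      simp only [coe_filter, Set.mem_ofPred_eq] at hq hq'
      have e1 := hq.2
      have e2 := hq'.2
      simp only at h
      ext
      · exact h
      · have : q.1 - q.2 = q'.1 - q'.2 := by rw [e1, e2]
        rw [h] at this
        exact sub_right_injective this
  have hcard : (S.image (fun t => x + t)).card = S.card :=
    card_image_of_injective _ (add_right_injective x)
  have hcountR : (cnt A R x : ℝ) * B'.card ≤ (S.card : ℝ) * (s * B'.card) := by
    have h1 : ((cnt A R x * B'.card : ℕ) : ℝ) ≤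
        ((∑ y ∈ S.image (fun t => x + t), cnt A B' y : ℕ) : ℝ) := by exact_mod_cast hcount
    push_cast at h1
    refine h1.trans ?_
    calc ∑ y ∈ S.image (fun t => x + t), (cnt A B' y : ℝ)
        ≤ ∑ _y ∈ S.image (fun t => x + t), s * (B'.card : ℝ) := sum_le_sum (fun y _ => hA y)
      _ = (S.card : ℝ) * (s * B'.card) := by rw [sum_const, hcard, nsmul_eq_mul]
  have hB'pos : (0 : ℝ) < B'.card := by
    have : 0 < B'.card := card_pos.mpr ⟨0, zero_mem hρ'.le⟩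
    exact_mod_cast this
  have hRle : (cnt A R x : ℝ) ≤ S.card * s := by
    have : (cnt A R x : ℝ) * B'.card ≤ ((S.card : ℝ) * s) * B'.card := by linarith
    exact le_of_mul_le_mul_right this hB'pos
  have hSle : (S.card : ℝ) ≤ eps0 * (bohr Γ ρ).card := annulus hρ hreg
  have h1 : (cnt A (bohr Γ ρ) x : ℝ) ≤ cnt A (bohr Γ ((1 - κ) * ρ)) x + cnt A R x := by
    exact_mod_cast hsplit
  have h2 : (S.card : ℝ) * s ≤ (eps0 * (bohr Γ ρ).card) * s :=
    mul_le_mul_of_nonneg_right hSle hs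
  linarith

end Vale.Agent.P057
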