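import Vale.Agent.P057.Mods

/-!
# P057: elementary properties of Bohr sets, halved frequencies
-/

open Finset

namespace Vale.Agent.P057

namespace BE

variable {G : Type} [AddCommGroup G] [Fintype G]

theorem mem_bohr (Γ : Finset (AddChar G ℂ)) (ρ : ℝ) (x : G) :
    x ∈ bohr Γ ρ ↔ ∀ ψ ∈ Γ, ‖ψ x - 1‖ ≤ ρ := by
  simp [bohr]

theorem norm_one (ψ : AddChar G ℂ) (x : G) : ‖ψ x‖ = 1 := ψ.norm_apply x

theorem norm_neg_sub_one (ψ : AddChar G ℂ) (x : G) : ‖ψ (-x) - 1‖ = ‖ψ x - 1‖ := by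
  have h : ψ (-x) * ψ x = 1 := by
    rw [← AddChar.map_add_eq_mul]
    simp
  have h2 : ψ (-x) - 1 = ψ (-x) * (1 - ψ x) := by
    rw [mul_sub, h, mul_one]
  rw [h2, norm_mul, norm_one, one_mul, norm_sub_rev]

theorem norm_add_sub_one (ψ : AddChar G ℂ) (x y : G) :
    ‖ψ (x + y) - 1‖ ≤ ‖ψ x - 1‖ + ‖ψ y - 1‖ := by
  have h : ψ (x + y) - 1 = ψ x * (ψ y - 1) + (ψ x - 1) := by
    rw [AddChar.map_add_eq_mul]
    ring
  rw [h]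
  calc ‖ψ x * (ψ y - 1) + (ψ x - 1)‖ ≤ ‖ψ x * (ψ y - 1)‖ + ‖ψ x - 1‖ := norm_add_le _ _
    _ = ‖ψ x - 1‖ + ‖ψ y - 1‖ := by rw [norm_mul, norm_one, one_mul, add_comm]

theorem norm_sub_sub (ψ : AddChar G ℂ) (x y : G) : ‖ψ (x - y) - 1‖ = ‖ψ x - ψ y‖ := by
  have h : ψ x = ψ (x - y) * ψ y := by
    rw [← AddChar.map_add_eq_mul]
    simp
  have h2 : ψ x - ψ y = (ψ (x - y) - 1) * ψ y := by
    rw [sub_mul, ← h, one_mul]
  rw [h2, norm_mul, norm_one, mul_one]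

theorem zero_mem (Γ : Finset (AddChar G ℂ)) {ρ : ℝ} (hρ : 0 ≤ ρ) : (0 : G) ∈ bohr Γ ρ := by
  rw [mem_bohr]
  intro ψ _
  simpa using hρ

theorem neg_mem {Γ : Finset (AddChar G ℂ)} {ρ : ℝ} {x : G} (h : x ∈ bohr Γ ρ) :
    -x ∈ bohr Γ ρ := by
  rw [mem_bohr] at h ⊢
  intro ψ hψ
  rw [norm_neg_sub_one]
  exact h ψ hψ

theorem mem_mono {Γ : Finset (AddChar G ℂ)} {ρ ρ' : ℝ} {x : G} (hρ : ρ ≤ ρ') (h : x ∈ bohr Γ ρ) :
    x ∈ bohr Γ ρ' := by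
  rw [mem_bohr] at h ⊢
  intro ψ hψ
  exact (h ψ hψ).trans hρ

theorem add_mem {Γ : Finset (AddChar G ℂ)} {ρ ρ' : ℝ} {x y : G} (h : x ∈ bohr Γ ρ)
    (h' : y ∈ bohr Γ ρ') : x + y ∈ bohr Γ (ρ + ρ') := by
  rw [mem_bohr] at h h' ⊢
  intro ψ hψ
  exact (norm_add_sub_one ψ x y).trans (add_le_add (h ψ hψ) (h' ψ hψ))

theorem sub_mem {Γ : Finset (AddChar G ℂ)} {ρ ρ' : ℝ} {x y : G} (h : x ∈ bohr Γ ρ)
    (h' : y ∈ bohr Γ ρ') : x - y ∈ bohr Γ (ρ + ρ') := by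
  rw [sub_eq_add_neg]
  exact add_mem h (neg_mem h')

theorem sum_mem {Γ : Finset (AddChar G ℂ)} {ρ : ℝ} (n : ℕ) :
    ∀ (y : Fin n → G), (∀ i, y i ∈ bohr Γ ρ) → ∑ i, y i ∈ bohr Γ (n * ρ) := by
  induction n with
  | zero =>
    intro y _
    simpa using zero_mem Γ (le_refl 0)
  | succ n ih =>
    intro y hy
    rw [Fin.sum_univ_succ]
    have h := add_mem (hy 0) (ih (fun i => y i.succ) (fun i => hy i.succ))
    have e : ρ + (n : ℝ) * ρ = ((n + 1 : ℕ) : ℝ) * ρ := by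
      push_cast
      ring
    rw [e] at h
    exact h

end BE

theorem belem_proof : BELEM := by
  intro G _ _ Γ
  exact ⟨fun ρ h => BE.zero_mem Γ h, fun ρ x h => BE.neg_mem h, fun ρ ρ' x h h' => BE.mem_mono h h',
    fun ρ ρ' x y h h' => BE.add_mem h h', fun ρ ρ' x y h h' => BE.sub_mem h h',
    fun ρ n y h => BE.sum_mem n y h⟩

end Vale.Agent.P057
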