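import Vale.Agent.P057.Belem

/-!
# P057: halved frequencies
-/

open Finset

namespace Vale.Agent.P057

namespace BH

variable {G : Type} [AddCommGroup G] [Fintype G]

/-- doubling as an additive equivalence -/
noncomputable def dbl (h : Function.Bijective (fun x : G => x + x)) : G ≃+ G :=
  AddEquiv.ofBijective (AddMonoidHom.mk' (fun x : G => x + x) (fun a b => by abel)) h

theorem dbl_apply (h : Function.Bijective (fun x : G => x + x)) (x : G) : dbl h x = x + x := rfl

/-- character composed with halving -/
noncomputable def hch (h : Function.Bijective (fun x : G => x + x)) (ψ : AddChar G ℂ) :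
    AddChar G ℂ := ψ.compAddMonoidHom (dbl h).symm.toAddMonoidHom

theorem hch_apply (h : Function.Bijective (fun x : G => x + x)) (ψ : AddChar G ℂ) (x : G) :
    hch h ψ (x + x) = ψ x := by
  have e : (dbl h).symm (x + x) = x := by
    rw [AddEquiv.symm_apply_eq, dbl_apply]
  show ψ ((dbl h).symm (x + x)) = ψ x
  rw [e]

end BH

theorem bhalf_proof : BHALF := by
  classical
  intro G _ _ h Γ
  have hinj : Function.Injective (BH.hch h) := by
    intro ψ ψ' e
    ext x
    rw [← BH.hch_apply h ψ x, ← BH.hch_apply h ψ' x, e]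
  refine ⟨Γ.image (BH.hch h), card_image_of_injective _ hinj, ?_⟩
  intro ρ x
  rw [BE.mem_bohr, BE.mem_bohr]
  constructor
  · intro hx ψ hψ
    obtain ⟨φ, hφ, rfl⟩ := mem_image.mp hψ
    rw [BH.hch_apply]
    exact hx φ hφ
  · intro hx ψ hψ
    have := hx (BH.hch h ψ) (mem_image_of_mem _ hψ)
    rwa [BH.hch_apply] at this

end Vale.Agent.P057
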