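import Vale.Agent.P057.Belem

/-!
# P057: size and doubling of Bohr sets
-/

open Finset

namespace Vale.Agent.P057

namespace BS

variable {G : Type} [AddCommGroup G] [Fintype G]

/-- cell of a real number -/
noncomputable def cl (r σ t : ℝ) : ℤ := ⌊(t - r) / σ⌋

theorem cl_eq {r σ t t' : ℝ} (hσ : 0 < σ) (h : cl r σ t = cl r σ t') : |t - t'| ≤ σ := by
  unfold cl at h
  have h1 : |(t - r) / σ - (t' - r) / σ| < 1 := Int.abs_sub_lt_one_of_floor_eq_floor h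
  have h2 : (t - r) / σ - (t' - r) / σ = (t - t') / σ := by ring
  rw [h2, abs_div, abs_of_pos hσ, div_lt_one hσ] at h1
  exact h1.le

theorem norm_le_of {z : ℂ} {σ ρ : ℝ} (h1 : |z.re| ≤ σ) (h2 : |z.im| ≤ σ) (hρ : 0 ≤ ρ)
    (h : 2 * σ ^ 2 ≤ ρ ^ 2) : ‖z‖ ≤ ρ := by
  rw [← Real.sqrt_sq hρ, Complex.norm_def]
  apply Real.sqrt_le_sqrt
  rw [Complex.normSq_apply]
  have a1 : z.re * z.re ≤ σ ^ 2 := by
    have := sq_le_sq' (by linarith [abs_nonneg z.re, neg_abs_le z.re]) h1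
    rw [sq_abs] at this
    nlinarith
  have a2 : z.im * z.im ≤ σ ^ 2 := by
    have := sq_le_sq' (by linarith [abs_nonneg z.im, neg_abs_le z.im]) h2
    rw [sq_abs] at this
    nlinarith
  linarith

theorem cells (Γ : Finset (AddChar G ℂ)) (r σ ρ : ℝ) (S : Finset G) (R : Finset ℤ) (hσ : 0 < σ)
    (hρ : 0 ≤ ρ) (h2 : 2 * σ ^ 2 ≤ ρ ^ 2)
    (hR : ∀ x ∈ S, ∀ ψ ∈ Γ, cl r σ (ψ x).re ∈ R ∧ cl 0 σ (ψ x).im ∈ R) :
    S.card ≤ (bohr Γ ρ).card * (R.card ^ 2) ^ Γ.card := by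
  classical
  let f : G → (Γ → ℤ × ℤ) := fun x ψ => (cl r σ ((ψ : AddChar G ℂ) x).re, cl 0 σ ((ψ : AddChar G ℂ) x).im)
  let t : Finset (Γ → ℤ × ℤ) := Fintype.piFinset (fun _ => R ×ˢ R)
  have hmap : ∀ a ∈ S, f a ∈ t := by
    intro a ha
    rw [Fintype.mem_piFinset]
    intro ψ
    exact mem_product.mpr (hR a ha ψ ψ.2)
  have hfib : ∀ b ∈ t, (S.filter (fun a => f a = b)).card ≤ (bohr Γ ρ).card := by
    intro b _
    rcases (S.filter (fun a => f a = b)).eq_empty_or_nonempty with he | ⟨x₀, hx₀⟩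
    · rw [he]
      simp
    · apply card_le_card_of_injOn (fun x => x - x₀)
      · intro x hx
        rw [mem_coe, mem_filter] at hx
        rw [mem_filter] at hx₀
        rw [mem_coe, BE.mem_bohr]
        intro ψ hψ
        rw [BE.norm_sub_sub]
        have e : f x = f x₀ := by rw [hx.2, hx₀.2]
        have e1 := congrFun e ⟨ψ, hψ⟩
        have e2 := Prod.ext_iff.mp e1
        apply norm_le_of (σ := σ) _ _ hρ h2
        · rw [Complex.sub_re]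
          exact cl_eq hσ e2.1
        · rw [Complex.sub_im]
          exact cl_eq hσ e2.2
      · intro x _ y _ hxy
        exact sub_left_injective hxy
  have h := card_le_mul_card_image_of_maps_to hmap _ hfib
  have ht : t.card = (R.card ^ 2) ^ Γ.card := by
    show (Fintype.piFinset (fun _ : Γ => R ×ˢ R)).card = _
    rw [Fintype.card_piFinset, prod_const, card_product, card_univ, Fintype.card_coe, sq]
  rw [ht] at h
  exact h

theorem re_le (ψ : AddChar G ℂ) (x : G) : |(ψ x).re| ≤ 1 := by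
  rw [← BE.norm_one ψ x]
  exact Complex.abs_re_le_norm _

theorem im_le (ψ : AddChar G ℂ) (x : G) : |(ψ x).im| ≤ 1 := by
  rw [← BE.norm_one ψ x]
  exact Complex.abs_im_le_norm _

theorem cl_mem {r σ t u : ℝ} (hσ : 0 < σ) (h : |t - r| ≤ u) :
    cl r σ t ∈ Icc ⌊-(u / σ)⌋ ⌊u / σ⌋ := by
  rw [abs_le] at h
  rw [mem_Icc]
  unfold cl
  constructor
  · apply Int.floor_le_floor
    rw [← neg_div]
    exact div_le_div_of_nonneg_right h.1 hσ.le
  · apply Int.floor_le_floor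
    exact div_le_div_of_nonneg_right h.2 hσ.le

end BS

theorem bsize_proof : BSIZE := by
  intro G _ _ Γ ρ hρ hρ1
  have hσ : 0 < ρ / 2 := by positivity
  have hc := BS.cells Γ 0 (ρ / 2) ρ univ (Icc ⌊-((1 : ℝ) / (ρ / 2))⌋ ⌊(1 : ℝ) / (ρ / 2)⌋) hσ hρ.le
    (by nlinarith [sq_nonneg ρ]) (by
      intro x _ ψ _
      exact ⟨BS.cl_mem hσ (by simpa using BS.re_le ψ x), BS.cl_mem hσ (by simpa using BS.im_le ψ x)⟩)
  set R := Icc ⌊-((1 : ℝ) / (ρ / 2))⌋ ⌊(1 : ℝ) / (ρ / 2)⌋ with hR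
  have hK : (R.card : ℝ) ≤ 6 / ρ := by
    rw [hR, Int.card_Icc]
    have h1 : (⌊(1 : ℝ) / (ρ / 2)⌋ : ℝ) ≤ 1 / (ρ / 2) := Int.floor_le _
    have h2 : -((1 : ℝ) / (ρ / 2)) < ⌊-((1 : ℝ) / (ρ / 2))⌋ + 1 := Int.lt_floor_add_one _
    have h3 : (1 : ℝ) / (ρ / 2) = 2 / ρ := by field_simp
    rw [h3] at h1 h2 ⊢
    have h5 : 1 ≤ 1 / ρ := by rwa [le_div_iff₀ hρ, one_mul]
    have h6 : (6 : ℝ) / ρ = 2 / ρ + 2 / ρ + 2 * (1 / ρ) := by ring
    have h7 : (0 : ℤ) ≤ ⌊(2 : ℝ) / ρ⌋ + 1 - ⌊-((2 : ℝ) / ρ)⌋ := by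
      have a1 : (0 : ℤ) ≤ ⌊(2 : ℝ) / ρ⌋ := Int.floor_nonneg.mpr (by positivity)
      have a2 : ⌊-((2 : ℝ) / ρ)⌋ ≤ 0 := by
        rw [Int.floor_le_iff]
        have : 0 < 2 / ρ := by positivity
        push_cast
        linarith
      omega
    have h8 : (((⌊(2 : ℝ) / ρ⌋ + 1 - ⌊-((2 : ℝ) / ρ)⌋).toNat : ℕ) : ℝ)
        = (⌊(2 : ℝ) / ρ⌋ : ℝ) + 1 - ⌊-((2 : ℝ) / ρ)⌋ := by
      have : (((⌊(2 : ℝ) / ρ⌋ + 1 - ⌊-((2 : ℝ) / ρ)⌋).toNat : ℤ) : ℝ)
          = (⌊(2 : ℝ) / ρ⌋ : ℝ) + 1 - ⌊-((2 : ℝ) / ρ)⌋ := by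
        rw [Int.toNat_of_nonneg h7]
        push_cast
        ring
      exact_mod_cast this
    rw [h8, h6]
    linarith
  have hc' : (Fintype.card G : ℝ) ≤ (bohr Γ ρ).card * ((R.card : ℝ) ^ 2) ^ Γ.card := by
    rw [card_univ] at hc
    exact_mod_cast hc
  have hK2 : ((R.card : ℝ) ^ 2) ≤ 36 / ρ ^ 2 := by
    have h0 : (0 : ℝ) ≤ R.card := Nat.cast_nonneg _
    calc (R.card : ℝ) ^ 2 ≤ (6 / ρ) ^ 2 := pow_le_pow_left₀ h0 hK 2
      _ = 36 / ρ ^ 2 := by ring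
  have hp : 0 ≤ (ρ ^ 2 / 36) ^ Γ.card := by positivity
  calc (ρ ^ 2 / 36) ^ Γ.card * (Fintype.card G : ℝ)
      ≤ (ρ ^ 2 / 36) ^ Γ.card * ((bohr Γ ρ).card * ((R.card : ℝ) ^ 2) ^ Γ.card) :=
        mul_le_mul_of_nonneg_left hc' hp
    _ ≤ (ρ ^ 2 / 36) ^ Γ.card * ((bohr Γ ρ).card * (36 / ρ ^ 2) ^ Γ.card) := by
        apply mul_le_mul_of_nonneg_left _ hp
        apply mul_le_mul_of_nonneg_left _ (Nat.cast_nonneg _)
        exact pow_le_pow_left₀ (by positivity) hK2 _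
    _ = (bohr Γ ρ).card := by
        have : (ρ ^ 2 / 36) ^ Γ.card * (36 / ρ ^ 2) ^ Γ.card = 1 := by
          rw [← mul_pow]
          have : ρ ^ 2 / 36 * (36 / ρ ^ 2) = 1 := by field_simp
          rw [this, one_pow]
        rw [mul_left_comm, this, mul_one]

theorem bdoub_proof : BDOUB := by
  intro G _ _ Γ ρ hρ
  have hσ : 0 < ρ / 4 := by positivity
  have hc := BS.cells Γ 1 (ρ / 4) (ρ / 2) (bohr Γ ρ) (Icc (-4) 4) hσ (by positivity)
    (by nlinarith [sq_nonneg ρ]) (by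
      intro x hx ψ hψ
      rw [BE.mem_bohr] at hx
      have h := hx ψ hψ
      have h1 : |(ψ x).re - 1| ≤ ρ := by
        have := Complex.abs_re_le_norm (ψ x - 1)
        rw [Complex.sub_re, Complex.one_re] at this
        linarith
      have h2 : |(ψ x).im - 0| ≤ ρ := by
        have := Complex.abs_im_le_norm (ψ x - 1)
        rw [Complex.sub_im, Complex.one_im] at this
        linarith
      have e : ρ / (ρ / 4) = 4 := by field_simp
      have f1 : ⌊-(ρ / (ρ / 4))⌋ = -4 := by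
        rw [e]
        norm_num
      have f2 : ⌊ρ / (ρ / 4)⌋ = 4 := by
        rw [e]
        norm_num
      have m1 := BS.cl_mem hσ h1
      have m2 := BS.cl_mem hσ h2
      rw [f1, f2] at m1 m2
      exact ⟨m1, m2⟩)
  have e : (Icc (-4 : ℤ) 4).card = 9 := by decide
  rw [e] at hc
  have : 81 ^ Γ.card * (bohr Γ (ρ / 2)).card = (bohr Γ (ρ / 2)).card * (9 ^ 2) ^ Γ.card := by
    norm_num [mul_comm]
  have hc' : ((bohr Γ ρ).card : ℝ) ≤ 81 ^ Γ.card * (bohr Γ (ρ / 2)).card := by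
    exact_mod_cast (this ▸ hc)
  exact_mod_cast hc'

end Vale.Agent.P057
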