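import Vale.Agent.P057.Mods

open Finset

namespace Vale.Agent.P057.CS

open Vale.Agent.P057

theorem csm_proof : CSM := by
  intro G _ _ f D v p hD
  classical
  set U : (Fin p → G) → ℝ := fun s => ∑ b ∈ D, ∏ i, f (b + s i) with hU
  have hconv : ∀ b b' : G, conv f (b - b' + v) = ∑ s, f (b + s) * f (v - b' - s) := by
    intro b b'
    unfold conv
    rw [← Equiv.sum_comp (Equiv.addLeft b)]
    apply Finset.sum_congr rfl
    intro s _
    simp only [Equiv.coe_addLeft]
    congr 2
    abel
  have hcorr : ∀ b b' : G, corr f (b - b') = ∑ s, f (b + s) * f (b' + s) := by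
    intro b b'
    unfold corr
    rw [← Equiv.sum_comp (Equiv.addLeft b')]
    apply Finset.sum_congr rfl
    intro s _
    simp only [Equiv.coe_addLeft]
    congr 2
    abel
  have hpow : ∀ h : G → ℝ, (∑ s, h s) ^ p = ∑ s : Fin p → G, ∏ i, h (s i) := by
    intro h
    have := Finset.prod_univ_sum (fun _ : Fin p => (univ : Finset G)) (fun _ j => h j)
    simpa using this
  have hcorrsum : ∑ b ∈ D, ∑ b' ∈ D, (corr f (b - b')) ^ p = ∑ s, U s ^ 2 := by
    simp only [hcorr, hpow, Finset.prod_mul_distrib]
    rw [Finset.sum_congr rfl fun b _ => Finset.sum_comm, Finset.sum_comm]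
    apply Finset.sum_congr rfl
    intro s _
    rw [sq, hU]
    simp only
    rw [Finset.sum_mul_sum]
  have hneg : ∀ h : G → ℝ, ∑ b ∈ D, h (-b) = ∑ b ∈ D, h b := by
    intro h
    apply Finset.sum_nbij' (fun b => -b) (fun b => -b)
    · exact hD
    · exact hD
    · intro b _; simp
    · intro b _; simp
    · intro b _; rfl
  have hconvsum : ∑ b ∈ D, ∑ b' ∈ D, (conv f (b - b' + v)) ^ p =
      ∑ s : Fin p → G, U s * U (fun i => v - s i) := by
    simp only [hconv, hpow, Finset.prod_mul_distrib]
    rw [Finset.sum_congr rfl fun b _ => Finset.sum_comm, Finset.sum_comm]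
    apply Finset.sum_congr rfl
    intro s _
    rw [hU]
    simp only
    rw [← hneg (fun b => ∏ i, f (b + (v - s i))), Finset.sum_mul_sum]
    apply Finset.sum_congr rfl
    intro b _
    apply Finset.sum_congr rfl
    intro b' _
    congr 1
    apply Finset.prod_congr rfl
    intro i _
    congr 1
    abel
  have hswap : ∑ s : Fin p → G, U (fun i => v - s i) ^ 2 = ∑ s : Fin p → G, U s ^ 2 := by
    let e : (Fin p → G) ≃ (Fin p → G) := Equiv.piCongrRight fun _ => Equiv.subLeft v
    rw [← Equiv.sum_comp e (fun s => U s ^ 2)]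
    rfl
  refine ⟨?_, ?_⟩
  · rw [hconvsum, hcorrsum]
    have : ∑ s : Fin p → G, U s * U (fun i => v - s i) ≤
        ∑ s : Fin p → G, (U s ^ 2 + U (fun i => v - s i) ^ 2) / 2 := by
      apply Finset.sum_le_sum
      intro s _
      nlinarith [sq_nonneg (U s - U (fun i => v - s i))]
    rw [← Finset.sum_div, Finset.sum_add_distrib, hswap] at this
    linarith
  · rw [hcorrsum]
    exact Finset.sum_nonneg fun s _ => sq_nonneg _

end Vale.Agent.P057.CS
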