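import Vale.Agent.P057.Mods

open Finset

namespace Vale.Agent.P057
namespace ChangAux

variable {G : Type} [AddCommGroup G] [Fintype G]

/-- chord bound for the exponential -/
lemma exp_half_le (t : ℝ) (h : |t| ≤ 1) :
    Real.exp (t / 2) ≤ Real.cosh (1 / 2) + t * Real.sinh (1 / 2) := by
  obtain ⟨h1, h2⟩ := abs_le.mp h
  have ha : (0 : ℝ) ≤ (1 + t) / 2 := by linarith
  have hb : (0 : ℝ) ≤ (1 - t) / 2 := by linarith
  have hab : (1 + t) / 2 + (1 - t) / 2 = 1 := by ring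
  have hc := convexOn_exp.2 (Set.mem_univ (1 / 2 : ℝ)) (Set.mem_univ (-(1 / 2) : ℝ)) ha hb hab
  simp only [smul_eq_mul] at hc
  have e1 : (1 + t) / 2 * (1 / 2) + (1 - t) / 2 * -(1 / 2) = t / 2 := by ring
  rw [e1] at hc
  rw [Real.cosh_eq, Real.sinh_eq]
  nlinarith [hc]

lemma norm_char (ψ : AddChar G ℂ) (x : G) : ‖ψ x‖ = 1 := AddChar.norm_apply ψ x

/-- coefficients of the expansion of one factor -/
noncomputable def coef (τ : ℝ) (c : ℂ) (j : ℤ) : ℂ :=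
  if j = 0 then (1 : ℂ) else if j = 1 then (τ : ℂ) / 2 * c else (τ : ℂ) / 2 * (starRingEnd ℂ) c

/-- the real factor as a sum of three characters -/
lemma factor_expand (c : ℂ) (χ : AddChar G ℂ) (τ : ℝ) (x : G) :
    ((1 + τ * (c * χ x).re : ℝ) : ℂ) =
      ∑ j ∈ ({-1, 0, 1} : Finset ℤ), coef τ c j * (χ ^ j) x := by
  have h1 : (χ ^ (-1 : ℤ)) x = (starRingEnd ℂ) (χ x) := by
    rw [zpow_neg_one, AddChar.inv_apply']
    exact AddChar.inv_apply_eq_conj χ x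
  have h2 : ((c * χ x).re : ℂ) = (c * χ x + (starRingEnd ℂ) (c * χ x)) / 2 := by
    rw [Complex.re_eq_add_conj]
  rw [Finset.sum_insert (by decide), Finset.sum_insert (by decide), Finset.sum_singleton]
  rw [h1]
  push_cast
  rw [h2]
  simp only [coef, zpow_zero, zpow_one, map_mul, AddChar.one_apply]
  norm_num
  ring

lemma coef_norm_sum (τ : ℝ) (hτ : 0 ≤ τ) (c : ℂ) (hc : ‖c‖ = 1) :
    ∑ j ∈ ({-1, 0, 1} : Finset ℤ), ‖coef τ c j‖ = 1 + τ := by
  rw [Finset.sum_insert (by decide), Finset.sum_insert (by decide), Finset.sum_singleton]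
  have h1 : ‖coef τ c (-1)‖ = τ / 2 := by
    simp only [coef]
    norm_num
    rw [hc, abs_of_nonneg hτ]
    ring
  have h2 : ‖coef τ c 0‖ = 1 := by simp [coef]
  have h3 : ‖coef τ c 1‖ = τ / 2 := by
    simp only [coef]
    norm_num
    rw [hc, abs_of_nonneg hτ]
    ring
  rw [h1, h2, h3]
  ring

lemma char_sum {ι : Type*} (ψ : AddChar G ℂ) (s : Finset ι) (f : ι → G) :
    ψ (∑ i ∈ s, f i) = ∏ i ∈ s, ψ (f i) := by
  classical
  induction s using Finset.induction_on with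
  | empty => simp
  | insert a s ha ih =>
    rw [Finset.sum_insert ha, Finset.prod_insert ha, AddChar.map_add_eq_mul, ih]

lemma E_char (D B : Finset G) (n : ℕ) (ψ : AddChar G ℂ) :
    ∑ y ∈ Fintype.piFinset (fun _ : Fin n => B), ∑ u ∈ D, ψ (u + ∑ i, y i)
      = (∑ u ∈ D, ψ u) * (∑ b ∈ B, ψ b) ^ n := by
  have h : ∀ y ∈ Fintype.piFinset (fun _ : Fin n => B),
      ∑ u ∈ D, ψ (u + ∑ i, y i) = (∑ u ∈ D, ψ u) * ∏ i, ψ (y i) := by
    intro y _
    rw [Finset.sum_mul]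
    refine Finset.sum_congr rfl (fun u _ => ?_)
    rw [AddChar.map_add_eq_mul, char_sum]
  rw [Finset.sum_congr rfl h, ← Finset.mul_sum, Finset.sum_prod_piFinset B (fun _ b => ψ b),
    Finset.prod_const, Finset.card_univ, Fintype.card_fin]

open Classical in
/-- extension by zero of a function on `Λ` -/
noncomputable def ext0 (Λ : Finset (AddChar G ℂ)) (p : ↥Λ → ℤ) : AddChar G ℂ → ℤ :=
  fun χ => if h : χ ∈ Λ then p ⟨χ, h⟩ else 0

lemma ext0_coe (Λ : Finset (AddChar G ℂ)) (p : ↥Λ → ℤ) (i : ↥Λ) : ext0 Λ p i.1 = p i := by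
  simp [ext0]

open Classical in
lemma prod_expand (Λ : Finset (AddChar G ℂ)) (c : AddChar G ℂ → ℂ) (τ : ℝ) (x : G) :
    ((∏ χ ∈ Λ, (1 + τ * (c χ * χ x).re) : ℝ) : ℂ) =
      ∑ p ∈ Fintype.piFinset (fun _ : ↥Λ => ({-1, 0, 1} : Finset ℤ)),
        (∏ i : ↥Λ, coef τ (c i.1) (p i)) * (pch Λ (ext0 Λ p)) x := by
  rw [Complex.ofReal_prod, ← Finset.prod_coe_sort Λ]
  rw [Finset.prod_congr rfl (fun (i : ↥Λ) _ => factor_expand (c i.1) i.1 τ x)]
  rw [Finset.prod_univ_sum]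
  refine Finset.sum_congr rfl (fun p _ => ?_)
  rw [Finset.prod_mul_distrib]
  congr 1
  rw [pch, AddChar.prod_apply, ← Finset.prod_coe_sort Λ]
  refine Finset.prod_congr rfl (fun i _ => ?_)
  rw [ext0_coe]

open Classical in
lemma main_bound (Λ : Finset (AddChar G ℂ)) (D B : Finset G) (c : AddChar G ℂ → ℂ)
    (hc : ∀ χ ∈ Λ, ‖c χ‖ = 1) (τ : ℝ) (hτ : 0 ≤ τ) (hτ1 : τ ≤ 1)
    (hdis : ∀ m : AddChar G ℂ → ℤ, (∀ χ, |m χ| ≤ 1) → (∃ χ ∈ Λ, m χ ≠ 0) → ¬ Lg B (pch Λ m)) :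
    ∑ y ∈ Fintype.piFinset (fun _ : Fin Λ.card => B), ∑ u ∈ D,
      ∏ χ ∈ Λ, (1 + τ * (c χ * χ (u + ∑ i, y i)).re) ≤ 2 * D.card * (B.card : ℝ) ^ Λ.card := by
  set n := Λ.card with hn
  set R : ℝ := ∑ y ∈ Fintype.piFinset (fun _ : Fin n => B), ∑ u ∈ D,
      ∏ χ ∈ Λ, (1 + τ * (c χ * χ (u + ∑ i, y i)).re) with hR
  have key : (R : ℂ) = ∑ p ∈ Fintype.piFinset (fun _ : ↥Λ => ({-1, 0, 1} : Finset ℤ)),
      (∏ i : ↥Λ, coef τ (c i.1) (p i)) *
        ((∑ u ∈ D, (pch Λ (ext0 Λ p)) u) * (∑ b ∈ B, (pch Λ (ext0 Λ p)) b) ^ n) := by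
    rw [hR]
    push_cast [Complex.ofReal_sum]
    have h1 : ∀ (y : Fin n → G) (u : G), (∏ χ ∈ Λ, (1 + (τ : ℂ) * ((c χ * χ (u + ∑ i, y i)).re : ℂ)))
        = ∑ p ∈ Fintype.piFinset (fun _ : ↥Λ => ({-1, 0, 1} : Finset ℤ)),
          (∏ i : ↥Λ, coef τ (c i.1) (p i)) * (pch Λ (ext0 Λ p)) (u + ∑ i, y i) := by
      intro y u
      rw [← prod_expand]
      push_cast
      rfl
    simp_rw [h1]
    have h2 : ∀ y : Fin n → G, ∑ u ∈ D, ∑ p ∈ Fintype.piFinset (fun _ : ↥Λ => ({-1, 0, 1} : Finset ℤ)),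
          (∏ i : ↥Λ, coef τ (c i.1) (p i)) * (pch Λ (ext0 Λ p)) (u + ∑ i, y i)
        = ∑ p ∈ Fintype.piFinset (fun _ : ↥Λ => ({-1, 0, 1} : Finset ℤ)),
          (∏ i : ↥Λ, coef τ (c i.1) (p i)) * ∑ u ∈ D, (pch Λ (ext0 Λ p)) (u + ∑ i, y i) := by
      intro y
      rw [Finset.sum_comm]
      refine Finset.sum_congr rfl (fun p _ => ?_)
      rw [Finset.mul_sum]
    simp_rw [h2]
    rw [Finset.sum_comm]
    refine Finset.sum_congr rfl (fun p _ => ?_)
    rw [← Finset.mul_sum, E_char]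
  have hnb : ∀ p ∈ Fintype.piFinset (fun _ : ↥Λ => ({-1, 0, 1} : Finset ℤ)),
      ‖(∏ i : ↥Λ, coef τ (c i.1) (p i)) *
        ((∑ u ∈ D, (pch Λ (ext0 Λ p)) u) * (∑ b ∈ B, (pch Λ (ext0 Λ p)) b) ^ n)‖
      ≤ (if p = 0 then (D.card : ℝ) * (B.card : ℝ) ^ n else 0)
        + (∏ i : ↥Λ, ‖coef τ (c i.1) (p i)‖) * ((D.card : ℝ) * ((B.card : ℝ) / 2) ^ n) := by
    intro p hp
    rw [norm_mul, norm_mul, norm_pow, norm_prod]
    have hD : ‖∑ u ∈ D, (pch Λ (ext0 Λ p)) u‖ ≤ D.card := by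
      refine (norm_sum_le _ _).trans ?_
      simp [norm_char]
    have hB : ‖∑ u ∈ B, (pch Λ (ext0 Λ p)) u‖ ≤ B.card := by
      refine (norm_sum_le _ _).trans ?_
      simp [norm_char]
    have hcp : 0 ≤ ∏ i : ↥Λ, ‖coef τ (c i.1) (p i)‖ := Finset.prod_nonneg (fun i _ => norm_nonneg _)
    by_cases h0 : p = 0
    · rw [if_pos h0]
      have h1 : ∏ i : ↥Λ, ‖coef τ (c i.1) (p i)‖ = 1 := by
        refine Finset.prod_eq_one (fun i _ => ?_)
        rw [h0]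
        simp [coef]
      have h2 : ‖∑ u ∈ D, (pch Λ (ext0 Λ p)) u‖ * ‖∑ b ∈ B, (pch Λ (ext0 Λ p)) b‖ ^ n
          ≤ (D.card : ℝ) * (B.card : ℝ) ^ n := by
        apply mul_le_mul hD (pow_le_pow_left₀ (norm_nonneg _) hB n) (by positivity) (by positivity)
      have h3 : 0 ≤ (D.card : ℝ) * ((B.card : ℝ) / 2) ^ n := by positivity
      rw [h1]
      linarith
    · rw [if_neg h0, zero_add]
      refine mul_le_mul_of_nonneg_left ?_ hcp
      have hp' : ∀ i, p i ∈ ({-1, 0, 1} : Finset ℤ) := by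
        rw [Fintype.mem_piFinset] at hp
        exact hp
      have hne : ∃ i, p i ≠ 0 := by
        by_contra hcon
        push_neg at hcon
        exact h0 (funext hcon)
      obtain ⟨i, hi⟩ := hne
      have hl : ¬ Lg B (pch Λ (ext0 Λ p)) := by
        apply hdis
        · intro χ
          unfold ext0
          split
          · rename_i h
            have := hp' ⟨χ, h⟩
            simp only [Finset.mem_insert, Finset.mem_singleton] at this
            rcases this with h | h | h <;> rw [h] <;> norm_num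
          · norm_num
        · exact ⟨i.1, i.2, by rw [ext0_coe]; exact hi⟩
      unfold Lg at hl
      push_neg at hl
      apply mul_le_mul hD (pow_le_pow_left₀ (norm_nonneg _) hl.le n) (by positivity) (by positivity)
  have hsum : ∑ p ∈ Fintype.piFinset (fun _ : ↥Λ => ({-1, 0, 1} : Finset ℤ)),
      ∏ i : ↥Λ, ‖coef τ (c i.1) (p i)‖ ≤ 2 ^ n := by
    rw [← Finset.prod_univ_sum (fun _ : ↥Λ => ({-1, 0, 1} : Finset ℤ)) (fun i j => ‖coef τ (c i.1) j‖)]
    calc ∏ i : ↥Λ, ∑ j ∈ ({-1, 0, 1} : Finset ℤ), ‖coef τ (c i.1) j‖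
        = ∏ i : ↥Λ, (1 + τ) := by
          refine Finset.prod_congr rfl (fun i _ => ?_)
          rw [coef_norm_sum τ hτ _ (hc i.1 i.2)]
      _ = (1 + τ) ^ n := by
          rw [Finset.prod_const, Finset.card_univ, Fintype.card_coe]
      _ ≤ 2 ^ n := pow_le_pow_left₀ (by linarith) (by linarith) n
  have hR1 : R ≤ ‖(R : ℂ)‖ := by
    rw [Complex.norm_real]
    exact le_abs_self R
  refine hR1.trans ?_
  rw [key]
  refine (norm_sum_le _ _).trans ((Finset.sum_le_sum hnb).trans ?_)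
  rw [Finset.sum_add_distrib, ← Finset.sum_mul]
  have hz : ∑ p ∈ Fintype.piFinset (fun _ : ↥Λ => ({-1, 0, 1} : Finset ℤ)),
      (if p = 0 then (D.card : ℝ) * (B.card : ℝ) ^ n else 0) ≤ (D.card : ℝ) * (B.card : ℝ) ^ n := by
    rw [Finset.sum_ite_eq']
    split
    · exact le_rfl
    · positivity
  have h5 : (∑ p ∈ Fintype.piFinset (fun _ : ↥Λ => ({-1, 0, 1} : Finset ℤ)),
      ∏ i : ↥Λ, ‖coef τ (c i.1) (p i)‖) * ((D.card : ℝ) * ((B.card : ℝ) / 2) ^ n)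
      ≤ 2 ^ n * ((D.card : ℝ) * ((B.card : ℝ) / 2) ^ n) :=
    mul_le_mul_of_nonneg_right hsum (by positivity)
  have h6 : (2 : ℝ) ^ n * ((D.card : ℝ) * ((B.card : ℝ) / 2) ^ n) = (D.card : ℝ) * (B.card : ℝ) ^ n := by
    rw [div_pow]
    field_simp
  linarith

/-- pushing a nonnegative sum over `D₄` to a smoothed sum over `D₄p` -/
lemma majorant (D D' B : Finset G) (n : ℕ) (F : G → ℝ) (hF : ∀ x, 0 ≤ F x)
    (h : ∀ x ∈ D, ∀ y : Fin n → G, (∀ i, y i ∈ B) → x - ∑ i, y i ∈ D') :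
    (B.card : ℝ) ^ n * ∑ x ∈ D, F x ≤
      ∑ y ∈ Fintype.piFinset (fun _ : Fin n => B), ∑ u ∈ D', F (u + ∑ i, y i) := by
  classical
  have h1 : ∀ y ∈ Fintype.piFinset (fun _ : Fin n => B), ∑ x ∈ D, F x ≤ ∑ u ∈ D', F (u + ∑ i, y i) := by
    intro y hy
    rw [Fintype.mem_piFinset] at hy
    have e : ∑ x ∈ D, F x = ∑ u ∈ D.image (fun x => x - ∑ i, y i), F (u + ∑ i, y i) := by
      rw [Finset.sum_image]
      · refine Finset.sum_congr rfl (fun x _ => ?_)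
        rw [sub_add_cancel]
      · intro a _ b _ hab
        exact sub_left_injective hab
    rw [e]
    refine Finset.sum_le_sum_of_subset_of_nonneg ?_ (fun _ _ _ => hF _)
    intro u hu
    rw [Finset.mem_image] at hu
    obtain ⟨x, hx, rfl⟩ := hu
    exact h x hx y hy
  calc (B.card : ℝ) ^ n * ∑ x ∈ D, F x = ∑ y ∈ Fintype.piFinset (fun _ : Fin n => B), ∑ x ∈ D, F x := by
        rw [Finset.sum_const, Fintype.card_piFinset, Finset.prod_const, Finset.card_univ,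
          Fintype.card_fin, nsmul_eq_mul]
        push_cast
        rfl
    _ ≤ _ := Finset.sum_le_sum h1

end ChangAux

theorem chang_proof : CHANG := by
  intro G _ _ T D₄ D₄p B' Λ ℓ n hΛ hT hTD hB' hℓ hD hDp hsub hLg hdis
  subst hΛ
  classical
  set n := Λ.card with hn
  have hTc : (0 : ℝ) < T.card := by exact_mod_cast hT.card_pos
  have hBc : (0 : ℝ) < B'.card := by exact_mod_cast hB'.card_pos
  -- phases
  set z : AddChar G ℂ → ℂ := fun χ => ∑ x ∈ T, χ x with hz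
  set c : AddChar G ℂ → ℂ := fun χ => (starRingEnd ℂ) (z χ) / ‖z χ‖ with hc
  have hznorm : ∀ χ ∈ Λ, (T.card : ℝ) / 2 ≤ ‖z χ‖ := fun χ hχ => hLg χ hχ
  have hzpos : ∀ χ ∈ Λ, 0 < ‖z χ‖ := fun χ hχ => by
    have := hznorm χ hχ
    linarith
  have hc1 : ∀ χ ∈ Λ, ‖c χ‖ = 1 := by
    intro χ hχ
    have := hzpos χ hχ
    simp only [hc, norm_div, Complex.norm_real, RCLike.norm_conj, norm_norm]
    field_simp
  have hcz : ∀ χ ∈ Λ, (c χ * z χ).re = ‖z χ‖ := by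
    intro χ hχ
    have h0 := hzpos χ hχ
    have e : c χ * z χ = ((‖z χ‖ : ℝ) : ℂ) := by
      simp only [hc]
      have h0' : ((‖z χ‖ : ℝ) : ℂ) ≠ 0 := by
        exact_mod_cast h0.ne'
      rw [div_mul_eq_mul_div, div_eq_iff h0']
      rw [mul_comm, Complex.mul_conj, Complex.normSq_eq_norm_sq]
      push_cast
      ring
    rw [e, Complex.ofReal_re]
  set S : G → ℝ := fun x => ∑ χ ∈ Λ, (c χ * χ x).re with hS
  have hSsum : (n : ℝ) * T.card / 2 ≤ ∑ x ∈ T, S x := by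
    simp only [hS]
    rw [Finset.sum_comm]
    have h1 : ∀ χ ∈ Λ, (T.card : ℝ) / 2 ≤ ∑ x ∈ T, (c χ * χ x).re := by
      intro χ hχ
      have h2 : ∑ x ∈ T, (c χ * χ x).re = (c χ * z χ).re := by
        simp only [hz]
        rw [Finset.mul_sum, Complex.re_sum]
      rw [h2, hcz χ hχ]
      exact hznorm χ hχ
    have h3 := Finset.sum_le_sum h1
    rw [Finset.sum_const, nsmul_eq_mul] at h3
    calc (n : ℝ) * T.card / 2 = (n : ℝ) * ((T.card : ℝ) / 2) := by ring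
      _ ≤ _ := h3
  -- Jensen by the tangent line
  have hJ : (T.card : ℝ) * Real.exp (n / 4) ≤ ∑ x ∈ T, Real.exp (S x / 2) := by
    have h1 : ∀ x ∈ T, Real.exp (n / 4) * (1 + (S x / 2 - n / 4)) ≤ Real.exp (S x / 2) := by
      intro x _
      have h2 := Real.add_one_le_exp (S x / 2 - n / 4)
      have h3 : Real.exp (S x / 2) = Real.exp (n / 4) * Real.exp (S x / 2 - n / 4) := by
        rw [← Real.exp_add]
        ring_nf
      rw [h3]
      exact mul_le_mul_of_nonneg_left (by linarith) (Real.exp_pos _).le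
    refine le_trans ?_ (Finset.sum_le_sum h1)
    rw [← Finset.mul_sum]
    have h4 : (T.card : ℝ) ≤ ∑ x ∈ T, (1 + (S x / 2 - n / 4)) := by
      rw [Finset.sum_add_distrib, Finset.sum_sub_distrib, ← Finset.sum_div]
      simp only [Finset.sum_const, nsmul_eq_mul, mul_one]
      linarith
    rw [mul_comm]
    exact mul_le_mul_of_nonneg_left h4 (Real.exp_pos _).le
  have hTD4 : ∑ x ∈ T, Real.exp (S x / 2) ≤ ∑ x ∈ D₄, Real.exp (S x / 2) :=
    Finset.sum_le_sum_of_subset_of_nonneg hTD (fun _ _ _ => (Real.exp_pos _).le)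
  have hmaj := ChangAux.majorant D₄ D₄p B' n (fun x => Real.exp (S x / 2)) (fun _ => (Real.exp_pos _).le) hsub
  -- pointwise bound
  set τ : ℝ := Real.sinh (1 / 2) / Real.cosh (1 / 2) with hτ
  have hcosh : 0 < Real.cosh (1 / 2) := Real.cosh_pos _
  have hsinh : 0 ≤ Real.sinh (1 / 2) := Real.sinh_nonneg_iff.mpr (by norm_num)
  have hτ0 : 0 ≤ τ := by positivity
  have hτ1 : τ ≤ 1 := by
    rw [hτ, div_le_one hcosh]
    exact (Real.sinh_lt_cosh _).le
  have hpt : ∀ x : G, Real.exp (S x / 2) ≤ Real.cosh (1 / 2) ^ n * ∏ χ ∈ Λ, (1 + τ * (c χ * χ x).re) := by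
    intro x
    have h1 : Real.exp (S x / 2) = ∏ χ ∈ Λ, Real.exp ((c χ * χ x).re / 2) := by
      rw [← Real.exp_sum, ← Finset.sum_div]
    have h2 : Real.cosh (1 / 2) ^ n * ∏ χ ∈ Λ, (1 + τ * (c χ * χ x).re)
        = ∏ χ ∈ Λ, (Real.cosh (1 / 2) * (1 + τ * (c χ * χ x).re)) := by
      rw [Finset.prod_mul_distrib, Finset.prod_const]
    rw [h1, h2]
    refine Finset.prod_le_prod (fun _ _ => (Real.exp_pos _).le) (fun χ hχ => ?_)
    have h3 : |(c χ * χ x).re| ≤ 1 := by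
      refine (Complex.abs_re_le_norm _).trans ?_
      rw [norm_mul, hc1 χ hχ, ChangAux.norm_char, one_mul]
    have h4 := ChangAux.exp_half_le _ h3
    have h5 : Real.cosh (1 / 2) * (1 + τ * (c χ * χ x).re)
        = Real.cosh (1 / 2) + (c χ * χ x).re * Real.sinh (1 / 2) := by
      rw [hτ]
      field_simp
    rw [h5]
    exact h4
  have hmb := ChangAux.main_bound Λ D₄p B' c hc1 τ hτ0 hτ1 hdis
  have hstep : ∑ y ∈ Fintype.piFinset (fun _ : Fin n => B'), ∑ u ∈ D₄p, Real.exp (S (u + ∑ i, y i) / 2)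
      ≤ Real.cosh (1 / 2) ^ n * (2 * D₄p.card * (B'.card : ℝ) ^ n) := by
    calc ∑ y ∈ Fintype.piFinset (fun _ : Fin n => B'), ∑ u ∈ D₄p, Real.exp (S (u + ∑ i, y i) / 2)
        ≤ ∑ y ∈ Fintype.piFinset (fun _ : Fin n => B'), ∑ u ∈ D₄p,
            Real.cosh (1 / 2) ^ n * ∏ χ ∈ Λ, (1 + τ * (c χ * χ (u + ∑ i, y i)).re) :=
          Finset.sum_le_sum (fun y _ => Finset.sum_le_sum (fun u _ => hpt _))
      _ = Real.cosh (1 / 2) ^ n * ∑ y ∈ Fintype.piFinset (fun _ : Fin n => B'), ∑ u ∈ D₄p,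
            ∏ χ ∈ Λ, (1 + τ * (c χ * χ (u + ∑ i, y i)).re) := by
          simp_rw [← Finset.mul_sum]
      _ ≤ _ := mul_le_mul_of_nonneg_left hmb (by positivity)
  -- combine
  have hBn : (0 : ℝ) < (B'.card : ℝ) ^ n := by positivity
  have hall : (B'.card : ℝ) ^ n * ((T.card : ℝ) * Real.exp (n / 4)) ≤
      Real.cosh (1 / 2) ^ n * (2 * D₄p.card * (B'.card : ℝ) ^ n) :=
    (mul_le_mul_of_nonneg_left (hJ.trans hTD4) hBn.le).trans (hmaj.trans hstep)
  have h7 : (T.card : ℝ) * Real.exp (n / 4) ≤ Real.cosh (1 / 2) ^ n * (2 * D₄p.card) := by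
    have : (B'.card : ℝ) ^ n * ((T.card : ℝ) * Real.exp (n / 4)) ≤
      (B'.card : ℝ) ^ n * (Real.cosh (1 / 2) ^ n * (2 * D₄p.card)) := by
      calc _ ≤ _ := hall
        _ = _ := by ring
    exact le_of_mul_le_mul_left this hBn
  have hch : Real.cosh (1 / 2) ^ n ≤ Real.exp (n / 8) := by
    have h8 : Real.cosh (1 / 2) ≤ Real.exp (1 / 8) := by
      have := Real.cosh_le_exp_half_sq (1 / 2)
      norm_num at this ⊢
      exact this
    calc Real.cosh (1 / 2) ^ n ≤ Real.exp (1 / 8) ^ n := pow_le_pow_left₀ hcosh.le h8 n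
      _ = Real.exp (n / 8) := by
        rw [← Real.exp_nat_mul]
        ring_nf
  have h9 : (T.card : ℝ) * Real.exp (n / 4) ≤ Real.exp (n / 8) * (4 * (Real.exp ℓ * T.card)) := by
    refine h7.trans ?_
    apply mul_le_mul hch _ (by positivity) (Real.exp_pos _).le
    linarith
  have h10 : Real.exp (n / 4) ≤ Real.exp (n / 8 + ℓ + Real.log 4) := by
    rw [Real.exp_add, Real.exp_add, Real.exp_log (by norm_num : (0:ℝ) < 4)]
    have : (T.card : ℝ) * Real.exp (n / 4) ≤ (T.card : ℝ) * (Real.exp (n / 8) * Real.exp ℓ * 4) := by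
      calc _ ≤ _ := h9
        _ = _ := by ring
    exact le_of_mul_le_mul_left this hTc
  have h11 := Real.exp_le_exp.mp h10
  have hlog4 : Real.log 4 ≤ 1.4 := by
    have e : (4 : ℝ) = 2 ^ 2 := by norm_num
    rw [e, Real.log_pow]
    have := Real.log_two_lt_d9
    push_cast
    linarith
  linarith

end Vale.Agent.P057
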