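import Vale.Agent.P057.Mods

/-!
# P057: Chernoff bound for tuples (module CHER)
-/

open Finset

namespace Vale.Agent.P057.CHER

theorem exp_le {l t : ℝ} (h1 : -1 ≤ t) (h2 : t ≤ 1) :
    Real.exp (l * t) ≤ Real.cosh l + t * Real.sinh l := by
  have h := convexOn_exp.2 (Set.mem_univ l) (Set.mem_univ (-l))
    (by linarith : (0 : ℝ) ≤ (1 + t) / 2) (by linarith : (0 : ℝ) ≤ (1 - t) / 2) (by ring)
  simp only [smul_eq_mul] at h
  have e1 : (1 + t) / 2 * l + (1 - t) / 2 * (-l) = l * t := by ring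
  rw [e1] at h
  rw [Real.cosh_eq, Real.sinh_eq]
  linarith

theorem one_side {G : Type} (a : Finset G) (ψ : G → ℝ) (hψ : ∀ x, -1 ≤ ψ x ∧ ψ x ≤ 1)
    (h0 : ∑ x ∈ a, ψ x = 0) (ε : ℝ) (k : ℕ) (hε : 0 < ε)
    (S : Finset (Fin k → G)) (hS : S ⊆ Fintype.piFinset (fun _ : Fin k => a))
    (hb : ∀ b ∈ S, ε * k ≤ ∑ i, ψ (b i)) :
    (S.card : ℝ) ≤ Real.exp (- ε ^ 2 * k / 2) * (a.card : ℝ) ^ k := by
  have h1 : ∑ x ∈ a, Real.exp (ε * ψ x) ≤ a.card * Real.exp (ε ^ 2 / 2) := by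
    calc ∑ x ∈ a, Real.exp (ε * ψ x) ≤ ∑ x ∈ a, (Real.cosh ε + ψ x * Real.sinh ε) :=
          sum_le_sum fun x _ => exp_le (hψ x).1 (hψ x).2
      _ = a.card * Real.cosh ε := by
          rw [sum_add_distrib, ← sum_mul, h0, zero_mul, add_zero, sum_const, nsmul_eq_mul]
      _ ≤ a.card * Real.exp (ε ^ 2 / 2) :=
          mul_le_mul_of_nonneg_left (Real.cosh_le_exp_half_sq ε) (by positivity)
  have h2 : ∑ b ∈ Fintype.piFinset (fun _ : Fin k => a), ∏ i, Real.exp (ε * ψ (b i)) =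
      (∑ x ∈ a, Real.exp (ε * ψ x)) ^ k := by
    rw [← Finset.prod_univ_sum (fun _ : Fin k => a) (fun _ x => Real.exp (ε * ψ x))]
    simp
  have h3 : (S.card : ℝ) * Real.exp (ε ^ 2 * k) ≤
      ∑ b ∈ Fintype.piFinset (fun _ : Fin k => a), ∏ i, Real.exp (ε * ψ (b i)) := by
    calc (S.card : ℝ) * Real.exp (ε ^ 2 * k) = ∑ b ∈ S, Real.exp (ε ^ 2 * k) := by
          rw [sum_const, nsmul_eq_mul]
      _ ≤ ∑ b ∈ S, ∏ i, Real.exp (ε * ψ (b i)) := by
          apply sum_le_sum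
          intro b hbS
          rw [← Real.exp_sum, ← mul_sum]
          apply Real.exp_le_exp.mpr
          have := mul_le_mul_of_nonneg_left (hb b hbS) hε.le
          nlinarith
      _ ≤ _ := sum_le_sum_of_subset_of_nonneg hS fun b _ _ =>
          prod_nonneg fun i _ => (Real.exp_pos _).le
  have h4 : (∑ x ∈ a, Real.exp (ε * ψ x)) ^ k ≤ (a.card * Real.exp (ε ^ 2 / 2)) ^ k :=
    pow_le_pow_left₀ (sum_nonneg fun x _ => (Real.exp_pos _).le) h1 k
  rw [mul_pow, ← Real.exp_nat_mul] at h4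
  rw [h2] at h3
  have h5 := h3.trans h4
  have h6 := Real.exp_pos (ε ^ 2 * k)
  have h7 : Real.exp (- ε ^ 2 * k / 2) * (a.card : ℝ) ^ k * Real.exp (ε ^ 2 * k) =
      (a.card : ℝ) ^ k * Real.exp (k * (ε ^ 2 / 2)) := by
    rw [mul_right_comm, ← Real.exp_add, mul_comm]
    congr 2
    ring
  rw [← h7] at h5
  exact le_of_mul_le_mul_right h5 h6

theorem cher_proof : CHER := by
  intro G _ a φ H ε k ha hH hε hk hφ
  classical
  have hc : (0 : ℝ) < a.card := by exact_mod_cast ha.card_pos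
  have hk0 : (0 : ℝ) < k := by exact_mod_cast hk
  set m : ℝ := (∑ x ∈ a, φ x) / a.card with hm
  have hm0 : 0 ≤ m := div_nonneg (sum_nonneg fun x _ => (hφ x).1) hc.le
  have hm1 : m ≤ H := by
    rw [hm, div_le_iff₀ hc]
    calc ∑ x ∈ a, φ x ≤ ∑ x ∈ a, H := sum_le_sum fun x _ => (hφ x).2
      _ = H * a.card := by rw [sum_const, nsmul_eq_mul, mul_comm]
  have hs0 : ∑ x ∈ a, (φ x - m) / H = 0 := by
    rw [← sum_div, sum_sub_distrib, sum_const, nsmul_eq_mul, hm, mul_div_cancel₀ _ hc.ne', sub_self,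
      zero_div]
  have hr : ∀ x, -1 ≤ (φ x - m) / H ∧ (φ x - m) / H ≤ 1 := by
    intro x
    constructor
    · rw [le_div_iff₀ hH]
      linarith [(hφ x).1]
    · rw [div_le_iff₀ hH]
      linarith [(hφ x).2]
  have hsum : ∀ b : Fin k → G, ∑ i, (φ (b i) - m) / H = ((∑ i, φ (b i)) / k - m) * k / H := by
    intro b
    rw [← sum_div, sum_sub_distrib]
    simp only [sum_const, card_univ, Fintype.card_fin, nsmul_eq_mul]
    field_simp
  set P := Fintype.piFinset (fun _ : Fin k => a) with hP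
  have e1 := one_side a (fun x => (φ x - m) / H) hr hs0 ε k hε
    (P.filter (fun b : Fin k → G => ε * H < (∑ i, φ (b i)) / k - m)) (filter_subset _ _) (by
      intro b hb
      have hb' := (mem_filter.mp hb).2
      rw [hsum, le_div_iff₀ hH]
      have := mul_le_mul_of_nonneg_right hb'.le hk0.le
      linarith)
  have e2 := one_side a (fun x => - ((φ x - m) / H))
    (fun x => ⟨by linarith [(hr x).2], by linarith [(hr x).1]⟩)
    (by rw [sum_neg_distrib, hs0, neg_zero]) ε k hε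
    (P.filter (fun b : Fin k → G => ε * H < - ((∑ i, φ (b i)) / k - m))) (filter_subset _ _) (by
      intro b hb
      have hb' := (mem_filter.mp hb).2
      rw [sum_neg_distrib, hsum, ← neg_div, le_div_iff₀ hH]
      have := mul_le_mul_of_nonneg_right hb'.le hk0.le
      linarith)
  have e3 : (P.filter (fun b : Fin k → G =>
        ε * H < |(∑ i, φ (b i)) / k - m|)) ⊆
      (P.filter (fun b : Fin k → G => ε * H < (∑ i, φ (b i)) / k - m)) ∪
      (P.filter (fun b : Fin k → G => ε * H < - ((∑ i, φ (b i)) / k - m))) := by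
    intro b hb
    rw [mem_filter] at hb
    rw [mem_union, mem_filter, mem_filter]
    rcases lt_abs.mp hb.2 with h | h
    · exact Or.inl ⟨hb.1, h⟩
    · exact Or.inr ⟨hb.1, h⟩
  have e4 := card_le_card e3
  have e5 := e4.trans (card_union_le _ _)
  have e6 : ((P.filter (fun b : Fin k → G =>
        ε * H < |(∑ i, φ (b i)) / k - m|)).card : ℝ) ≤
      (P.filter (fun b : Fin k → G => ε * H < (∑ i, φ (b i)) / k - m)).card +
      (P.filter (fun b : Fin k → G => ε * H < - ((∑ i, φ (b i)) / k - m))).card := by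
    exact_mod_cast e5
  refine e6.trans ?_
  linarith

end Vale.Agent.P057.CHER
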