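import Vale.Agent.P057.Mods

/-!
# P057: Croot-Sisask almost periodicity (module CROOT)
-/

open Finset

namespace Vale.Agent.P057.CROOT

noncomputable section

variable {G : Type} [AddCommGroup G]

/-- average of `h (b - y)` over `b` in `a` -/
def Psi (a : Finset G) (h : G → ℝ) (y : G) : ℝ := (∑ b ∈ a, h (b - y)) / a.card

/-- the empirical version -/
def Emp {k : ℕ} (c : Fin k → G) (h : G → ℝ) (y : G) : ℝ := (∑ i, h (c i - y)) / k

open Classical in
/-- bad points of a tuple -/
def Bad {k : ℕ} (a Y : Finset G) (h : G → ℝ) (δ : ℝ) (c : Fin k → G) : Finset G :=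
  Y.filter (fun y => δ < |Emp c h y - Psi a h y|)

theorem Psi_nonneg {a : Finset G} {h : G → ℝ} {H : ℝ} (hh : ∀ x, 0 ≤ h x ∧ h x ≤ H) (y : G) :
    0 ≤ Psi a h y := div_nonneg (sum_nonneg fun x _ => (hh _).1) (by positivity)

theorem Psi_le {a : Finset G} (ha : a.Nonempty) {h : G → ℝ} {H : ℝ}
    (hh : ∀ x, 0 ≤ h x ∧ h x ≤ H) (y : G) : Psi a h y ≤ H := by
  have hc : (0 : ℝ) < a.card := by exact_mod_cast ha.card_pos
  unfold Psi
  rw [div_le_iff₀ hc]
  calc ∑ x ∈ a, h (x - y) ≤ ∑ x ∈ a, H := sum_le_sum fun x _ => (hh _).2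
    _ = H * a.card := by rw [sum_const, nsmul_eq_mul, mul_comm]

theorem avd_shift (a : Finset G) (h : G → ℝ) (u : G) :
    avd a (fun x => h (x + u)) = (∑ b' ∈ a, Psi a h (b' - u)) / a.card := by
  unfold avd Psi
  rw [← sum_div, div_div, ← sq]
  congr 1
  rw [sum_comm]
  apply sum_congr rfl
  intro b' _
  apply sum_congr rfl
  intro b _
  have e : b - b' + u = b - (b' - u) := by abel
  show h (b - b' + u) = h (b - (b' - u))
  rw [e]

/-- tuples with many bad points are at most half of all tuples -/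
theorem good_many [Fintype G] (hC : CHER) {a D Y : Finset G} {h : G → ℝ} {H ε θ : ℝ} {k : ℕ}
    (ha : a.Nonempty) (haD : a ⊆ D) (hH : 0 < H) (hε : 0 < ε) (hk : 1 ≤ k)
    (hh : ∀ x, 0 ≤ h x ∧ h x ≤ H) (hθa : θ * D.card ≤ a.card) (hY : (Y.card : ℝ) ≤ 2 * D.card)
    (hs : 16 * Real.exp (- ε ^ 2 * k / 2) ≤ ε * θ)
    (L : Finset (Fin k → G))
    (hL : ∀ b, b ∈ L ↔ b ∈ Fintype.piFinset (fun _ : Fin k => a) ∧
      ((Bad a Y h (ε * H) b).card : ℝ) ≤ ε / 2 * a.card) :
    1 / 2 * (a.card : ℝ) ^ k ≤ L.card := by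
  classical
  have hc : (0 : ℝ) < a.card := by exact_mod_cast ha.card_pos
  have hD : (0 : ℝ) < D.card := by exact_mod_cast (ha.mono haD).card_pos
  set P := Fintype.piFinset (fun _ : Fin k => a) with hP
  have hPc : (P.card : ℝ) = (a.card : ℝ) ^ k := by
    rw [hP, Fintype.card_piFinset]
    simp
  set E := Real.exp (- ε ^ 2 * k / 2) with hE
  have hE0 : 0 < E := Real.exp_pos _
  -- double count
  have h1 : ∑ b ∈ P, ((Bad a Y h (ε * H) b).card : ℝ) ≤ Y.card * (2 * E * (a.card : ℝ) ^ k) := by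
    have h2 : ∑ b ∈ P, ((Bad a Y h (ε * H) b).card : ℝ) =
        ∑ y ∈ Y, ((P.filter (fun b => ε * H < |Emp b h y - Psi a h y|)).card : ℝ) := by
      simp only [Bad, card_filter, Nat.cast_sum, Nat.cast_ite, Nat.cast_one, Nat.cast_zero]
      rw [sum_comm]
    rw [h2]
    calc ∑ y ∈ Y, ((P.filter (fun b => ε * H < |Emp b h y - Psi a h y|)).card : ℝ)
        ≤ ∑ y ∈ Y, 2 * E * (a.card : ℝ) ^ k := by
          apply sum_le_sum
          intro y _
          have := hC G a (fun x => h (x - y)) H ε k ha hH hε hk (fun x => hh _)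
          exact this
      _ = Y.card * (2 * E * (a.card : ℝ) ^ k) := by rw [sum_const, nsmul_eq_mul]
  -- Markov
  set M := P.filter (fun b => ¬ ((Bad a Y h (ε * H) b).card : ℝ) ≤ ε / 2 * a.card) with hM
  have h3 : (M.card : ℝ) * (ε / 2 * a.card) ≤ ∑ b ∈ P, ((Bad a Y h (ε * H) b).card : ℝ) := by
    calc (M.card : ℝ) * (ε / 2 * a.card) = ∑ b ∈ M, ε / 2 * a.card := by
          rw [sum_const, nsmul_eq_mul]
      _ ≤ ∑ b ∈ M, ((Bad a Y h (ε * H) b).card : ℝ) := by
          apply sum_le_sum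
          intro b hb
          exact (not_le.mp (mem_filter.mp hb).2).le
      _ ≤ _ := sum_le_sum_of_subset_of_nonneg (filter_subset _ _) fun b _ _ => by positivity
  have h4 : (M.card : ℝ) * (ε / 2 * a.card) ≤ 2 * D.card * (2 * E * (a.card : ℝ) ^ k) :=
    h3.trans (h1.trans (mul_le_mul_of_nonneg_right hY (by positivity)))
  have h5 : 2 * D.card * (2 * E * (a.card : ℝ) ^ k) ≤ 1 / 2 * (a.card : ℝ) ^ k * (ε / 2 * a.card) := by
    have e1 : 16 * E * D.card ≤ ε * a.card := by
      calc 16 * E * D.card ≤ ε * θ * D.card := mul_le_mul_of_nonneg_right hs hD.le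
        _ = ε * (θ * D.card) := by ring
        _ ≤ ε * a.card := mul_le_mul_of_nonneg_left hθa hε.le
    have e2 := mul_le_mul_of_nonneg_right e1 (by positivity : (0 : ℝ) ≤ (a.card : ℝ) ^ k)
    nlinarith
  have h6 : (M.card : ℝ) ≤ 1 / 2 * (a.card : ℝ) ^ k :=
    le_of_mul_le_mul_right (h4.trans h5) (by positivity)
  have h7 : L = P.filter (fun b => ((Bad a Y h (ε * H) b).card : ℝ) ≤ ε / 2 * a.card) := by
    ext b
    rw [hL, mem_filter]
  have h8 : L.card + M.card = P.card := by
    rw [h7, hM]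
    exact card_filter_add_card_filter_not _
  have h9 : (L.card : ℝ) + M.card = (a.card : ℝ) ^ k := by
    rw [← hPc]
    exact_mod_cast h8
  linarith

/-- pigeonhole for shifted tuples -/
theorem pigeon {a D₄ Y : Finset G} {k : ℕ} (hD4 : D₄.Nonempty)
    (L : Finset (Fin k → G)) (hL : L ⊆ Fintype.piFinset (fun _ : Fin k => a)) (hLn : L.Nonempty)
    (hY : ∀ x ∈ a, ∀ t ∈ D₄, x + t ∈ Y) :
    ∃ (c : Fin k → G) (T : Finset G), (∀ t, t ∈ T ↔ t ∈ D₄ ∧ (fun i => c i - t) ∈ L) ∧
      (L.card : ℝ) * D₄.card ≤ (Y.card : ℝ) ^ k * T.card := by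
  classical
  set P := Fintype.piFinset (fun _ : Fin k => Y) with hP
  have hPc : (P.card : ℝ) = (Y.card : ℝ) ^ k := by
    rw [hP, Fintype.card_piFinset]
    simp
  have h1 : ∀ q ∈ L ×ˢ D₄, (fun i => q.1 i + q.2) ∈ P := by
    intro q hq
    rw [mem_product] at hq
    rw [hP, Fintype.mem_piFinset]
    intro i
    exact hY _ (Fintype.mem_piFinset.mp (hL hq.1) i) _ hq.2
  have h2 : (L ×ˢ D₄).card = ∑ c ∈ P, ((L ×ˢ D₄).filter
      (fun q => (fun i => q.1 i + q.2) = c)).card :=
    card_eq_sum_card_fiberwise h1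
  have h3 : ∀ c, ((L ×ˢ D₄).filter (fun q => (fun i => q.1 i + q.2) = c)).card ≤
      (D₄.filter (fun t => (fun i => c i - t) ∈ L)).card := by
    intro c
    apply card_le_card_of_injOn (fun q => q.2)
    · intro q hq
      have hq' := mem_filter.mp hq
      have hq'' := mem_product.mp hq'.1
      apply mem_coe.mpr
      rw [mem_filter]
      refine ⟨hq''.2, ?_⟩
      have : (fun i => c i - q.2) = q.1 := by
        funext i
        rw [← hq'.2]
        simp
      rw [this]
      exact hq''.1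
    · intro q hq q' hq' he
      have hq1 := (mem_filter.mp hq).2
      have hq2 := (mem_filter.mp hq').2
      have he' : q.2 = q'.2 := he
      apply Prod.ext
      · funext i
        have := congrFun (hq1.trans hq2.symm) i
        simp only [he'] at this
        exact add_right_cancel this
      · exact he
  by_contra hne
  push Not at hne
  have h4 : ∀ c ∈ P, (Y.card : ℝ) ^ k * ((L ×ˢ D₄).filter
      (fun q => (fun i => q.1 i + q.2) = c)).card < (L.card : ℝ) * D₄.card := by
    intro c _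
    have e1 := hne c (D₄.filter (fun t => (fun i => c i - t) ∈ L)) (fun t => mem_filter)
    refine lt_of_le_of_lt ?_ e1
    apply mul_le_mul_of_nonneg_left _ (by positivity)
    exact_mod_cast h3 c
  have hPne : P.Nonempty := by
    obtain ⟨b, hb⟩ := hLn
    obtain ⟨t, ht⟩ := hD4
    exact ⟨_, h1 (b, t) (mem_product.mpr ⟨hb, ht⟩)⟩
  have h5 := sum_lt_sum_of_nonempty hPne h4
  rw [← mul_sum, sum_const, nsmul_eq_mul, hPc] at h5
  have h6 : ∑ c ∈ P, (((L ×ˢ D₄).filter
      (fun q => (fun i => q.1 i + q.2) = c)).card : ℝ) = (L.card : ℝ) * D₄.card := by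
    have : (((L ×ˢ D₄).card : ℕ) : ℝ) = (L.card : ℝ) * D₄.card := by
      rw [card_product]
      push_cast
      ring
    rw [← this, h2]
    push_cast
    rfl
  rw [h6] at h5
  exact lt_irrefl _ h5

/-- the averages at two shifts of a good tuple agree up to few exceptions -/
theorem compare {a D D₄ Y : Finset G} {h : G → ℝ} {H ε : ℝ} {k : ℕ}
    (ha : a.Nonempty) (haD : a ⊆ D) (hH : 0 < H) (hε : 0 < ε)
    (hh : ∀ x, 0 ≤ h x ∧ h x ≤ H)
    (hY2 : ∀ x ∈ D, ∀ t ∈ D₄, ∀ t' ∈ D₄, x + t - t' ∈ Y) (hDY : D ⊆ Y) (c : Fin k → G) (t t' : G)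
    (ht : t ∈ D₄) (ht' : t' ∈ D₄)
    (hb : ((Bad a Y h (ε * H) (fun i => c i - t)).card : ℝ) ≤ ε / 2 * a.card)
    (hb' : ((Bad a Y h (ε * H) (fun i => c i - t')).card : ℝ) ≤ ε / 2 * a.card) :
    avd a h - 3 * ε * H ≤ avd a (fun x => h (x + (t - t'))) := by
  classical
  have hc : (0 : ℝ) < a.card := by exact_mod_cast ha.card_pos
  have h0 : avd a h = (∑ b' ∈ a, Psi a h b') / a.card := by
    have := avd_shift a h 0
    simpa using this
  rw [h0, avd_shift a h (t - t')]
  set X := a.filter (fun b' => b' ∈ Bad a Y h (ε * H) (fun i => c i - t') ∨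
    b' - (t - t') ∈ Bad a Y h (ε * H) (fun i => c i - t)) with hX
  have hXc : (X.card : ℝ) ≤ ε * a.card := by
    have e1 : X ⊆ (a.filter (fun b' => b' ∈ Bad a Y h (ε * H) (fun i => c i - t'))) ∪
        (a.filter (fun b' => b' - (t - t') ∈ Bad a Y h (ε * H) (fun i => c i - t))) := by
      intro b hb1
      have hb2 := mem_filter.mp hb1
      rw [mem_union, mem_filter, mem_filter]
      rcases hb2.2 with h | h
      · exact Or.inl ⟨hb2.1, h⟩
      · exact Or.inr ⟨hb2.1, h⟩
    have e2 := (card_le_card e1).trans (card_union_le _ _)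
    have e3 : (a.filter (fun b' => b' ∈ Bad a Y h (ε * H) (fun i => c i - t'))).card ≤
        (Bad a Y h (ε * H) (fun i => c i - t')).card := by
      apply card_le_card
      intro b hb1
      exact (mem_filter.mp hb1).2
    have e4 : (a.filter (fun b' => b' - (t - t') ∈ Bad a Y h (ε * H) (fun i => c i - t))).card ≤
        (Bad a Y h (ε * H) (fun i => c i - t)).card := by
      apply card_le_card_of_injOn (fun b => b - (t - t'))
      · intro b hb1
        exact (mem_filter.mp hb1).2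
      · intro b _ b' _ he
        have he' : b - (t - t') = b' - (t - t') := he
        exact sub_left_injective he'
    have e5 : (X.card : ℝ) ≤ (Bad a Y h (ε * H) (fun i => c i - t')).card +
        (Bad a Y h (ε * H) (fun i => c i - t)).card := by
      exact_mod_cast e2.trans (Nat.add_le_add e3 e4)
    linarith
  have key : ∀ b' ∈ a, Psi a h b' - Psi a h (b' - (t - t')) ≤
      2 * (ε * H) + (if b' ∈ X then H else 0) := by
    intro b' hb1
    by_cases hx : b' ∈ X
    · rw [if_pos hx]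
      have e1 := Psi_le ha hh b'
      have e2 := Psi_nonneg (a := a) hh (b' - (t - t'))
      nlinarith [mul_pos hε hH]
    · rw [if_neg hx, add_zero]
      have hx' : ¬ (b' ∈ Bad a Y h (ε * H) (fun i => c i - t') ∨
          b' - (t - t') ∈ Bad a Y h (ε * H) (fun i => c i - t)) := by
        intro hcon
        exact hx (mem_filter.mpr ⟨hb1, hcon⟩)
      push Not at hx'
      have hbD := haD hb1
      have m1 : b' ∈ Y := hDY hbD
      have m2 : b' - (t - t') ∈ Y := by
        have := hY2 b' hbD t' ht' t ht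
        have e : b' - (t - t') = b' + t' - t := by abel
        rw [e]
        exact this
      have f1 : |Emp (fun i => c i - t') h b' - Psi a h b'| ≤ ε * H := by
        by_contra hcon
        exact hx'.1 (mem_filter.mpr ⟨m1, not_le.mp hcon⟩)
      have f2 : |Emp (fun i => c i - t) h (b' - (t - t')) - Psi a h (b' - (t - t'))| ≤ ε * H := by
        by_contra hcon
        exact hx'.2 (mem_filter.mpr ⟨m2, not_le.mp hcon⟩)
      have f3 : Emp (fun i => c i - t) h (b' - (t - t')) = Emp (fun i => c i - t') h b' := by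
        unfold Emp
        congr 1
        apply sum_congr rfl
        intro i _
        have e : c i - t - (b' - (t - t')) = c i - t' - b' := by abel
        show h (c i - t - (b' - (t - t'))) = h (c i - t' - b')
        rw [e]
      rw [f3] at f2
      have g1 := abs_le.mp f1
      have g2 := abs_le.mp f2
      linarith [g1.1, g2.2]
  have hsum := sum_le_sum key
  rw [sum_sub_distrib, sum_add_distrib, sum_const, nsmul_eq_mul, ← sum_filter] at hsum
  have hf : a.filter (fun b' => b' ∈ X) = X := by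
    ext b
    rw [mem_filter]
    exact ⟨fun h => h.2, fun h => ⟨(mem_filter.mp h).1, h⟩⟩
  rw [hf, sum_const, nsmul_eq_mul] at hsum
  have hfin : (∑ b' ∈ a, Psi a h b') - 3 * ε * H * a.card ≤ ∑ b' ∈ a, Psi a h (b' - (t - t')) := by
    have := mul_le_mul_of_nonneg_right hXc hH.le
    linarith
  rw [le_div_iff₀ hc, sub_mul, div_mul_cancel₀ _ hc.ne']
  exact hfin

theorem croot_proof (hC : CHER) : CROOT := by
  intro G _ _ a D D₄ Y h H ε θ k ha haD hD4 hH hε hθ hθ1 hk hh hθa hY hY1 hY2 hDY hs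
  classical
  have hc : (0 : ℝ) < a.card := by exact_mod_cast ha.card_pos
  have hD : (0 : ℝ) < D.card := by exact_mod_cast (ha.mono haD).card_pos
  have hD4c : (0 : ℝ) < D₄.card := by exact_mod_cast hD4.card_pos
  have hYc : (0 : ℝ) < Y.card := by exact_mod_cast ((ha.mono haD).mono hDY).card_pos
  set L := (Fintype.piFinset (fun _ : Fin k => a)).filter
    (fun b => ((Bad a Y h (ε * H) b).card : ℝ) ≤ ε / 2 * a.card) with hL
  have hLm : ∀ b, b ∈ L ↔ b ∈ Fintype.piFinset (fun _ : Fin k => a) ∧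
      ((Bad a Y h (ε * H) b).card : ℝ) ≤ ε / 2 * a.card := fun b => mem_filter
  have h1 := good_many hC ha haD hH hε hk hh hθa hY hs L hLm
  have hLpos : (0 : ℝ) < L.card := lt_of_lt_of_le (by positivity) h1
  have hLn : L.Nonempty := by
    rw [← card_pos]
    exact_mod_cast hLpos
  obtain ⟨c, T, hT, hTc⟩ := pigeon hD4 L (filter_subset _ _) hLn
    (fun x hx t ht => hY1 x (haD hx) t ht)
  have hcard : 1 / 2 * (θ / 2) ^ k * D₄.card ≤ T.card := by
    have e1 : 1 / 2 * (a.card : ℝ) ^ k * D₄.card ≤ (Y.card : ℝ) ^ k * T.card :=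
      (mul_le_mul_of_nonneg_right h1 hD4c.le).trans hTc
    have e2 : (Y.card : ℝ) ^ k ≤ (2 / θ * a.card) ^ k := by
      apply pow_le_pow_left₀ hYc.le
      refine hY.trans ?_
      have : 2 / θ * (a.card : ℝ) = 2 * (a.card / θ) := by ring
      rw [this]
      apply mul_le_mul_of_nonneg_left _ (by norm_num)
      rw [le_div_iff₀ hθ]
      linarith
    have e3 : 1 / 2 * (a.card : ℝ) ^ k * D₄.card ≤ (2 / θ * a.card) ^ k * T.card :=
      e1.trans (mul_le_mul_of_nonneg_right e2 (by positivity))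
    rw [mul_pow] at e3
    have e4 : (2 / θ) ^ k * (θ / 2) ^ k = 1 := by
      rw [← mul_pow]
      have : 2 / θ * (θ / 2) = 1 := by field_simp
      rw [this, one_pow]
    have hak : (0 : ℝ) < (a.card : ℝ) ^ k := by positivity
    have hθk : (0 : ℝ) < (θ / 2) ^ k := by positivity
    have e5 := mul_le_mul_of_nonneg_left e3 hθk.le
    have e6 : (θ / 2) ^ k * ((2 / θ) ^ k * (a.card : ℝ) ^ k * T.card) = (a.card : ℝ) ^ k * T.card := by
      calc (θ / 2) ^ k * ((2 / θ) ^ k * (a.card : ℝ) ^ k * T.card)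
          = ((2 / θ) ^ k * (θ / 2) ^ k) * ((a.card : ℝ) ^ k * T.card) := by ring
        _ = _ := by rw [e4, one_mul]
    rw [e6] at e5
    have e7 : (a.card : ℝ) ^ k * (1 / 2 * (θ / 2) ^ k * D₄.card) ≤ (a.card : ℝ) ^ k * T.card := by
      refine le_trans (le_of_eq ?_) e5
      ring
    exact le_of_mul_le_mul_left e7 hak
  refine ⟨T, fun t ht => ((hT t).mp ht).1, ?_, hcard, ?_⟩
  · rw [← card_pos]
    have : (0 : ℝ) < T.card := lt_of_lt_of_le (by positivity) hcard
    exact_mod_cast this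
  · intro t ht t' ht'
    have a1 := (hT t).mp ht
    have a2 := (hT t').mp ht'
    exact compare ha haD hH hε hh hY2 hDY c t t' a1.1 a2.1 ((hLm _).mp a1.2).2 ((hLm _).mp a2.2).2

end

end Vale.Agent.P057.CROOT
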