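import Mathlib

/-!
# P057: definitions (Bohr sets in finite abelian groups, 3-term progressions)
-/

open Finset

namespace Vale.Agent.P057

noncomputable section

variable {G : Type} [AddCommGroup G] [Fintype G]

open Classical in
/-- Bohr set with frequency set `Γ` and width `ρ` -/
def bohr (Γ : Finset (AddChar G ℂ)) (ρ : ℝ) : Finset G :=
  univ.filter (fun x => ∀ ψ ∈ Γ, ‖ψ x - 1‖ ≤ ρ)

/-- relative width of the regular annulus, for rank `d` -/
def kap (d : ℕ) : ℝ := 1 / (2 ^ 24 * ((d : ℝ) + 1))

/-- absolute small constant -/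
def eps0 : ℝ := 1 / 2 ^ 12

/-- `ρ` is a regular width for `Γ` -/
def Reg (Γ : Finset (AddChar G ℂ)) (ρ : ℝ) : Prop :=
  ((bohr Γ ((1 + 2 * kap Γ.card) * ρ)).card : ℝ) ≤
    (1 + eps0) * ((bohr Γ ((1 - 2 * kap Γ.card) * ρ)).card : ℝ)

open Classical in
/-- number of elements of `A` in the translate `x + B` -/
def cnt (A B : Finset G) (x : G) : ℕ := (A.filter (fun a => a - x ∈ B)).card

open Classical in
/-- number of representations of `x` as a difference `a - a'` of elements of `A` -/
def rep (A : Finset G) (x : G) : ℕ := ((A ×ˢ A).filter (fun q => q.1 - q.2 = x)).card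

/-- average of `h (b - b')` over pairs of elements of `D` -/
def avd (D : Finset G) (h : G → ℝ) : ℝ := (∑ b ∈ D, ∑ b' ∈ D, h (b - b')) / (D.card : ℝ) ^ 2

open Classical in
/-- normalised indicator function -/
def mu (S : Finset G) (x : G) : ℝ := if x ∈ S then 1 / (S.card : ℝ) else 0

/-- convolution of a function with itself -/
def conv (f : G → ℝ) (y : G) : ℝ := ∑ s, f s * f (y - s)

/-- autocorrelation of a function -/
def corr (f : G → ℝ) (x : G) : ℝ := ∑ s, f (s + x) * f s

/-- no nontrivial three-term progression -/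
def TAF (A : Finset G) : Prop := ∀ x ∈ A, ∀ y ∈ A, ∀ z ∈ A, x + y = z + z → x = y

/-- characters which have a large Fourier coefficient on `T` -/
def Lg (T : Finset G) (ψ : AddChar G ℂ) : Prop := (T.card : ℝ) / 2 ≤ ‖∑ x ∈ T, ψ x‖

/-- product of integer powers of the characters in `Λ` -/
def pch (Λ : Finset (AddChar G ℂ)) (m : AddChar G ℂ → ℤ) : AddChar G ℂ := ∏ χ ∈ Λ, χ ^ (m χ)

end

end Vale.Agent.P057
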