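import Vale.Agent.P057.Mods

open Finset

namespace Vale.Agent.P057
namespace FavgAux

variable {G : Type} [AddCommGroup G] [Fintype G]

lemma conj_char (ψ : AddChar G ℂ) (x : G) : (starRingEnd ℂ) (ψ x) = ψ (-x) := by
  rw [AddChar.map_neg_eq_conj]

lemma sum_sq (ψ : AddChar G ℂ) (T : Finset G) :
    ∑ t ∈ T, ∑ t' ∈ T, (ψ (t - t')).re = ‖∑ x ∈ T, ψ x‖ ^ 2 := by
  have h : ((∑ t ∈ T, ∑ t' ∈ T, (ψ (t - t')).re : ℝ) : ℂ).re = ((‖∑ x ∈ T, ψ x‖ : ℝ) : ℂ).re ^ 2 := by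
    have h1 : ∑ t ∈ T, ∑ t' ∈ T, ψ (t - t') = (∑ x ∈ T, ψ x) * (starRingEnd ℂ) (∑ x ∈ T, ψ x) := by
      rw [map_sum, Finset.sum_mul_sum]
      refine Finset.sum_congr rfl (fun t _ => Finset.sum_congr rfl (fun t' _ => ?_))
      rw [sub_eq_add_neg, AddChar.map_add_eq_mul, conj_char]
    have h2 : ∑ t ∈ T, ∑ t' ∈ T, (ψ (t - t')).re = (∑ t ∈ T, ∑ t' ∈ T, ψ (t - t')).re := by
      rw [Complex.re_sum]
      refine Finset.sum_congr rfl (fun t _ => ?_)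
      rw [Complex.re_sum]
    rw [Complex.ofReal_re, Complex.ofReal_re, h2, h1, Complex.mul_conj, Complex.ofReal_re,
      Complex.normSq_eq_norm_sq]
  simpa using h

end FavgAux

theorem favg_proof : FAVG := by
  intro G _ _ w T hT
  have hTc : (0 : ℝ) < T.card := by exact_mod_cast hT.card_pos
  have h1 : ∑ t ∈ T, ∑ t' ∈ T, ∑ ψ : AddChar G ℂ, w ψ * (ψ (t - t')).re
      = ∑ ψ : AddChar G ℂ, w ψ * ‖∑ x ∈ T, ψ x‖ ^ 2 := by
    have h2 : ∀ t ∈ T, ∑ t' ∈ T, ∑ ψ : AddChar G ℂ, w ψ * (ψ (t - t')).re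
        = ∑ ψ : AddChar G ℂ, ∑ t' ∈ T, w ψ * (ψ (t - t')).re := fun t _ => Finset.sum_comm
    rw [Finset.sum_congr rfl h2, Finset.sum_comm]
    refine Finset.sum_congr rfl (fun ψ _ => ?_)
    rw [← FavgAux.sum_sq, Finset.mul_sum]
    refine Finset.sum_congr rfl (fun t _ => ?_)
    rw [Finset.mul_sum]
  rw [h1, Finset.sum_div]
  refine Finset.sum_congr rfl (fun ψ _ => ?_)
  rw [div_pow]
  ring

end Vale.Agent.P057
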