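import Vale.Agent.P057.Mods

/-!
# P057: module FINAL, transfer from finite groups to the integers
-/

open Finset

namespace Vale.Agent.P057

namespace FN

theorem half_eq (N : ℕ) (x : ZMod (2 * N + 1)) : ((N : ZMod (2 * N + 1)) + 1) * (x + x) = x := by
  have h : ((2 * N + 1 : ℕ) : ZMod (2 * N + 1)) = 0 := ZMod.natCast_self _
  push_cast at h
  have : ((N : ZMod (2 * N + 1)) + 1) * (x + x) = (2 * (N : ZMod (2 * N + 1)) + 1) * x + x := by ring
  rw [this, h]
  ring

theorem dbl_bij (N : ℕ) : Function.Bijective (fun x : ZMod (2 * N + 1) => x + x) := by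
  have hinj : Function.Injective (fun x : ZMod (2 * N + 1) => x + x) := by
    intro x y hxy
    have hxy' : x + x = y + y := hxy
    rw [← half_eq N x, hxy', half_eq N y]
  exact Finite.injective_iff_bijective.mp hinj

theorem cast_inj (N : ℕ) {a b : ℕ} (ha : a ≤ 2 * N) (hb : b ≤ 2 * N)
    (h : (a : ZMod (2 * N + 1)) = (b : ZMod (2 * N + 1))) : a = b := by
  rw [ZMod.natCast_eq_natCast_iff'] at h
  rwa [Nat.mod_eq_of_lt (by omega), Nat.mod_eq_of_lt (by omega)] at h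

open Classical in
theorem card_img (N : ℕ) (A : Finset ℕ) (hA : A ⊆ Icc 1 N) :
    (A.image (fun a : ℕ => (a : ZMod (2 * N + 1)))).card = A.card := by
  apply Finset.card_image_of_injOn
  intro a ha b hb hab
  have ha' := Finset.mem_Icc.mp (hA ha)
  have hb' := Finset.mem_Icc.mp (hA hb)
  exact cast_inj N (by omega) (by omega) hab

open Classical in
theorem taf_img (N : ℕ) (A : Finset ℕ) (hA : A ⊆ Icc 1 N)
    (h3 : ∀ a d : ℕ, 0 < d → a ∈ A → a + d ∈ A → a + 2 * d ∉ A) :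
    TAF (A.image (fun a : ℕ => (a : ZMod (2 * N + 1)))) := by
  intro x hx y hy z hz hxyz
  obtain ⟨a, ha, rfl⟩ := Finset.mem_image.mp hx
  obtain ⟨b, hb, rfl⟩ := Finset.mem_image.mp hy
  obtain ⟨c, hc, rfl⟩ := Finset.mem_image.mp hz
  have ha' := Finset.mem_Icc.mp (hA ha)
  have hb' := Finset.mem_Icc.mp (hA hb)
  have hc' := Finset.mem_Icc.mp (hA hc)
  have hnat : a + b = c + c := by
    apply cast_inj N (by omega) (by omega)
    push_cast
    exact hxyz
  have hab : a = b := by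
    by_contra hne
    rcases Nat.lt_or_gt_of_ne hne with hlt | hlt
    · have hm := h3 a (c - a) (by omega) ha
      have e1 : a + (c - a) = c := by omega
      have e2 : a + 2 * (c - a) = b := by omega
      rw [e1, e2] at hm
      exact hm hc hb
    · have hm := h3 b (c - b) (by omega) hb
      have e1 : b + (c - b) = c := by omega
      have e2 : b + 2 * (c - b) = a := by omega
      rw [e1, e2] at hm
      exact hm hc ha
  rw [hab]

/-- growth of `y / log y` -/
theorem tend_ratio : Filter.Tendsto (fun y : ℝ => y / Real.log y) Filter.atTop Filter.atTop := by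
  have h0 : Filter.Tendsto (fun y : ℝ => Real.sqrt y / 2) Filter.atTop Filter.atTop :=
    Real.tendsto_sqrt_atTop.atTop_div_const (by norm_num)
  refine Filter.tendsto_atTop_mono' _ ?_ h0
  filter_upwards [Filter.eventually_gt_atTop (1 : ℝ)] with y hy
  have hlog : 0 < Real.log y := Real.log_pos hy
  have hy0 : 0 < y := by linarith
  have hs : 0 < Real.sqrt y := Real.sqrt_pos.mpr hy0
  have h1 : Real.log y ≤ 2 * Real.sqrt y := by
    have h2 : Real.log (Real.sqrt y) ≤ Real.sqrt y - 1 := Real.log_le_sub_one_of_pos hs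
    have h3 : Real.log (Real.sqrt y) = Real.log y / 2 := Real.log_sqrt hy0.le
    linarith
  rw [le_div_iff₀ hlog]
  have h4 : Real.sqrt y * Real.sqrt y = y := Real.mul_self_sqrt hy0.le
  nlinarith

theorem tend_t : Filter.Tendsto
    (fun N : ℕ => (Real.log N / Real.log (Real.log N)) ^ ((1 : ℝ) / 6)) Filter.atTop Filter.atTop := by
  have h1 : Filter.Tendsto (fun N : ℕ => Real.log (N : ℝ)) Filter.atTop Filter.atTop :=
    Real.tendsto_log_atTop.comp tendsto_natCast_atTop_atTop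
  have h2 := tend_ratio.comp h1
  have h3 : Filter.Tendsto (fun x : ℝ => x ^ ((1 : ℝ) / 6)) Filter.atTop Filter.atTop :=
    tendsto_rpow_atTop (by norm_num)
  exact h3.comp h2

theorem exp_le_two_pow (u : ℝ) (hu : 0 ≤ u) : Real.exp u ≤ (2 : ℝ) ^ (⌈2 * u⌉₊) := by
  have h1 : 2 * u ≤ (⌈2 * u⌉₊ : ℝ) := Nat.le_ceil _
  have hl : (1 : ℝ) / 2 < Real.log 2 := by
    have := Real.log_two_gt_d9
    linarith
  have h2 : u ≤ (⌈2 * u⌉₊ : ℝ) * Real.log 2 := by nlinarith
  calc Real.exp u ≤ Real.exp ((⌈2 * u⌉₊ : ℝ) * Real.log 2) := Real.exp_le_exp.mpr h2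
    _ = (2 : ℝ) ^ (⌈2 * u⌉₊) := by
        rw [Real.exp_nat_mul, Real.exp_log (by norm_num)]

/-- the numerical heart: `L = ⌈2 u⌉ + 3`, `u = t / (3 C)` -/
theorem numeric (C : ℕ) (hC : 1 ≤ C) (Λ t : ℝ) (hΛ : 1 ≤ Real.log Λ)
    (ht : t = (Λ / Real.log Λ) ^ ((1 : ℝ) / 6)) (htC : 12 * (C : ℝ) ≤ t) (hΛ0 : 0 < Λ) :
    (C : ℝ) * ((⌈2 * (t / (3 * C))⌉₊ + 3 : ℕ) : ℝ) ^ 6 *
      Real.log ((⌈2 * (t / (3 * C))⌉₊ + 3 : ℕ) : ℝ) ≤ Λ / 6 := by
  have hC' : (1 : ℝ) ≤ C := by exact_mod_cast hC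
  have hC0 : (0 : ℝ) < C := by linarith
  set L : ℕ := ⌈2 * (t / (3 * C))⌉₊ + 3 with hL
  have ht0 : 0 < t := by nlinarith
  have hceil : (⌈2 * (t / (3 * C))⌉₊ : ℝ) < 2 * (t / (3 * C)) + 1 :=
    Nat.ceil_lt_add_one (by positivity)
  have hu : 4 ≤ t / (3 * C) := by
    rw [le_div_iff₀ (by positivity)]
    linarith
  have hLle : (L : ℝ) ≤ t / C := by
    have h1 : (L : ℝ) = (⌈2 * (t / (3 * C))⌉₊ : ℝ) + 3 := by
      rw [hL]; push_cast; ring
    have h2 : t / C = 3 * (t / (3 * C)) := by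
      field_simp
    rw [h1, h2]
    linarith
  have hL3 : (3 : ℝ) ≤ L := by
    rw [hL]; push_cast
    have : (0 : ℝ) ≤ (⌈2 * (t / (3 * C))⌉₊ : ℝ) := Nat.cast_nonneg _
    linarith
  have hLt : (L : ℝ) ≤ t := by
    have : t / C ≤ t := div_le_self ht0.le hC'
    linarith
  have hlogΛ0 : 0 < Real.log Λ := by linarith
  have hratio : 0 < Λ / Real.log Λ := by positivity
  have ht6 : t ^ 6 = Λ / Real.log Λ := by
    rw [ht, ← Real.rpow_natCast, ← Real.rpow_mul hratio.le]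
    norm_num
  have hlogL : Real.log L ≤ Real.log Λ / 6 := by
    have h1 : Real.log L ≤ Real.log t := Real.log_le_log (by linarith) hLt
    have h2 : Real.log t ≤ Real.log Λ / 6 := by
      have h3 : Real.log (t ^ 6) = 6 * Real.log t := by
        rw [Real.log_pow]; norm_num
      have h4 : Real.log (t ^ 6) ≤ Real.log Λ := by
        rw [ht6]
        apply Real.log_le_log hratio
        exact div_le_self hΛ0.le hΛ
      linarith
    linarith
  have hlogL0 : 0 ≤ Real.log L := Real.log_nonneg (by linarith)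
  have hL6 : (C : ℝ) * (L : ℝ) ^ 6 ≤ t ^ 6 := by
    have h1 : (L : ℝ) ^ 6 ≤ (t / C) ^ 6 := by
      apply pow_le_pow_left₀ (by linarith) hLle
    have h2 : (C : ℝ) * (t / C) ^ 6 ≤ t ^ 6 := by
      rw [div_pow, mul_div_assoc', div_le_iff₀ (by positivity)]
      have h3 : (C : ℝ) ≤ (C : ℝ) ^ 6 := by
        calc (C : ℝ) = (C : ℝ) ^ 1 := by ring
          _ ≤ (C : ℝ) ^ 6 := pow_le_pow_right₀ hC' (by norm_num)
      have h4 : 0 ≤ t ^ 6 := by positivity
      nlinarith
    nlinarith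
  calc (C : ℝ) * (L : ℝ) ^ 6 * Real.log L ≤ t ^ 6 * (Real.log Λ / 6) := by
        apply mul_le_mul hL6 hlogL hlogL0 (by positivity)
    _ = Λ / 6 := by
        rw [ht6]; field_simp

end FN

open Classical in
theorem final_proof (hITERT : ITERT) : FINAL := by
  obtain ⟨C, hC, hI⟩ := hITERT
  have hC' : (1 : ℝ) ≤ C := by exact_mod_cast hC
  have hC0 : (0 : ℝ) < C := by linarith
  have hev1 : ∀ᶠ N : ℕ in Filter.atTop,
      12 * (C : ℝ) ≤ (Real.log N / Real.log (Real.log N)) ^ ((1 : ℝ) / 6) :=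
    FN.tend_t.eventually_ge_atTop _
  have hlog : Filter.Tendsto (fun N : ℕ => Real.log (N : ℝ)) Filter.atTop Filter.atTop :=
    Real.tendsto_log_atTop.comp tendsto_natCast_atTop_atTop
  have hev2 : ∀ᶠ N : ℕ in Filter.atTop, 1 ≤ Real.log (Real.log (N : ℝ)) :=
    (Real.tendsto_log_atTop.comp hlog).eventually_ge_atTop _
  have hev3 : ∀ᶠ N : ℕ in Filter.atTop, 1 ≤ Real.log (N : ℝ) := hlog.eventually_ge_atTop _
  have hev4 : ∀ᶠ N : ℕ in Filter.atTop, 1 ≤ N := Filter.eventually_ge_atTop 1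
  obtain ⟨N₀, hN₀⟩ := Filter.eventually_atTop.mp (hev1.and (hev2.and (hev3.and hev4)))
  refine ⟨1 / (3 * C), by positivity, N₀, ?_⟩
  intro N hN A hA h3
  obtain ⟨h12, hll, hl, hN1⟩ := hN₀ N hN
  set t : ℝ := (Real.log N / Real.log (Real.log N)) ^ ((1 : ℝ) / 6) with ht
  have hN1' : (1 : ℝ) ≤ N := by exact_mod_cast hN1
  by_contra hcon
  rw [not_le] at hcon
  have ht0 : 0 < t := by nlinarith
  have hu0 : 0 ≤ t / (3 * C) := by positivity
  have hexp : - (1 / (3 * (C : ℝ))) * t = - (t / (3 * C)) := by ring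
  rw [hexp, Real.exp_neg] at hcon
  have hE : 0 < Real.exp (t / (3 * C)) := Real.exp_pos _
  have hA1 : (N : ℝ) < Real.exp (t / (3 * C)) * A.card := by
    rw [← div_eq_mul_inv, div_lt_iff₀ hE] at hcon
    linarith
  have h2L := FN.exp_le_two_pow (t / (3 * C)) hu0
  have hA0 : (0 : ℝ) ≤ A.card := Nat.cast_nonneg _
  have hmain := hI (ZMod (2 * N + 1)) (A.image (fun a : ℕ => (a : ZMod (2 * N + 1))))
    (⌈2 * (t / (3 * C))⌉₊ + 3) (FN.dbl_bij N) (FN.taf_img N A hA h3) (by omega)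
  rw [FN.card_img N A hA, ZMod.card] at hmain
  have hbig : 2 * ((2 * N + 1 : ℕ) : ℝ) ≤ 2 ^ (⌈2 * (t / (3 * C))⌉₊ + 3) * (A.card : ℝ) := by
    push_cast
    rw [pow_add]
    have h5 : (N : ℝ) ≤ (2 : ℝ) ^ (⌈2 * (t / (3 * C))⌉₊) * A.card := by
      have := mul_le_mul_of_nonneg_right h2L hA0
      linarith
    nlinarith
  have hfin := hmain hbig
  have hnum := FN.numeric C hC (Real.log N) t hll ht h12 (by linarith)
  have hmono : Real.log N ≤ Real.log ((2 * N + 1 : ℕ) : ℝ) := by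
    apply Real.log_le_log (by linarith)
    push_cast
    linarith
  linarith

end Vale.Agent.P057
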