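import Vale.Agent.P057.Mods

open Finset

namespace Vale.Agent.P057
namespace FiniAux

variable {G : Type} [AddCommGroup G] [Fintype G]

open Classical in
lemma rep_eq (A : Finset G) (x : G) :
    (rep A x : ℝ) = ∑ a ∈ A, ∑ b ∈ A, (if a - b = x then (1 : ℝ) else 0) := by
  unfold rep
  rw [Finset.card_filter, Nat.cast_sum, Finset.sum_product]
  refine Finset.sum_congr rfl (fun a _ => Finset.sum_congr rfl (fun b _ => ?_))
  by_cases h : a - b = x <;> simp [h]

open Classical in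
lemma cnt_eq (A B : Finset G) (x : G) :
    (cnt A B x : ℝ) = ∑ a ∈ A, ∑ b ∈ B, (if a - b = x then (1 : ℝ) else 0) := by
  unfold cnt
  rw [Finset.card_filter, Nat.cast_sum]
  refine Finset.sum_congr rfl (fun a _ => ?_)
  have h : ∀ b ∈ B, (if a - b = x then (1 : ℝ) else 0) = if b = a - x then (1 : ℝ) else 0 := by
    intro b _
    by_cases h : a - b = x
    · have : b = a - x := by rw [← h]; abel
      simp [h, this]
    · have : ¬ (b = a - x) := by
        intro h2
        apply h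
        rw [h2]; abel
      simp [h, this]
  rw [Finset.sum_congr rfl h, Finset.sum_ite_eq']
  by_cases h2 : a - x ∈ B <;> simp [h2]

open Classical in
/-- total count -/
lemma cnt_total (A B : Finset G) : ∑ y : G, (cnt A B y : ℝ) = (A.card : ℝ) * B.card := by
  simp_rw [cnt_eq]
  rw [Finset.sum_comm]
  have h : ∀ a ∈ A, ∑ y : G, ∑ b ∈ B, (if a - b = y then (1 : ℝ) else 0) = B.card := by
    intro a _
    rw [Finset.sum_comm]
    simp
  rw [Finset.sum_congr rfl h]
  simp

open Classical in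
/-- double count -/
lemma rep_cnt (A D : Finset G) (u : G) :
    ∑ t ∈ D, ∑ t' ∈ D, (rep A (u + (t - t')) : ℝ) = ∑ y : G, (cnt A D (y + u) : ℝ) * cnt A D y := by
  have h1 : ∀ y : G, (cnt A D (y + u) : ℝ) * cnt A D y
      = ∑ a ∈ A, ∑ t ∈ D, ∑ b ∈ A, ∑ t' ∈ D,
        (if a - t = y + u then (1 : ℝ) else 0) * (if b - t' = y then (1 : ℝ) else 0) := by
    intro y
    rw [cnt_eq, cnt_eq, Finset.sum_mul]
    refine Finset.sum_congr rfl (fun a _ => ?_)
    rw [Finset.sum_mul]
    refine Finset.sum_congr rfl (fun t _ => ?_)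
    rw [Finset.mul_sum]
    refine Finset.sum_congr rfl (fun b _ => ?_)
    rw [Finset.mul_sum]
  simp_rw [h1]
  -- move the sum over y inside
  have h2 : ∑ y : G, ∑ a ∈ A, ∑ t ∈ D, ∑ b ∈ A, ∑ t' ∈ D,
        (if a - t = y + u then (1 : ℝ) else 0) * (if b - t' = y then (1 : ℝ) else 0)
      = ∑ a ∈ A, ∑ t ∈ D, ∑ b ∈ A, ∑ t' ∈ D,
        (if a - t = b - t' + u then (1 : ℝ) else 0) := by
    rw [Finset.sum_comm]
    refine Finset.sum_congr rfl (fun a _ => ?_)
    rw [Finset.sum_comm]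
    refine Finset.sum_congr rfl (fun t _ => ?_)
    rw [Finset.sum_comm]
    refine Finset.sum_congr rfl (fun b _ => ?_)
    rw [Finset.sum_comm]
    refine Finset.sum_congr rfl (fun t' _ => ?_)
    rw [Finset.sum_eq_single (b - t')]
    · simp
    · intro y _ hy
      simp [Ne.symm hy]
    · intro h
      exact absurd (Finset.mem_univ _) h
  rw [h2]
  have h3 : ∀ t ∈ D, ∀ t' ∈ D, (rep A (u + (t - t')) : ℝ)
      = ∑ a ∈ A, ∑ b ∈ A, (if a - t = b - t' + u then (1 : ℝ) else 0) := by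
    intro t _ t' _
    rw [rep_eq]
    refine Finset.sum_congr rfl (fun a _ => Finset.sum_congr rfl (fun b _ => ?_))
    by_cases h : a - b = u + (t - t')
    · have : a - t = b - t' + u := by
        have e : a = u + (t - t') + b := by rw [← h]; abel
        rw [e]; abel
      simp [h, this]
    · have : ¬ (a - t = b - t' + u) := by
        intro h2
        apply h
        have e : a = b - t' + u + t := by rw [← h2]; abel
        rw [e]; abel
      simp [h, this]
  rw [Finset.sum_congr rfl (fun t ht => Finset.sum_congr rfl (h3 t ht))]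
  -- reorder t t' a b to a t b t'
  have h4 : ∀ t ∈ D, ∑ t' ∈ D, ∑ a ∈ A, ∑ b ∈ A, (if a - t = b - t' + u then (1 : ℝ) else 0)
      = ∑ a ∈ A, ∑ b ∈ A, ∑ t' ∈ D, (if a - t = b - t' + u then (1 : ℝ) else 0) := by
    intro t _
    rw [Finset.sum_comm]
    refine Finset.sum_congr rfl (fun a _ => ?_)
    rw [Finset.sum_comm]
  rw [Finset.sum_congr rfl h4, Finset.sum_comm]

end FiniAux

theorem fini_proof : FINI := by
  intro G _ _ a A D c V ha hA hD hc hV
  classical
  have hac : (0 : ℝ) < a.card := by exact_mod_cast ha.card_pos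
  have hDc : (0 : ℝ) < D.card := by exact_mod_cast hD.card_pos
  obtain ⟨y, _, hy⟩ := Finset.exists_max_image (Finset.univ : Finset G) (fun y => (cnt A D y : ℝ))
    ⟨0, Finset.mem_univ _⟩
  refine ⟨y, ?_⟩
  have h1 : ∀ u : G, ∑ t ∈ D, ∑ t' ∈ D, (rep A (u + (t - t')) : ℝ) ≤ (cnt A D y : ℝ) * (A.card * D.card) := by
    intro u
    rw [FiniAux.rep_cnt, ← FiniAux.cnt_total, Finset.mul_sum]
    refine Finset.sum_le_sum (fun z _ => ?_)
    exact mul_le_mul_of_nonneg_right (hy _ (Finset.mem_univ _)) (Nat.cast_nonneg _)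
  have h2 : ∑ t ∈ D, ∑ t' ∈ D, avd a (fun x => c * rep A (x + (t - t')))
      ≤ c * ((cnt A D y : ℝ) * (A.card * D.card)) := by
    unfold avd
    have h3 : ∑ t ∈ D, ∑ t' ∈ D, (∑ b ∈ a, ∑ b' ∈ a, c * (rep A (b - b' + (t - t')) : ℝ)) / (a.card : ℝ) ^ 2
        = (∑ b ∈ a, ∑ b' ∈ a, c * ∑ t ∈ D, ∑ t' ∈ D, (rep A (b - b' + (t - t')) : ℝ)) / (a.card : ℝ) ^ 2 := by
      simp_rw [← Finset.sum_div]
      congr 1
      have h4 : ∀ t ∈ D, ∑ t' ∈ D, ∑ b ∈ a, ∑ b' ∈ a, c * (rep A (b - b' + (t - t')) : ℝ)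
          = ∑ b ∈ a, ∑ b' ∈ a, ∑ t' ∈ D, c * (rep A (b - b' + (t - t')) : ℝ) := by
        intro t _
        rw [Finset.sum_comm]
        refine Finset.sum_congr rfl (fun b _ => ?_)
        rw [Finset.sum_comm]
      rw [Finset.sum_congr rfl h4, Finset.sum_comm]
      refine Finset.sum_congr rfl (fun b _ => ?_)
      rw [Finset.sum_comm]
      refine Finset.sum_congr rfl (fun b' _ => ?_)
      simp_rw [Finset.mul_sum]
    rw [h3, div_le_iff₀ (by positivity)]
    calc ∑ b ∈ a, ∑ b' ∈ a, c * ∑ t ∈ D, ∑ t' ∈ D, (rep A (b - b' + (t - t')) : ℝ)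
        ≤ ∑ b ∈ a, ∑ b' ∈ a, c * ((cnt A D y : ℝ) * (A.card * D.card)) :=
          Finset.sum_le_sum (fun b _ => Finset.sum_le_sum (fun b' _ => mul_le_mul_of_nonneg_left (h1 _) hc.le))
      _ = c * ((cnt A D y : ℝ) * (A.card * D.card)) * (a.card : ℝ) ^ 2 := by
          simp only [Finset.sum_const, nsmul_eq_mul]
          ring
  have h5 : V ≤ c * ((cnt A D y : ℝ) * (A.card * D.card)) / (D.card : ℝ) ^ 2 :=
    hV.trans (div_le_div_of_nonneg_right h2 (by positivity))
  rw [le_div_iff₀ (by positivity)] at h5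
  have h6 : (V * D.card) * D.card ≤ (c * A.card * cnt A D y) * D.card := by nlinarith [h5]
  exact le_of_mul_le_mul_right h6 hDc

end Vale.Agent.P057
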