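import Vale.Agent.P057.Mods

open Finset

namespace Vale.Agent.P057
namespace FrepAux

variable {G : Type} [AddCommGroup G] [Fintype G]

lemma conj_char (ψ : AddChar G ℂ) (x : G) : (starRingEnd ℂ) (ψ x) = ψ (-x) := by
  rw [AddChar.map_neg_eq_conj]

open Classical in
lemma ortho (y : G) : (if y = 0 then (1 : ℝ) else 0)
    = (Fintype.card G : ℝ)⁻¹ * ∑ ψ : AddChar G ℂ, (ψ y).re := by
  have h := AddChar.sum_apply_eq_ite (α := G) y
  have hc : (0 : ℝ) < Fintype.card G := by exact_mod_cast Fintype.card_pos_iff.mpr ⟨0⟩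
  have h2 : ∑ ψ : AddChar G ℂ, (ψ y).re = (∑ ψ : AddChar G ℂ, ψ y).re := by rw [Complex.re_sum]
  rw [h2, h]
  split
  · rw [Complex.natCast_re]
    field_simp
  · simp

open Classical in
lemma rep_eq (A : Finset G) (x : G) :
    (rep A x : ℝ) = ∑ a ∈ A, ∑ b ∈ A, (if x - (a - b) = 0 then (1 : ℝ) else 0) := by
  unfold rep
  rw [Finset.card_filter, Nat.cast_sum, Finset.sum_product]
  refine Finset.sum_congr rfl (fun a _ => Finset.sum_congr rfl (fun b _ => ?_))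
  by_cases h : a - b = x
  · simp [h]
  · have h' : ¬ (x - (a - b) = 0) := by
      intro h2
      exact h (sub_eq_zero.mp h2).symm
    simp only [h, h', if_false, Nat.cast_zero]

lemma quad (ψ : AddChar G ℂ) (a A : Finset G) (t : G) :
    ∑ b ∈ a, ∑ b' ∈ a, ∑ x ∈ A, ∑ y ∈ A, (ψ (b - b' + t - (x - y))).re
      = ‖∑ b ∈ a, ψ b‖ ^ 2 * ‖∑ x ∈ A, ψ x‖ ^ 2 * (ψ t).re := by
  have h1 : ∑ b ∈ a, ∑ b' ∈ a, ∑ x ∈ A, ∑ y ∈ A, ψ (b - b' + t - (x - y))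
      = ((∑ b ∈ a, ψ b) * (starRingEnd ℂ) (∑ b ∈ a, ψ b)) *
        ((∑ x ∈ A, ψ x) * (starRingEnd ℂ) (∑ x ∈ A, ψ x)) * ψ t := by
    have hA : ∀ b ∈ a, ∀ b' ∈ a, ∑ x ∈ A, ∑ y ∈ A, ψ (b - b' + t - (x - y))
        = ψ b * (starRingEnd ℂ) (ψ b') * (((∑ x ∈ A, ψ x) * (starRingEnd ℂ) (∑ x ∈ A, ψ x)) * ψ t) := by
      intro b _ b' _
      rw [map_sum, Finset.sum_mul_sum, Finset.sum_mul, Finset.mul_sum]
      rw [Finset.sum_comm]
      refine Finset.sum_congr rfl (fun x _ => ?_)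
      rw [Finset.sum_mul, Finset.mul_sum]
      refine Finset.sum_congr rfl (fun y _ => ?_)
      have e : b - b' + t - (y - x) = b + (-b') + (x + (-y)) + t := by abel
      rw [e, AddChar.map_add_eq_mul, AddChar.map_add_eq_mul, AddChar.map_add_eq_mul,
        AddChar.map_add_eq_mul, conj_char, conj_char]
      ring
    rw [Finset.sum_congr rfl (fun b hb => Finset.sum_congr rfl (hA b hb))]
    have key : ∀ Q : ℂ, ∑ b ∈ a, ∑ b' ∈ a, ψ b * (starRingEnd ℂ) (ψ b') * Q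
        = ((∑ b ∈ a, ψ b) * (starRingEnd ℂ) (∑ b ∈ a, ψ b)) * Q := by
      intro Q
      rw [map_sum, Finset.sum_mul_sum, Finset.sum_mul]
      refine Finset.sum_congr rfl (fun b _ => ?_)
      rw [Finset.sum_mul]
    rw [key]
    ring
  have h2 : ∑ b ∈ a, ∑ b' ∈ a, ∑ x ∈ A, ∑ y ∈ A, (ψ (b - b' + t - (x - y))).re
      = (∑ b ∈ a, ∑ b' ∈ a, ∑ x ∈ A, ∑ y ∈ A, ψ (b - b' + t - (x - y))).re := by
    simp only [Complex.re_sum]
  rw [h2, h1, Complex.mul_conj, Complex.mul_conj, Complex.normSq_eq_norm_sq, Complex.normSq_eq_norm_sq,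
    ← Complex.ofReal_mul, Complex.re_ofReal_mul]

end FrepAux

theorem frep_proof : FREP := by
  intro G _ _ a A c ha hc
  have hac : (0 : ℝ) < a.card := by exact_mod_cast ha.card_pos
  have hGc : (0 : ℝ) < Fintype.card G := by exact_mod_cast Fintype.card_pos_iff.mpr ⟨0⟩
  refine ⟨fun ψ => c / ((a.card : ℝ) ^ 2 * Fintype.card G) * (‖∑ b ∈ a, ψ b‖ ^ 2 * ‖∑ x ∈ A, ψ x‖ ^ 2),
    fun ψ => by positivity, fun t => ?_⟩
  unfold avd
  rw [div_eq_iff (by positivity)]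
  have h1 : ∀ b ∈ a, ∀ b' ∈ a, c * (rep A (b - b' + t) : ℝ)
      = ∑ ψ : AddChar G ℂ, c * (Fintype.card G : ℝ)⁻¹ *
          ∑ x ∈ A, ∑ y ∈ A, (ψ (b - b' + t - (x - y))).re := by
    intro b _ b' _
    rw [FrepAux.rep_eq]
    simp_rw [FrepAux.ortho, ← Finset.mul_sum]
    rw [mul_assoc]
    congr 2
    rw [Finset.sum_comm]
    have : ∀ y ∈ A, ∑ x ∈ A, ∑ ψ : AddChar G ℂ, (ψ (b - b' + t - (x - y))).re
        = ∑ ψ : AddChar G ℂ, ∑ x ∈ A, (ψ (b - b' + t - (x - y))).re := fun y _ => Finset.sum_comm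
    rw [Finset.sum_congr rfl this, Finset.sum_comm]
    refine Finset.sum_congr rfl (fun ψ _ => ?_)
    rw [Finset.sum_comm]
  rw [Finset.sum_congr rfl (fun b hb => Finset.sum_congr rfl (h1 b hb))]
  have h2 : ∑ b ∈ a, ∑ b' ∈ a, ∑ ψ : AddChar G ℂ, c * (Fintype.card G : ℝ)⁻¹ *
          ∑ x ∈ A, ∑ y ∈ A, (ψ (b - b' + t - (x - y))).re
      = ∑ ψ : AddChar G ℂ, c * (Fintype.card G : ℝ)⁻¹ *
          ∑ b ∈ a, ∑ b' ∈ a, ∑ x ∈ A, ∑ y ∈ A, (ψ (b - b' + t - (x - y))).re := by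
    have : ∀ b ∈ a, ∑ b' ∈ a, ∑ ψ : AddChar G ℂ, c * (Fintype.card G : ℝ)⁻¹ *
          ∑ x ∈ A, ∑ y ∈ A, (ψ (b - b' + t - (x - y))).re
        = ∑ ψ : AddChar G ℂ, ∑ b' ∈ a, c * (Fintype.card G : ℝ)⁻¹ *
          ∑ x ∈ A, ∑ y ∈ A, (ψ (b - b' + t - (x - y))).re := fun b _ => Finset.sum_comm
    rw [Finset.sum_congr rfl this, Finset.sum_comm]
    refine Finset.sum_congr rfl (fun ψ _ => ?_)
    simp_rw [← Finset.mul_sum]
  rw [h2, Finset.sum_mul]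
  refine Finset.sum_congr rfl (fun ψ _ => ?_)
  rw [FrepAux.quad]
  field_simp

end Vale.Agent.P057
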