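import Vale.Agent.P057.Mods

open Finset

namespace Vale.Agent.P057

theorem gtriv_proof (h : BELEM) : GTRIV := by
  intro G _ _ Γ ρ ψ hρ hReg hLg x hx
  classical
  obtain ⟨b0, bneg, bmono, badd, bsub, bsum⟩ := h G Γ
  have hk0 : 0 < kap Γ.card := by unfold kap; positivity
  have hk1 : kap Γ.card < 1 / 4 := by
    unfold kap
    rw [div_lt_div_iff₀ (by positivity) (by norm_num)]
    have : (0 : ℝ) ≤ (Γ.card : ℝ) := Nat.cast_nonneg _
    nlinarith
  set κ := kap Γ.card with hκ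
  set B := bohr Γ ρ with hB
  set I := bohr Γ ((1 - κ) * ρ) with hI
  set U := bohr Γ ((1 + κ) * ρ) with hU
  have hBpos : (0 : ℝ) < B.card := by
    have : (0 : G) ∈ B := b0 ρ hρ.le
    exact_mod_cast Finset.card_pos.mpr ⟨0, this⟩
  have hIB : I ⊆ B := fun y hy => bmono _ _ y (by nlinarith) hy
  have hBU : B ⊆ U := fun y hy => bmono _ _ y (by nlinarith) hy
  have hxB : ∀ y ∈ B, x + y ∈ U := by
    intro y hy
    have := badd _ _ x y hx hy
    refine bmono _ _ _ (le_of_eq ?_) this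
    ring
  have hIx : ∀ z ∈ I, z - x ∈ B := by
    intro z hz
    have := bsub _ _ z x hz hx
    refine bmono _ _ _ (le_of_eq ?_) this
    ring
  -- cardinalities
  have hUI : (U.card : ℝ) - I.card ≤ eps0 * B.card := by
    have h1 : (U.card : ℝ) ≤ (bohr Γ ((1 + 2 * κ) * ρ)).card := by
      exact_mod_cast Finset.card_le_card (fun y hy => bmono _ _ y (by nlinarith) hy)
    have h2 : ((bohr Γ ((1 - 2 * κ) * ρ)).card : ℝ) ≤ I.card := by
      exact_mod_cast Finset.card_le_card (fun y hy => bmono _ _ y (by nlinarith) hy)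
    have h3 : (I.card : ℝ) ≤ B.card := by exact_mod_cast Finset.card_le_card hIB
    have h4 : (0 : ℝ) < eps0 := by unfold eps0; positivity
    unfold Reg at hReg
    rw [← hκ] at hReg
    nlinarith
  -- the shifted sum
  set X := B.image (fun y => x + y) with hX
  have hXU : X ⊆ U := by
    intro z hz
    rw [hX, Finset.mem_image] at hz
    obtain ⟨y, hy, rfl⟩ := hz
    exact hxB y hy
  have hIX : I ⊆ X := by
    intro z hz
    rw [hX, Finset.mem_image]
    exact ⟨z - x, hIx z hz, by abel⟩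
  have hs1 : ψ x * ∑ y ∈ B, ψ y = ∑ z ∈ X, ψ z := by
    rw [hX, Finset.sum_image (fun a _ b _ hab => add_left_cancel hab), Finset.mul_sum]
    refine Finset.sum_congr rfl (fun y _ => ?_)
    rw [AddChar.map_add_eq_mul]
  have hs2 : (ψ x - 1) * ∑ y ∈ B, ψ y
      = ∑ z ∈ U \ I, ((if z ∈ X then (1 : ℂ) else 0) - (if z ∈ B then 1 else 0)) * ψ z := by
    rw [sub_mul, one_mul, hs1]
    have e1 : ∑ z ∈ X, ψ z = ∑ z ∈ U, (if z ∈ X then (1 : ℂ) else 0) * ψ z := by
      simp only [ite_mul, one_mul, zero_mul]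
      rw [← Finset.sum_filter]
      congr 1
      ext z
      simp only [Finset.mem_filter]
      exact ⟨fun hz => ⟨hXU hz, hz⟩, fun hz => hz.2⟩
    have e2 : ∑ z ∈ B, ψ z = ∑ z ∈ U, (if z ∈ B then (1 : ℂ) else 0) * ψ z := by
      simp only [ite_mul, one_mul, zero_mul]
      rw [← Finset.sum_filter]
      congr 1
      ext z
      simp only [Finset.mem_filter]
      exact ⟨fun hz => ⟨hBU hz, hz⟩, fun hz => hz.2⟩
    rw [e1, e2, ← Finset.sum_sub_distrib]
    have hIU : I ⊆ U := hIB.trans hBU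
    rw [← Finset.sum_sdiff hIU]
    have e3 : ∑ z ∈ I, ((if z ∈ X then (1 : ℂ) else 0) * ψ z - (if z ∈ B then (1 : ℂ) else 0) * ψ z) = 0 := by
      refine Finset.sum_eq_zero (fun z hz => ?_)
      rw [if_pos (hIX hz), if_pos (hIB hz)]
      ring
    rw [e3, add_zero]
    refine Finset.sum_congr rfl (fun z _ => ?_)
    ring
  have hs3 : ‖(ψ x - 1) * ∑ y ∈ B, ψ y‖ ≤ (U.card : ℝ) - I.card := by
    rw [hs2]
    refine (norm_sum_le _ _).trans ?_
    have h5 : ∀ z ∈ U \ I, ‖((if z ∈ X then (1 : ℂ) else 0) - (if z ∈ B then 1 else 0)) * ψ z‖ ≤ 1 := by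
      intro z _
      rw [norm_mul, AddChar.norm_apply, mul_one]
      split_ifs <;> simp
    refine (Finset.sum_le_sum h5).trans ?_
    rw [Finset.sum_const, nsmul_eq_mul, mul_one, Finset.card_sdiff_of_subset (hIB.trans hBU),
      Nat.cast_sub (Finset.card_le_card (hIB.trans hBU))]
  rw [norm_mul] at hs3
  unfold Lg at hLg
  have h6 : ‖ψ x - 1‖ * ((B.card : ℝ) / 2) ≤ eps0 * B.card :=
    (mul_le_mul_of_nonneg_left hLg (norm_nonneg _)).trans (hs3.trans hUI)
  have h7 : ‖ψ x - 1‖ * B.card ≤ 2 * eps0 * B.card := by linarith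
  exact le_of_mul_le_mul_right h7 hBpos

end Vale.Agent.P057
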