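import Vale.Agent.P057.Mods

/-!
# P057: Hoelder and smoothing
-/

open Finset

namespace Vale.Agent.P057

namespace HS

theorem pow_mean {ι : Type} (A : Finset ι) (f : ι → ℝ) (L : ℕ) (hA : A.Nonempty)
    (h : ∑ z ∈ A, f z ≤ - (A.card : ℝ) / 2) :
    (A.card : ℝ) * (1 / 2) ^ (2 * L) ≤ ∑ z ∈ A, (f z) ^ (2 * L) := by
  have hc : (0 : ℝ) < A.card := by exact_mod_cast hA.card_pos
  have hm := Real.pow_arith_mean_le_arith_mean_pow_of_even A (fun _ => 1 / (A.card : ℝ)) f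
    (fun _ _ => by positivity) (by rw [sum_const, nsmul_eq_mul]; field_simp) (n := 2 * L)
    (even_two_mul L)
  rw [← mul_sum, ← mul_sum] at hm
  have h1 : (1 / 2 : ℝ) ^ (2 * L) ≤ (1 / (A.card : ℝ) * ∑ z ∈ A, f z) ^ (2 * L) := by
    have h2 : 1 / (A.card : ℝ) * ∑ z ∈ A, f z ≤ - (1 / 2) := by
      rw [div_mul_eq_mul_div, one_mul, div_le_iff₀ hc]
      linarith
    rw [← Even.neg_pow (even_two_mul L) (1 / (A.card : ℝ) * ∑ z ∈ A, f z)]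
    exact pow_le_pow_left₀ (by norm_num) (by linarith) _
  have h3 := h1.trans hm
  calc (A.card : ℝ) * (1 / 2) ^ (2 * L)
      ≤ (A.card : ℝ) * (1 / (A.card : ℝ) * ∑ z ∈ A, (f z) ^ (2 * L)) :=
        mul_le_mul_of_nonneg_left h3 hc.le
    _ = ∑ z ∈ A, (f z) ^ (2 * L) := by field_simp

end HS

theorem hsm_proof : HSM := by
  classical
  intro G _ _ F A₂ B₂ B₂p B₃ L hL hAB hA hB hcard hcardp hmem hsum
  by_contra hcon
  push_neg at hcon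
  have hpm := HS.pow_mean A₂ (fun z => F (z + z)) L hA hsum
  obtain ⟨z₀, hz₀⟩ := hA
  obtain ⟨b₀, hb₀⟩ := hB
  have hpne : B₂p.Nonempty := ⟨_, hmem z₀ (hAB hz₀) b₀ hb₀ b₀ hb₀⟩
  -- shifted sums
  have hshift : ∀ b ∈ B₃, ∀ b' ∈ B₃, ∑ z ∈ A₂, (F (z + z)) ^ (2 * L) ≤
      ∑ u ∈ B₂p, (F ((b + b) - (b' + b') + (u + u))) ^ (2 * L) := by
    intro b hb b' hb'
    have e : ∑ z ∈ A₂, (F (z + z)) ^ (2 * L)
        = ∑ u ∈ A₂.image (fun z => z - b + b'), (F ((b + b) - (b' + b') + (u + u))) ^ (2 * L) := by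
      rw [sum_image]
      · apply sum_congr rfl
        intro z _
        congr 2
        abel
      · intro x _ y _ hxy
        simpa using hxy
    rw [e]
    apply sum_le_sum_of_subset_of_nonneg
    · intro u hu
      obtain ⟨z, hz, rfl⟩ := mem_image.mp hu
      exact hmem z (hAB hz) b hb b' hb'
    · intro u _ _
      exact Even.pow_nonneg (even_two_mul L) _
  have hbig : (B₃.card : ℝ) ^ 2 * ((A₂.card : ℝ) * (1 / 2) ^ (2 * L)) ≤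
      ∑ u ∈ B₂p, ∑ b ∈ B₃, ∑ b' ∈ B₃, (F ((b + b) - (b' + b') + (u + u))) ^ (2 * L) := by
    have e : ∑ u ∈ B₂p, ∑ b ∈ B₃, ∑ b' ∈ B₃, (F ((b + b) - (b' + b') + (u + u))) ^ (2 * L)
        = ∑ b ∈ B₃, ∑ b' ∈ B₃, ∑ u ∈ B₂p, (F ((b + b) - (b' + b') + (u + u))) ^ (2 * L) := by
      rw [sum_comm]
      apply sum_congr rfl
      intro b _
      rw [sum_comm]
    rw [e]
    have h1 : ∀ b ∈ B₃, (B₃.card : ℝ) * ((A₂.card : ℝ) * (1 / 2) ^ (2 * L)) ≤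
        ∑ b' ∈ B₃, ∑ u ∈ B₂p, (F ((b + b) - (b' + b') + (u + u))) ^ (2 * L) := by
      intro b hb
      rw [← nsmul_eq_mul]
      exact card_nsmul_le_sum _ _ _ (fun b' hb' => hpm.trans (hshift b hb b' hb'))
    have h2 := card_nsmul_le_sum B₃ _ _ h1
    rw [nsmul_eq_mul] at h2
    calc (B₃.card : ℝ) ^ 2 * ((A₂.card : ℝ) * (1 / 2) ^ (2 * L))
        = (B₃.card : ℝ) * ((B₃.card : ℝ) * ((A₂.card : ℝ) * (1 / 2) ^ (2 * L))) := by ring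
      _ ≤ _ := h2
  have hsmall : ∑ u ∈ B₂p, ∑ b ∈ B₃, ∑ b' ∈ B₃, (F ((b + b) - (b' + b') + (u + u))) ^ (2 * L)
      < ∑ _u ∈ B₂p, (1 / 4 : ℝ) ^ (2 * L) * (B₃.card : ℝ) ^ 2 :=
    sum_lt_sum_of_nonempty hpne (fun u _ => hcon (u + u))
  rw [sum_const, nsmul_eq_mul] at hsmall
  have hA0 : (0 : ℝ) < A₂.card := by exact_mod_cast (Finset.card_pos.mpr ⟨z₀, hz₀⟩)
  have hB0 : (0 : ℝ) < B₃.card := by exact_mod_cast (Finset.card_pos.mpr ⟨b₀, hb₀⟩)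
  have hp1 : (B₂p.card : ℝ) ≤ 2 * (2 ^ L * A₂.card) := by linarith
  have hq : (0 : ℝ) < (1 / 4 : ℝ) ^ (2 * L) * (B₃.card : ℝ) ^ 2 := by positivity
  have h4 : (B₃.card : ℝ) ^ 2 * ((A₂.card : ℝ) * (1 / 2) ^ (2 * L)) <
      2 * (2 ^ L * A₂.card) * ((1 / 4 : ℝ) ^ (2 * L) * (B₃.card : ℝ) ^ 2) :=
    hbig.trans_lt (hsmall.trans_le (mul_le_mul_of_nonneg_right hp1 hq.le))
  have e1 : (1 / 2 : ℝ) ^ (2 * L) = 4 ^ L * (1 / 16) ^ L := by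
    rw [pow_mul, ← mul_pow]
    norm_num
  have e2 : (1 / 4 : ℝ) ^ (2 * L) = (1 / 16) ^ L := by
    rw [pow_mul]
    norm_num
  have e3 : (4 : ℝ) ^ L = 2 ^ L * 2 ^ L := by
    rw [← mul_pow]
    norm_num
  rw [e1, e2, e3] at h4
  have h5 : (2 : ℝ) ≤ 2 ^ L := by
    calc (2 : ℝ) = 2 ^ 1 := by norm_num
      _ ≤ 2 ^ L := pow_le_pow_right₀ (by norm_num) hL
  have h6 : (0 : ℝ) < (B₃.card : ℝ) ^ 2 * (A₂.card : ℝ) * (1 / 16) ^ L * 2 ^ L := by positivity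
  nlinarith

end Vale.Agent.P057
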