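import Vale.Agent.P057.Mods

/-!
# P057: INCR
-/

open Finset

namespace Vale.Agent.P057.IN

open Vale.Agent.P057

noncomputable section

variable {G : Type} [AddCommGroup G] [Fintype G]

theorem cnt_shift {A A' B : Finset G} {x y : G} (h : ∀ a ∈ A', a + x ∈ A) :
    cnt A' B y ≤ cnt A B (y + x) := by
  classical
  unfold cnt
  apply Finset.card_le_card_of_injOn (fun a => a + x)
  · intro a ha
    have ha' := Finset.mem_filter.1 (Finset.mem_coe.1 ha)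
    apply Finset.mem_coe.2
    apply Finset.mem_filter.2
    refine ⟨h a ha'.1, ?_⟩
    have : a + x - (y + x) = a - y := by abel
    rw [this]
    exact ha'.2
  · intro a _ b _ hab
    exact add_right_cancel hab

end

end Vale.Agent.P057.IN

namespace Vale.Agent.P057

open Vale.Agent.P057.IN

theorem incr_proof (hA : PARTA) (hB : PARTB) : INCR := by
  obtain ⟨CA, hCA, hA⟩ := hA
  obtain ⟨CB, hCB, hB⟩ := hB
  refine ⟨CA * CB, Nat.mul_pos hCA hCB, ?_⟩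
  intro G _ _ Γ ρ α A L x₀ hbij htaf hρ hρ1 hreg hL hα hαL hdens
  have hD1 : (1 : ℝ) ≤ (Γ.card : ℝ) + 1 := by
    have : (0 : ℝ) ≤ Γ.card := Nat.cast_nonneg _
    linarith
  have hL1 : (1 : ℝ) ≤ (L : ℝ) := by exact_mod_cast hL
  have hL4 : (1 : ℝ) ≤ (L : ℝ) ^ 4 := one_le_pow₀ hL1
  have hCAr : (1 : ℝ) ≤ CA := by exact_mod_cast hCA
  have hCBr : (1 : ℝ) ≤ CB := by exact_mod_cast hCB
  have hD36 : ((Γ.card : ℝ) + 1) ^ 3 ≤ ((Γ.card : ℝ) + 1) ^ 6 :=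
    pow_le_pow_right₀ hD1 (by norm_num)
  have key : ∀ ρ' : ℝ, 0 < ρ' → ρ ≤ ρ' * ((CA : ℝ) * ((Γ.card : ℝ) + 1) ^ 3) →
      ρ ≤ ρ' * (((CA * CB : ℕ) : ℝ) * ((Γ.card : ℝ) + 1) ^ 6 * (L : ℝ) ^ 4) := by
    intro ρ' hρ' h
    refine h.trans (mul_le_mul_of_nonneg_left ?_ hρ'.le)
    rw [Nat.cast_mul]
    calc (CA : ℝ) * ((Γ.card : ℝ) + 1) ^ 3 = (CA : ℝ) * 1 * ((Γ.card : ℝ) + 1) ^ 3 * 1 := by ring
      _ ≤ (CA : ℝ) * CB * ((Γ.card : ℝ) + 1) ^ 6 * (L : ℝ) ^ 4 := by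
          gcongr
  rcases hA G Γ ρ α A L x₀ hbij htaf hρ hρ1 hreg hL hα hαL hdens with
    ⟨ρ', h1, h2, h3, h4⟩ | ⟨ρ', x, h1, h2, h3, h4, h5⟩ |
    ⟨Γ', ρ', c, A', x, a1, a2, a3, a4, a5, a6, a7, a8, a9, a10, a11, a12⟩
  · exact Or.inl ⟨ρ', h1, h2, key ρ' h1 h3, h4⟩
  · exact Or.inr ⟨Γ, ρ', x, h1, h2, h3, Nat.le_add_right _ _, key ρ' h1 h4, h5⟩
  · obtain ⟨Γ'', ρ'', y, b1, b2, b3, b4, b5, b6⟩ := hB G Γ' ρ' c A' L a2 a3 a4 a7 a8 hL a9 a10 a12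
    refine Or.inr ⟨Γ'', ρ'', y + x, b1, b2, b3, ?_, ?_, ?_⟩
    · rw [a1] at b4
      refine b4.trans ?_
      have : CB * L ^ 4 ≤ CA * CB * L ^ 4 := by
        apply Nat.mul_le_mul_right
        exact Nat.le_mul_of_pos_left _ hCA
      omega
    · rw [a1] at b5
      calc ρ ≤ ρ' * ((CA : ℝ) * ((Γ.card : ℝ) + 1) ^ 3) := a5
        _ ≤ (ρ'' * ((CB : ℝ) * ((Γ.card : ℝ) + 1) ^ 3 * (L : ℝ) ^ 4)) *
            ((CA : ℝ) * ((Γ.card : ℝ) + 1) ^ 3) :=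
          mul_le_mul_of_nonneg_right b5 (by positivity)
        _ = ρ'' * (((CA * CB : ℕ) : ℝ) * ((Γ.card : ℝ) + 1) ^ 6 * (L : ℝ) ^ 4) := by
          rw [Nat.cast_mul]
          ring
    · have e1 : (cnt A' (bohr Γ'' ρ'') y : ℝ) ≤ cnt A (bohr Γ'' ρ'') (y + x) := by
        exact_mod_cast cnt_shift a6
      have e2 : (0 : ℝ) ≤ cnt A' (bohr Γ'' ρ'') y := Nat.cast_nonneg _
      have e3 : (0 : ℝ) ≤ (bohr Γ'' ρ'').card := Nat.cast_nonneg _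
      have e4 : (1 - 1 / 200) * α * ((1008 / 1000) * ((bohr Γ'' ρ'').card : ℝ)) ≤
          (1 - 1 / 200) * α * (c * A'.card * cnt A' (bohr Γ'' ρ'') y) :=
        mul_le_mul_of_nonneg_left b6 (by nlinarith)
      have e5 : (1 - 1 / 200) * α * (c * A'.card * cnt A' (bohr Γ'' ρ'') y) ≤
          cnt A' (bohr Γ'' ρ'') y := by
        calc (1 - 1 / 200) * α * (c * A'.card * cnt A' (bohr Γ'' ρ'') y)
            = ((1 - 1 / 200) * α * (c * A'.card)) * cnt A' (bohr Γ'' ρ'') y := by ring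
          _ ≤ 1 * cnt A' (bohr Γ'' ρ'') y := mul_le_mul_of_nonneg_right a11 e2
          _ = _ := one_mul _
      have e6 : (0 : ℝ) ≤ α * (bohr Γ'' ρ'').card := by positivity
      nlinarith

end Vale.Agent.P057
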