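import Vale.Agent.P057.Mods

open Finset

namespace Vale.Agent.P057
namespace ItertAux

lemma numeric (C0 L : ℕ) (hC0 : 1 ≤ C0) (hL : 2 ≤ L) (K2 : ℝ)
    (hK2 : K2 = 2 * (Real.log C0 + 6 * Real.log (351 * C0)) + 34)
    (m : ℝ) (hm : m = (C0 : ℝ) * (((350 * L * (C0 * L ^ 4) : ℕ) : ℝ) + 1) ^ 6 * (L : ℝ) ^ 4) :
    1 ≤ m ∧ Real.log m ≤ K2 * Real.log L := by
  have hC : (1 : ℝ) ≤ C0 := by exact_mod_cast hC0
  have hLr : (2 : ℝ) ≤ L := by exact_mod_cast hL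
  have hlogL : Real.log 2 ≤ Real.log L := Real.log_le_log (by norm_num) hLr
  have hlog2 : (1 / 2 : ℝ) ≤ Real.log 2 := by
    have := Real.log_two_gt_d9
    linarith
  have hL4 : (1 : ℝ) ≤ (L : ℝ) ^ 4 := one_le_pow₀ (by linarith)
  have hL5 : (1 : ℝ) ≤ (L : ℝ) ^ 5 := one_le_pow₀ (by linarith)
  have hcast : (((350 * L * (C0 * L ^ 4) : ℕ) : ℝ) + 1) ≤ 351 * C0 * (L : ℝ) ^ 5 := by
    push_cast
    have h1 : (1 : ℝ) ≤ C0 * (L : ℝ) ^ 5 := by nlinarith
    nlinarith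
  have hcast1 : (1 : ℝ) ≤ (((350 * L * (C0 * L ^ 4) : ℕ) : ℝ) + 1) := by
    have : (0 : ℝ) ≤ ((350 * L * (C0 * L ^ 4) : ℕ) : ℝ) := Nat.cast_nonneg _
    linarith
  have hm1 : 1 ≤ m := by
    rw [hm]
    have h6 : (1 : ℝ) ≤ (((350 * L * (C0 * L ^ 4) : ℕ) : ℝ) + 1) ^ 6 := one_le_pow₀ hcast1
    have h7 : (1 : ℝ) ≤ (C0 : ℝ) * (((350 * L * (C0 * L ^ 4) : ℕ) : ℝ) + 1) ^ 6 := by nlinarith
    nlinarith
  refine ⟨hm1, ?_⟩
  have hle : m ≤ (C0 : ℝ) * (351 * C0 * (L : ℝ) ^ 5) ^ 6 * (L : ℝ) ^ 4 := by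
    rw [hm]
    have h6 : (((350 * L * (C0 * L ^ 4) : ℕ) : ℝ) + 1) ^ 6 ≤ (351 * C0 * (L : ℝ) ^ 5) ^ 6 :=
      pow_le_pow_left₀ (by linarith) hcast 6
    have h7 : (C0 : ℝ) * (((350 * L * (C0 * L ^ 4) : ℕ) : ℝ) + 1) ^ 6 ≤ (C0 : ℝ) * (351 * C0 * (L : ℝ) ^ 5) ^ 6 :=
      mul_le_mul_of_nonneg_left h6 (by linarith)
    exact mul_le_mul_of_nonneg_right h7 (by linarith)
  have hlog := Real.log_le_log (by linarith) hle
  have hC0p : (0 : ℝ) < C0 := by linarith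
  have hLp : (0 : ℝ) < L := by linarith
  have e : Real.log ((C0 : ℝ) * (351 * C0 * (L : ℝ) ^ 5) ^ 6 * (L : ℝ) ^ 4)
      = Real.log C0 + 6 * Real.log (351 * C0) + 34 * Real.log L := by
    rw [Real.log_mul (by positivity) (by positivity), Real.log_mul (by positivity) (by positivity),
      Real.log_pow, Real.log_pow, Real.log_mul (by positivity) (by positivity), Real.log_pow]
    push_cast
    ring
  rw [e] at hlog
  have h351 : 0 ≤ Real.log (351 * C0) := Real.log_nonneg (by nlinarith)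
  have hC00 : 0 ≤ Real.log C0 := Real.log_nonneg hC
  have h8 : Real.log C0 + 6 * Real.log (351 * C0)
      ≤ 2 * (Real.log C0 + 6 * Real.log (351 * C0)) * Real.log L := by nlinarith
  rw [hK2]
  nlinarith

lemma pow_big (L : ℕ) : (2 : ℝ) ^ L ≤ (1 + 1 / 500 : ℝ) ^ (350 * L) := by
  rw [pow_mul]
  apply pow_le_pow_left₀ (by norm_num)
  have h : (1.4143 : ℝ) ≤ (1 + 1 / 500 : ℝ) ^ 175 := by norm_num
  have h2 : (1 + 1 / 500 : ℝ) ^ 350 = ((1 + 1 / 500 : ℝ) ^ 175) ^ 2 := by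
    rw [← pow_mul]
  rw [h2]
  nlinarith

lemma h23' (L : ℝ) (hLr : 2 ≤ L) (hlog : 1 / 2 ≤ Real.log L) :
    (L + 1) * 2 ≤ 8 * (L ^ 6 * Real.log L) := by
  have h24 : L ≤ L ^ 6 := by
    have := pow_le_pow_right₀ (by linarith : (1 : ℝ) ≤ L) (by norm_num : 1 ≤ 6)
    simpa using this
  have h25 : L ^ 6 * (1 / 2) ≤ L ^ 6 * Real.log L :=
    mul_le_mul_of_nonneg_left (by linarith) (by positivity)
  linarith

lemma h19' (L K2 lm : ℝ) (hLr : 2 ≤ L) (hlog : 1 / 2 ≤ Real.log L)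
    (hlogm : lm ≤ K2 * Real.log L) :
    6 + 700 * L * lm ≤ (8 + 700 * K2) * (L * Real.log L) := by
  have h20 : 700 * L * lm ≤ 700 * L * (K2 * Real.log L) :=
    mul_le_mul_of_nonneg_left hlogm (by positivity)
  have h21 : (1 : ℝ) ≤ L * Real.log L := by nlinarith
  have e : (8 + 700 * K2) * (L * Real.log L) = 8 * (L * Real.log L) + 700 * L * (K2 * Real.log L) := by ring
  rw [e]
  linarith

lemma small_case (C0 L c : ℕ) (K2 m r g : ℝ) (hL : 2 ≤ L) (hK20 : 0 ≤ K2) (hm1 : 1 ≤ m)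
    (hlogm : Real.log m ≤ K2 * Real.log L) (hr : 0 < r) (hrm : 1 ≤ r * m ^ (350 * L)) (hg : 0 < g)
    (h10 : (r ^ 2 / 36) ^ c * g ≤ 4 ^ (L + 1)) (hc : c ≤ 350 * L * (C0 * L ^ 4)) :
    Real.log g ≤ (8 + 350 * C0 * (8 + 700 * K2)) * (L : ℝ) ^ 6 * Real.log L := by
  have hLr : (2 : ℝ) ≤ L := by exact_mod_cast hL
  have hlogL : Real.log 2 ≤ Real.log L := Real.log_le_log (by norm_num) hLr
  have hlog2 : (1 / 2 : ℝ) ≤ Real.log 2 := by
    have := Real.log_two_gt_d9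
    linarith
  have hlog2' : Real.log 2 ≤ 1 := by
    have := Real.log_two_lt_d9
    linarith
  have h11 : Real.log ((r ^ 2 / 36) ^ c * g) ≤ Real.log (4 ^ (L + 1)) :=
    Real.log_le_log (by positivity) h10
  rw [Real.log_mul (by positivity) (by positivity), Real.log_pow, Real.log_pow,
    Real.log_div (by positivity) (by norm_num), Real.log_pow] at h11
  have h12 : 0 ≤ Real.log r + (350 * L : ℕ) * Real.log m := by
    have := Real.log_le_log one_pos hrm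
    rw [Real.log_one, Real.log_mul (by positivity) (by positivity), Real.log_pow] at this
    exact this
  have hlog4 : Real.log 4 ≤ 2 := by
    have e4 : (4 : ℝ) = 2 ^ 2 := by norm_num
    rw [e4, Real.log_pow]
    push_cast
    linarith
  have hlog36 : Real.log 36 ≤ 6 := by
    have h64 : Real.log 36 ≤ Real.log (2 ^ 6) := Real.log_le_log (by norm_num) (by norm_num)
    rw [Real.log_pow] at h64
    push_cast at h64
    linarith
  have hlogm0 : 0 ≤ Real.log m := Real.log_nonneg hm1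
  push_cast at h11 h12
  have h13 : Real.log g ≤ ((L : ℝ) + 1) * 2 + c * (6 + 700 * L * Real.log m) := by
    have h15 : -(6 + 700 * (L : ℝ) * Real.log m) ≤ 2 * Real.log r - Real.log 36 := by linarith
    have h16 := mul_le_mul_of_nonneg_left h15 (Nat.cast_nonneg c : (0 : ℝ) ≤ _)
    have h17 : ((L : ℝ) + 1) * Real.log 4 ≤ ((L : ℝ) + 1) * 2 :=
      mul_le_mul_of_nonneg_left hlog4 (by linarith)
    linarith
  have h18 : (c : ℝ) ≤ 350 * C0 * (L : ℝ) ^ 5 := by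
    have : (c : ℝ) ≤ ((350 * L * (C0 * L ^ 4) : ℕ) : ℝ) := by exact_mod_cast hc
    refine this.trans (le_of_eq ?_)
    push_cast
    ring
  have h19 := h19' L K2 (Real.log m) hLr (by linarith) hlogm
  have h22 : (c : ℝ) * (6 + 700 * L * Real.log m)
      ≤ 350 * C0 * (L : ℝ) ^ 5 * ((8 + 700 * K2) * (L * Real.log L)) := by
    apply mul_le_mul h18 h19 (by positivity) (by positivity)
  have h23 := h23' L hLr (by linarith)
  calc Real.log g ≤ ((L : ℝ) + 1) * 2 + c * (6 + 700 * L * Real.log m) := h13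
    _ ≤ 8 * ((L : ℝ) ^ 6 * Real.log L)
        + 350 * C0 * (L : ℝ) ^ 5 * ((8 + 700 * K2) * (L * Real.log L)) := add_le_add h23 h22
    _ = _ := by ring

lemma size_bound (α0 α b : ℝ) (L : ℕ) (h0 : 0 < α0) (h1 : 2 ≤ α0 * 2 ^ L) (hle : α0 ≤ α)
    (hb : 0 ≤ b) (hs : α ^ 2 * b ≤ 16) : b ≤ 4 ^ (L + 1) := by
  have hα2 : α0 ^ 2 * b ≤ 16 := by
    refine le_trans ?_ hs
    have := pow_le_pow_left₀ h0.le hle 2
    exact mul_le_mul_of_nonneg_right this hb
  have h4L : (4 : ℝ) ≤ α0 ^ 2 * 4 ^ L := by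
    have h7 : (4 : ℝ) ^ L = (2 ^ L) ^ 2 := by
      rw [← pow_mul, mul_comm, pow_mul]; norm_num
    have h8 : α0 ^ 2 * 4 ^ L = (α0 * 2 ^ L) ^ 2 := by rw [h7]; ring
    rw [h8]
    nlinarith
  have h9 : α0 ^ 2 * b ≤ α0 ^ 2 * 4 ^ (L + 1) := by
    refine hα2.trans ?_
    have e5 : α0 ^ 2 * (4 : ℝ) ^ (L + 1) = 4 * (α0 ^ 2 * 4 ^ L) := by ring
    rw [e5]
    linarith
  exact le_of_mul_le_mul_left h9 (by positivity)

end ItertAux

theorem itert_proof (h1 : INCR) (h2 : BSIZE) : ITERT := by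
  obtain ⟨C0, hC0, hI⟩ := h1
  have hC : (1 : ℝ) ≤ C0 := by exact_mod_cast hC0
  set K2 : ℝ := 2 * (Real.log C0 + 6 * Real.log (351 * C0)) + 34 with hK2
  have h351 : 0 ≤ Real.log (351 * C0) := Real.log_nonneg (by nlinarith)
  have hC00 : 0 ≤ Real.log C0 := Real.log_nonneg hC
  have hK20 : 0 ≤ K2 := by rw [hK2]; linarith
  refine ⟨⌈8 + 350 * C0 * (8 + 700 * K2)⌉₊, ?_, ?_⟩
  · rw [Nat.one_le_iff_ne_zero]
    intro h0
    rw [Nat.ceil_eq_zero] at h0
    have : 0 ≤ 350 * (C0 : ℝ) * (8 + 700 * K2) := by positivity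
    linarith
  intro G _ _ A L hbij hT hL hdens
  classical
  by_contra hnot
  push_neg at hnot
  set m : ℝ := (C0 : ℝ) * (((350 * L * (C0 * L ^ 4) : ℕ) : ℝ) + 1) ^ 6 * (L : ℝ) ^ 4 with hm
  obtain ⟨hm1, hlogm⟩ := ItertAux.numeric C0 L hC0 hL K2 hK2 m hm
  have hLr : (2 : ℝ) ≤ L := by exact_mod_cast hL
  have hlogL : Real.log 2 ≤ Real.log L := Real.log_le_log (by norm_num) hLr
  have hlog2 : (1 / 2 : ℝ) ≤ Real.log 2 := by
    have := Real.log_two_gt_d9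
    linarith
  have hlog2' : Real.log 2 ≤ 1 := by
    have := Real.log_two_lt_d9
    linarith
  have hGpos : (0 : ℝ) < Fintype.card G := by exact_mod_cast Fintype.card_pos_iff.mpr ⟨0⟩
  set α0 : ℝ := (A.card : ℝ) / Fintype.card G with hα0
  have hα0' : 2 ≤ α0 * 2 ^ L := by
    rw [hα0, div_mul_eq_mul_div, le_div_iff₀ hGpos]
    linarith
  have hα0pos : 0 < α0 := by
    by_contra hneg
    push_neg at hneg
    have : α0 * 2 ^ L ≤ 0 := mul_nonpos_of_nonpos_of_nonneg hneg (by positivity)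
    linarith
  -- the iteration
  have hstate : ∀ k : ℕ, k ≤ 350 * L → ∃ (Γ : Finset (AddChar G ℂ)) (ρ : ℝ) (x : G),
      0 < ρ ∧ ρ ≤ 1 ∧ Reg Γ ρ ∧ Γ.card ≤ k * (C0 * L ^ 4) ∧ 1 ≤ ρ * m ^ k ∧
      (1 + 1 / 500) ^ k * α0 * (bohr Γ ρ).card ≤ cnt A (bohr Γ ρ) x := by
    intro k
    induction k with
    | zero =>
      intro _
      have hb : ∀ r : ℝ, bohr (∅ : Finset (AddChar G ℂ)) r = Finset.univ := by
        intro r
        unfold bohr
        simp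
      refine ⟨∅, 1, 0, one_pos, le_rfl, ?_, by simp, by simp, ?_⟩
      · unfold Reg
        rw [hb, hb]
        have : (0 : ℝ) ≤ eps0 := by unfold eps0; positivity
        nlinarith [(Nat.cast_nonneg (Finset.univ : Finset G).card : (0 : ℝ) ≤ _)]
      · rw [hb]
        unfold cnt
        simp only [Finset.mem_univ, Finset.filter_true, pow_zero, one_mul, Finset.card_univ]
        rw [hα0, div_mul_cancel₀ _ hGpos.ne']
    | succ k ih =>
      intro hk
      obtain ⟨Γ, ρ, x, hρ, hρ1, hReg, hΓ, hρm, hcnt⟩ := ih (by omega)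
      have hpk : (1 : ℝ) ≤ (1 + 1 / 500) ^ k := one_le_pow₀ (by norm_num)
      have hαk : α0 ≤ (1 + 1 / 500) ^ k * α0 := by nlinarith
      have hαk2 : 2 ≤ (1 + 1 / 500) ^ k * α0 * 2 ^ L := by
        refine hα0'.trans ?_
        exact mul_le_mul_of_nonneg_right hαk (by positivity)
      have hΓ' : Γ.card ≤ 350 * L * (C0 * L ^ 4) := by
        refine hΓ.trans ?_
        exact Nat.mul_le_mul_right _ (by omega)
      have hfac : (C0 : ℝ) * ((Γ.card : ℝ) + 1) ^ 6 * (L : ℝ) ^ 4 ≤ m := by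
        rw [hm]
        have h3 : (Γ.card : ℝ) ≤ ((350 * L * (C0 * L ^ 4) : ℕ) : ℝ) := by exact_mod_cast hΓ'
        have h4 : ((Γ.card : ℝ) + 1) ^ 6 ≤ (((350 * L * (C0 * L ^ 4) : ℕ) : ℝ) + 1) ^ 6 :=
          pow_le_pow_left₀ (by positivity) (by linarith) 6
        have h5 := mul_le_mul_of_nonneg_left h4 (by linarith : (0 : ℝ) ≤ C0)
        exact mul_le_mul_of_nonneg_right h5 (by positivity)
      rcases hI G Γ ρ ((1 + 1 / 500) ^ k * α0) A L x hbij hT hρ hρ1 hReg (by omega) (by positivity) hαk2 hcnt with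
        ⟨ρ', hρ', hρ'1, hρρ', hsmall⟩ | ⟨Γ', ρ', y, hρ', hρ'1, hReg', hΓ'', hρρ', hinc⟩
      · -- small Bohr set
        exfalso
        have hρ'm : 1 ≤ ρ' * m ^ (350 * L) := by
          have h5 : ρ ≤ ρ' * m := hρρ'.trans (mul_le_mul_of_nonneg_left hfac hρ'.le)
          have h6 : 1 ≤ ρ' * m ^ (k + 1) := by
            calc 1 ≤ ρ * m ^ k := hρm
              _ ≤ ρ' * m * m ^ k := mul_le_mul_of_nonneg_right h5 (by positivity)
              _ = ρ' * m ^ (k + 1) := by ring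
          refine h6.trans ?_
          exact mul_le_mul_of_nonneg_left (pow_le_pow_right₀ hm1 hk) hρ'.le
        have hbs := h2 G Γ ρ' hρ' hρ'1
        -- bound the size
        have hcard : ((bohr Γ ρ').card : ℝ) ≤ 4 ^ (L + 1) :=
          ItertAux.size_bound α0 _ _ L hα0pos hα0' hαk (Nat.cast_nonneg _) hsmall
        have h10 : (ρ' ^ 2 / 36) ^ Γ.card * (Fintype.card G : ℝ) ≤ 4 ^ (L + 1) := hbs.trans hcard
        have hLL : (0 : ℝ) ≤ Real.log L := by linarith only [hlogL, hlog2]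
        have h26 := ItertAux.small_case C0 L Γ.card K2 m ρ' (Fintype.card G) hL hK20 hm1 hlogm hρ' hρ'm
          hGpos h10 hΓ'
        have h27 : (8 + 350 * C0 * (8 + 700 * K2)) * (L : ℝ) ^ 6 * Real.log L
            ≤ (⌈8 + 350 * C0 * (8 + 700 * K2)⌉₊ : ℝ) * (L : ℝ) ^ 6 * Real.log L := by
          have := Nat.le_ceil (8 + 350 * (C0 : ℝ) * (8 + 700 * K2))
          exact mul_le_mul_of_nonneg_right (mul_le_mul_of_nonneg_right this (by positivity)) hLL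
        exact absurd (h26.trans h27) (not_le.mpr hnot)
      · -- density increment
        refine ⟨Γ', ρ', y, hρ', hρ'1, hReg', ?_, ?_, ?_⟩
        · calc Γ'.card ≤ Γ.card + C0 * L ^ 4 := hΓ''
            _ ≤ k * (C0 * L ^ 4) + C0 * L ^ 4 := Nat.add_le_add_right hΓ _
            _ = (k + 1) * (C0 * L ^ 4) := by ring
        · have h5 : ρ ≤ ρ' * m := hρρ'.trans (mul_le_mul_of_nonneg_left hfac hρ'.le)
          calc 1 ≤ ρ * m ^ k := hρm
            _ ≤ ρ' * m * m ^ k := mul_le_mul_of_nonneg_right h5 (by positivity)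
            _ = ρ' * m ^ (k + 1) := by ring
        · refine le_trans (le_of_eq ?_) hinc
          ring
  obtain ⟨Γ, ρ, x, hρ, hρ1, _, _, _, hcnt⟩ := hstate (350 * L) le_rfl
  have hbs := h2 G Γ ρ hρ hρ1
  have hbpos : (0 : ℝ) < (bohr Γ ρ).card := lt_of_lt_of_le (by positivity) hbs
  have hle : (cnt A (bohr Γ ρ) x : ℝ) ≤ (bohr Γ ρ).card := by
    have : cnt A (bohr Γ ρ) x ≤ (bohr Γ ρ).card := by
      unfold cnt
      refine Finset.card_le_card_of_injOn (fun a => a - x) ?_ (fun a _ b _ hab => sub_left_injective hab)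
      intro a ha
      rw [Finset.mem_coe, Finset.mem_filter] at ha
      exact ha.2
    exact_mod_cast this
  have hone : (1 + 1 / 500 : ℝ) ^ (350 * L) * α0 ≤ 1 := by
    have h3 : (1 + 1 / 500 : ℝ) ^ (350 * L) * α0 * (bohr Γ ρ).card ≤ 1 * (bohr Γ ρ).card := by
      rw [one_mul]
      exact hcnt.trans hle
    exact le_of_mul_le_mul_right h3 hbpos
  have hbig := ItertAux.pow_big L
  have h4 : α0 * 2 ^ L ≤ (1 + 1 / 500 : ℝ) ^ (350 * L) * α0 := by
    rw [mul_comm]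
    exact mul_le_mul_of_nonneg_right hbig hα0pos.le
  linarith

end Vale.Agent.P057
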