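import Vale.Agent.P057.Defs

/-!
# P057: module statements.  Prove `theorem x_proof : X` in its own file (see notes/P057_plan.md).
-/

open Finset

namespace Vale.Agent.P057

noncomputable section

/-! ## Bohr sets -/

/-- size of Bohr sets (pigeonhole, cells of side `ρ/2` in the complex plane) -/
def BSIZE : Prop :=
  ∀ (G : Type) [AddCommGroup G] [Fintype G] (Γ : Finset (AddChar G ℂ)) (ρ : ℝ), 0 < ρ → ρ ≤ 1 →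
    (ρ ^ 2 / 36) ^ Γ.card * (Fintype.card G : ℝ) ≤ (bohr Γ ρ).card

/-- doubling (cells of side `ρ/4`) -/
def BDOUB : Prop :=
  ∀ (G : Type) [AddCommGroup G] [Fintype G] (Γ : Finset (AddChar G ℂ)) (ρ : ℝ), 0 < ρ →
    (bohr Γ ρ).card ≤ 81 ^ Γ.card * (bohr Γ (ρ / 2)).card

/-- existence of regular widths -/
def REGEX : Prop :=
  ∀ (G : Type) [AddCommGroup G] [Fintype G] (Γ : Finset (AddChar G ℂ)) (ρ₀ : ℝ), 0 < ρ₀ →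
    ∃ ρ : ℝ, ρ₀ / 2 ≤ ρ ∧ ρ ≤ ρ₀ ∧ Reg Γ ρ

/-- elementary properties of Bohr sets -/
def BELEM : Prop :=
  ∀ (G : Type) [AddCommGroup G] [Fintype G] (Γ : Finset (AddChar G ℂ)),
    (∀ ρ : ℝ, 0 ≤ ρ → (0 : G) ∈ bohr Γ ρ) ∧
    (∀ (ρ : ℝ) (x : G), x ∈ bohr Γ ρ → -x ∈ bohr Γ ρ) ∧
    (∀ (ρ ρ' : ℝ) (x : G), ρ ≤ ρ' → x ∈ bohr Γ ρ → x ∈ bohr Γ ρ') ∧
    (∀ (ρ ρ' : ℝ) (x y : G), x ∈ bohr Γ ρ → y ∈ bohr Γ ρ' → x + y ∈ bohr Γ (ρ + ρ')) ∧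
    (∀ (ρ ρ' : ℝ) (x y : G), x ∈ bohr Γ ρ → y ∈ bohr Γ ρ' → x - y ∈ bohr Γ (ρ + ρ')) ∧
    (∀ (ρ : ℝ) (n : ℕ) (y : Fin n → G), (∀ i, y i ∈ bohr Γ ρ) → ∑ i, y i ∈ bohr Γ (n * ρ))

/-- halved frequencies: `bohr Γ' ρ` is the set of doubles of elements of `bohr Γ ρ` -/
def BHALF : Prop :=
  ∀ (G : Type) [AddCommGroup G] [Fintype G], Function.Bijective (fun x : G => x + x) →
    ∀ Γ : Finset (AddChar G ℂ), ∃ Γ' : Finset (AddChar G ℂ), Γ'.card = Γ.card ∧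
      ∀ (ρ : ℝ) (x : G), x ∈ bohr Γ ρ ↔ x + x ∈ bohr Γ' ρ

/-- mass of a set near the boundary of a regular Bohr set -/
def BDRY : Prop :=
  ∀ (G : Type) [AddCommGroup G] [Fintype G] (Γ : Finset (AddChar G ℂ)) (ρ ρ' s : ℝ) (A : Finset G),
    0 < ρ → Reg Γ ρ → 0 < ρ' → ρ' ≤ kap Γ.card * ρ → 0 ≤ s →
    (∀ x, (cnt A (bohr Γ ρ') x : ℝ) ≤ s * (bohr Γ ρ').card) →
    ∀ x, (cnt A (bohr Γ ρ) x : ℝ) ≤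
      cnt A (bohr Γ ((1 - kap Γ.card) * ρ)) x + s * eps0 * (bohr Γ ρ).card

/-- a translate on which both densities are almost as large as before -/
def AVER : Prop :=
  ∀ (G : Type) [AddCommGroup G] [Fintype G] (Γ : Finset (AddChar G ℂ)) (ρ ρ₁ ρ₂ α : ℝ) (A : Finset G) (x₀ : G),
    0 < ρ → Reg Γ ρ → 0 < ρ₁ → ρ₁ ≤ kap Γ.card * ρ → 0 < ρ₂ → ρ₂ ≤ kap Γ.card * ρ → 0 < α →
    α * (bohr Γ ρ).card ≤ cnt A (bohr Γ ρ) x₀ →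
    (∀ x, (cnt A (bohr Γ ρ₁) x : ℝ) ≤ (1 + 1 / 500) * α * (bohr Γ ρ₁).card) →
    (∀ x, (cnt A (bohr Γ ρ₂) x : ℝ) ≤ (1 + 1 / 500) * α * (bohr Γ ρ₂).card) →
    ∃ x, (1 - 1 / 200) * α * (bohr Γ ρ₁).card ≤ cnt A (bohr Γ ρ₁) x ∧
      (1 - 1 / 200) * α * (bohr Γ ρ₂).card ≤ cnt A (bohr Γ ρ₂) x

/-! ## From progressions to a large moment -/

/-- few progressions: the balanced convolution is negative on average over doubles of `A ∩ B₂`;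
comparison of the balanced autocorrelation with `rep` -/
def APC : Prop :=
  ∀ (G : Type) [AddCommGroup G] [Fintype G] (Γ : Finset (AddChar G ℂ)) (ρ₁ ρ₂ α : ℝ) (A A₁ A₂ : Finset G),
    (∀ x y : G, x + x = y + y → x = y) → TAF A →
    0 < ρ₁ → Reg Γ ρ₁ → 0 < ρ₂ → 2 * ρ₂ ≤ kap Γ.card * ρ₁ → 0 < α → α ≤ 1 →
    A₁ ⊆ A → A₁ ⊆ bohr Γ ρ₁ → (∀ x ∈ A, x ∈ bohr Γ ρ₁ → x ∈ A₁) →
    A₂ ⊆ A → A₂ ⊆ bohr Γ ρ₂ →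
    (1 - 1 / 200) * α * (bohr Γ ρ₁).card ≤ A₁.card → A₂.Nonempty →
    (∀ x, (cnt A (bohr Γ ρ₂) x : ℝ) ≤ (1 + 1 / 500) * α * (bohr Γ ρ₂).card) →
    16 ≤ α ^ 2 * (bohr Γ ρ₁).card →
    (∑ z ∈ A₂, ((bohr Γ ρ₁).card : ℝ) * conv (fun x => mu A₁ x - mu (bohr Γ ρ₁) x) (z + z)
        ≤ - (A₂.card : ℝ) / 2) ∧
    (∀ x ∈ bohr Γ (kap Γ.card * ρ₁),
      |((bohr Γ ρ₁).card : ℝ) * corr (fun x => mu A₁ x - mu (bohr Γ ρ₁) x) x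
        - (((bohr Γ ρ₁).card : ℝ) / (A₁.card : ℝ) ^ 2 * rep A₁ x - 1)| ≤ 1 / 256)

/-- Hoelder and smoothing -/
def HSM : Prop :=
  ∀ (G : Type) [AddCommGroup G] [Fintype G] (F : G → ℝ) (A₂ B₂ B₂p B₃ : Finset G) (L : ℕ),
    1 ≤ L → A₂ ⊆ B₂ → A₂.Nonempty → B₃.Nonempty →
    (B₂.card : ℝ) ≤ 2 ^ L * A₂.card → (B₂p.card : ℝ) ≤ 2 * B₂.card →
    (∀ z ∈ B₂, ∀ b ∈ B₃, ∀ b' ∈ B₃, z - b + b' ∈ B₂p) →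
    ∑ z ∈ A₂, F (z + z) ≤ - (A₂.card : ℝ) / 2 →
    ∃ v : G, (1 / 4 : ℝ) ^ (2 * L) * (B₃.card : ℝ) ^ 2 ≤
      ∑ b ∈ B₃, ∑ b' ∈ B₃, (F ((b + b) - (b' + b') + v)) ^ (2 * L)

/-- Cauchy-Schwarz: passing from convolution to autocorrelation; positivity of moments -/
def CSM : Prop :=
  ∀ (G : Type) [AddCommGroup G] [Fintype G] (f : G → ℝ) (D : Finset G) (v : G) (p : ℕ),
    (∀ x ∈ D, -x ∈ D) →
    (∑ b ∈ D, ∑ b' ∈ D, (conv f (b - b' + v)) ^ p ≤ ∑ b ∈ D, ∑ b' ∈ D, (corr f (b - b')) ^ p) ∧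
    0 ≤ ∑ b ∈ D, ∑ b' ∈ D, (corr f (b - b')) ^ p

/-- unbalancing -/
def UNB : Prop :=
  ∀ (Ω : Type) [Fintype Ω] (σ F g : Ω → ℝ) (p : ℕ),
    (∀ ω, 0 ≤ σ ω) → ∑ ω, σ ω = 1 → (∀ ω, 0 ≤ g ω) → (∀ ω, |F ω - (g ω - 1)| ≤ 1 / 256) →
    Odd p → 3 ≤ p → 0 ≤ ∑ ω, σ ω * (F ω) ^ p → (1 / 8 : ℝ) ^ p ≤ ∑ ω, σ ω * |F ω| ^ p →
    (65 / 64 : ℝ) ^ (400 * p) ≤ ∑ ω, σ ω * (g ω) ^ (400 * p)

/-- choice of the sifting exponent -/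
def QSEL : Prop :=
  ∀ (m : ℕ → ℝ) (q₀ K : ℕ) (M : ℝ), m 0 = 1 → (∀ q, 0 < m q) →
    (∀ q, (m (q + 1)) ^ 2 ≤ m q * m (q + 2)) → (∀ q, m (q + 1) ≤ M * m q) → M ≤ 2 ^ K → 1 ≤ q₀ →
    (65 / 64 : ℝ) ^ q₀ ≤ m q₀ →
    ∃ q, q₀ ≤ q ∧ q ≤ q₀ + K ∧ 1 ≤ m q ∧ 65 / 64 * m q ≤ m (q + 1) ∧
      m (q + 2) * m q ≤ 2 * (m (q + 1)) ^ 2

/-! ## Sifting and almost periodicity -/

/-- sifting; `g x = c * rep A x`, `W = E_q g` -/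
def SIFT : Prop :=
  ∀ (G : Type) [AddCommGroup G] [Fintype G] (A D : Finset G) (c W : ℝ) (q : ℕ),
    A.Nonempty → D.Nonempty → 0 < c → 1 ≤ W → 1 ≤ c * A.card →
    1 ≤ avd D (fun x => (c * rep A x) ^ q) →
    avd D (fun x => (c * rep A x) ^ (q + 1)) = W * avd D (fun x => (c * rep A x) ^ q) →
    avd D (fun x => (c * rep A x) ^ (q + 2)) ≤ 2 * W ^ 2 * avd D (fun x => (c * rep A x) ^ q) →
    ∃ a : Finset G, a ⊆ D ∧ a.Nonempty ∧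
      1 / 4000 * (1 / (c * A.card)) ^ (q + 1) * D.card ≤ a.card ∧
      (1 - 1 / 1000) * W ≤ avd a (fun x => c * rep A x) ∧
      avd a (fun x => if c * rep A x ≤ 4000000 * W then 0 else c * rep A x)
        ≤ 1 / 1000 * avd a (fun x => c * rep A x)

/-- Chernoff bound for `k`-tuples -/
def CHER : Prop :=
  ∀ (G : Type) [Fintype G] (a : Finset G) (φ : G → ℝ) (H ε : ℝ) (k : ℕ),
    a.Nonempty → 0 < H → 0 < ε → 1 ≤ k → (∀ x, 0 ≤ φ x ∧ φ x ≤ H) →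
    (((Fintype.piFinset (fun _ : Fin k => a)).filter (fun b : Fin k → G =>
        ε * H < |(∑ i, φ (b i)) / k - (∑ x ∈ a, φ x) / a.card|)).card : ℝ)
      ≤ 2 * Real.exp (- ε ^ 2 * k / 2) * (a.card : ℝ) ^ k

/-- Croot-Sisask almost periodicity with constant accuracy -/
def CROOT : Prop :=
  ∀ (G : Type) [AddCommGroup G] [Fintype G] (a D D₄ Y : Finset G) (h : G → ℝ) (H ε θ : ℝ) (k : ℕ),
    a.Nonempty → a ⊆ D → D₄.Nonempty → 0 < H → 0 < ε → 0 < θ → θ ≤ 1 → 1 ≤ k →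
    (∀ x, 0 ≤ h x ∧ h x ≤ H) → θ * D.card ≤ a.card → (Y.card : ℝ) ≤ 2 * D.card →
    (∀ x ∈ D, ∀ t ∈ D₄, x + t ∈ Y) → (∀ x ∈ D, ∀ t ∈ D₄, ∀ t' ∈ D₄, x + t - t' ∈ Y) →
    D ⊆ Y → 16 * Real.exp (- ε ^ 2 * k / 2) ≤ ε * θ →
    ∃ T : Finset G, T ⊆ D₄ ∧ T.Nonempty ∧ 1 / 2 * (θ / 2) ^ k * D₄.card ≤ T.card ∧
      ∀ t ∈ T, ∀ t' ∈ T, avd a h - 3 * ε * H ≤ avd a (fun x => h (x + (t - t')))

/-! ## Fourier side -/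

/-- Fourier representation with nonnegative weights -/
def FREP : Prop :=
  ∀ (G : Type) [AddCommGroup G] [Fintype G] (a A : Finset G) (c : ℝ), a.Nonempty → 0 < c →
    ∃ w : AddChar G ℂ → ℝ, (∀ ψ, 0 ≤ w ψ) ∧
      ∀ t : G, avd a (fun x => c * rep A (x + t)) = ∑ ψ, w ψ * (ψ t).re

/-- averages of a Fourier representation over differences of a set -/
def FAVG : Prop :=
  ∀ (G : Type) [AddCommGroup G] [Fintype G] (w : AddChar G ℂ → ℝ) (T : Finset G), T.Nonempty →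
    (∑ t ∈ T, ∑ t' ∈ T, ∑ ψ, w ψ * (ψ (t - t')).re) / (T.card : ℝ) ^ 2
      = ∑ ψ, w ψ * (‖∑ x ∈ T, ψ x‖ / T.card) ^ 2

/-- relative Chang theorem: size of dissociated sets of characters with large coefficients -/
def CHANG : Prop :=
  ∀ (G : Type) [AddCommGroup G] [Fintype G] (T D₄ D₄p B' : Finset G) (Λ : Finset (AddChar G ℂ)) (ℓ : ℝ) (n : ℕ),
    Λ.card = n → T.Nonempty → T ⊆ D₄ → B'.Nonempty → 0 ≤ ℓ →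
    (D₄.card : ℝ) ≤ Real.exp ℓ * T.card → (D₄p.card : ℝ) ≤ 2 * D₄.card →
    (∀ x ∈ D₄, ∀ y : Fin n → G, (∀ i, y i ∈ B') → x - ∑ i, y i ∈ D₄p) →
    (∀ χ ∈ Λ, Lg T χ) →
    (∀ m : AddChar G ℂ → ℤ, (∀ χ, |m χ| ≤ 1) → (∃ χ ∈ Λ, m χ ≠ 0) → ¬ Lg B' (pch Λ m)) →
    (n : ℝ) ≤ 8 * ℓ + 12

/-- spanning: every character with a large coefficient on `T` is a product of few characters with large
coefficients and a character with a large coefficient on `B'` -/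
def SPAN : Prop :=
  ∀ (G : Type) [AddCommGroup G] [Fintype G] (T D₄ D₄p B' : Finset G) (ℓ : ℝ) (n : ℕ),
    T.Nonempty → T ⊆ D₄ → B'.Nonempty → (∀ x ∈ B', -x ∈ B') → 0 ≤ ℓ →
    (D₄.card : ℝ) ≤ Real.exp ℓ * T.card → (D₄p.card : ℝ) ≤ 2 * D₄.card →
    (∀ j ≤ n, ∀ x ∈ D₄, ∀ y : Fin j → G, (∀ i, y i ∈ B') → x - ∑ i, y i ∈ D₄p) →
    8 * ℓ + 12 < n →
    ∃ Λ : Finset (AddChar G ℂ), Λ.card ≤ n ∧ (∀ χ ∈ Λ, Lg T χ) ∧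
      ∀ ψ : AddChar G ℂ, Lg T ψ → ∃ m : AddChar G ℂ → ℤ, (∀ χ, |m χ| ≤ 1) ∧ Lg B' (ψ * pch Λ m)

/-- characters with a large coefficient on a regular Bohr set are almost trivial on a narrower one -/
def GTRIV : Prop :=
  ∀ (G : Type) [AddCommGroup G] [Fintype G] (Γ : Finset (AddChar G ℂ)) (ρ : ℝ) (ψ : AddChar G ℂ),
    0 < ρ → Reg Γ ρ → Lg (bohr Γ ρ) ψ → ∀ x ∈ bohr Γ (kap Γ.card * ρ), ‖ψ x - 1‖ ≤ 2 * eps0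

/-- density increment from a large average -/
def FINI : Prop :=
  ∀ (G : Type) [AddCommGroup G] [Fintype G] (a A D : Finset G) (c V : ℝ),
    a.Nonempty → A.Nonempty → D.Nonempty → 0 < c →
    V ≤ (∑ t ∈ D, ∑ t' ∈ D, avd a (fun x => c * rep A (x + (t - t')))) / (D.card : ℝ) ^ 2 →
    ∃ y : G, V * D.card ≤ c * A.card * cnt A D y

/-! ## Assembly -/

/-- second half: from a large moment to a density increment -/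
def PARTB : Prop :=
  ∃ C : ℕ, 1 ≤ C ∧ ∀ (G : Type) [AddCommGroup G] [Fintype G] (Γ : Finset (AddChar G ℂ)) (ρ c : ℝ) (A : Finset G) (L : ℕ),
    0 < ρ → ρ ≤ 1 → Reg Γ ρ → A.Nonempty → 0 < c → 1 ≤ L → 1 ≤ c * A.card → c * A.card ≤ 2 ^ L →
    (65 / 64 : ℝ) ^ (400 * (2 * L + 1)) ≤ avd (bohr Γ ρ) (fun x => (c * rep A x) ^ (400 * (2 * L + 1))) →
    ∃ (Γ' : Finset (AddChar G ℂ)) (ρ' : ℝ) (y : G), 0 < ρ' ∧ ρ' ≤ 1 ∧ Reg Γ' ρ' ∧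
      Γ'.card ≤ Γ.card + C * L ^ 4 ∧ ρ ≤ ρ' * ((C : ℝ) * ((Γ.card : ℝ) + 1) ^ 3 * (L : ℝ) ^ 4) ∧
      (1008 / 1000) * ((bohr Γ' ρ').card : ℝ) ≤ c * A.card * cnt A (bohr Γ' ρ') y

/-- first half: from a progression-free set to a large moment (or an increment, or a small Bohr set) -/
def PARTA : Prop :=
  ∃ C : ℕ, 1 ≤ C ∧ ∀ (G : Type) [AddCommGroup G] [Fintype G] (Γ : Finset (AddChar G ℂ)) (ρ α : ℝ) (A : Finset G) (L : ℕ) (x₀ : G),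
    Function.Bijective (fun x : G => x + x) → TAF A → 0 < ρ → ρ ≤ 1 → Reg Γ ρ → 1 ≤ L → 0 < α →
    2 ≤ α * 2 ^ L → α * (bohr Γ ρ).card ≤ cnt A (bohr Γ ρ) x₀ →
    (∃ ρ' : ℝ, 0 < ρ' ∧ ρ' ≤ 1 ∧ ρ ≤ ρ' * ((C : ℝ) * ((Γ.card : ℝ) + 1) ^ 3) ∧
      α ^ 2 * (bohr Γ ρ').card ≤ 16) ∨
    (∃ (ρ' : ℝ) (x : G), 0 < ρ' ∧ ρ' ≤ 1 ∧ Reg Γ ρ' ∧ ρ ≤ ρ' * ((C : ℝ) * ((Γ.card : ℝ) + 1) ^ 3) ∧
      (1 + 1 / 500) * α * (bohr Γ ρ').card ≤ cnt A (bohr Γ ρ') x) ∨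
    (∃ (Γ' : Finset (AddChar G ℂ)) (ρ' c : ℝ) (A' : Finset G) (x : G), Γ'.card = Γ.card ∧
      0 < ρ' ∧ ρ' ≤ 1 ∧ Reg Γ' ρ' ∧ ρ ≤ ρ' * ((C : ℝ) * ((Γ.card : ℝ) + 1) ^ 3) ∧
      (∀ a ∈ A', a + x ∈ A) ∧ A'.Nonempty ∧ 0 < c ∧ 1 ≤ c * A'.card ∧ c * A'.card ≤ 2 ^ L ∧
      (1 - 1 / 200) * α * (c * A'.card) ≤ 1 ∧
      (65 / 64 : ℝ) ^ (400 * (2 * L + 1)) ≤
        avd (bohr Γ' ρ') (fun x => (c * rep A' x) ^ (400 * (2 * L + 1))))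

/-- density increment step -/
def INCR : Prop :=
  ∃ C : ℕ, 1 ≤ C ∧ ∀ (G : Type) [AddCommGroup G] [Fintype G] (Γ : Finset (AddChar G ℂ)) (ρ α : ℝ) (A : Finset G) (L : ℕ) (x₀ : G),
    Function.Bijective (fun x : G => x + x) → TAF A → 0 < ρ → ρ ≤ 1 → Reg Γ ρ → 1 ≤ L → 0 < α →
    2 ≤ α * 2 ^ L → α * (bohr Γ ρ).card ≤ cnt A (bohr Γ ρ) x₀ →
    (∃ ρ' : ℝ, 0 < ρ' ∧ ρ' ≤ 1 ∧ ρ ≤ ρ' * ((C : ℝ) * ((Γ.card : ℝ) + 1) ^ 6 * (L : ℝ) ^ 4) ∧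
      α ^ 2 * (bohr Γ ρ').card ≤ 16) ∨
    (∃ (Γ' : Finset (AddChar G ℂ)) (ρ' : ℝ) (x : G), 0 < ρ' ∧ ρ' ≤ 1 ∧ Reg Γ' ρ' ∧
      Γ'.card ≤ Γ.card + C * L ^ 4 ∧ ρ ≤ ρ' * ((C : ℝ) * ((Γ.card : ℝ) + 1) ^ 6 * (L : ℝ) ^ 4) ∧
      (1 + 1 / 500) * α * (bohr Γ' ρ').card ≤ cnt A (bohr Γ' ρ') x)

/-- result of the iteration -/
def ITERT : Prop :=
  ∃ C : ℕ, 1 ≤ C ∧ ∀ (G : Type) [AddCommGroup G] [Fintype G] (A : Finset G) (L : ℕ),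
    Function.Bijective (fun x : G => x + x) → TAF A → 2 ≤ L →
    2 * (Fintype.card G : ℝ) ≤ 2 ^ L * A.card →
    Real.log (Fintype.card G) ≤ C * (L : ℝ) ^ 6 * Real.log L

/-- final statement for the integers -/
def FINAL : Prop :=
  ∃ c : ℝ, 0 < c ∧ ∃ N₀ : ℕ, ∀ N : ℕ, N₀ ≤ N → ∀ A : Finset ℕ, A ⊆ Icc 1 N →
    (∀ a d : ℕ, 0 < d → a ∈ A → a + d ∈ A → a + 2 * d ∉ A) →
    (A.card : ℝ) ≤ N * Real.exp (- c * (Real.log N / Real.log (Real.log N)) ^ ((1 : ℝ) / 6))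

end

end Vale.Agent.P057
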