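import Vale.Agent.P057.Mods

/-!
# P057: PARTA
-/

open Finset

namespace Vale.Agent.P057.PA

open Vale.Agent.P057

noncomputable section

variable {G : Type} [AddCommGroup G] [Fintype G]

theorem kap_pos (d : ℕ) : 0 < kap d := by
  unfold kap
  positivity

theorem kap_le (d : ℕ) : kap d ≤ 1 / 2 ^ 24 := by
  unfold kap
  apply one_div_le_one_div_of_le (by norm_num)
  have : (0 : ℝ) ≤ d := Nat.cast_nonneg d
  nlinarith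

theorem mem_bohr {Γ : Finset (AddChar G ℂ)} {ρ : ℝ} {x : G} :
    x ∈ bohr Γ ρ ↔ ∀ ψ ∈ Γ, ‖ψ x - 1‖ ≤ ρ := by
  classical
  simp [bohr]

theorem bohr_mono {Γ : Finset (AddChar G ℂ)} {ρ ρ' : ℝ} (h : ρ ≤ ρ') :
    bohr (G := G) Γ ρ ⊆ bohr Γ ρ' := by
  intro x hx
  rw [mem_bohr] at hx ⊢
  exact fun ψ hψ => (hx ψ hψ).trans h

theorem zero_mem_bohr {Γ : Finset (AddChar G ℂ)} {ρ : ℝ} (h : 0 ≤ ρ) : (0 : G) ∈ bohr Γ ρ := by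
  rw [mem_bohr]
  intro ψ _
  simp [h]

theorem card_bohr_pos {Γ : Finset (AddChar G ℂ)} {ρ : ℝ} (h : 0 ≤ ρ) :
    0 < (bohr (G := G) Γ ρ).card :=
  Finset.card_pos.2 ⟨0, zero_mem_bohr h⟩

/-- translate of `A` by `-x` -/
def tr (A : Finset G) (x : G) : Finset G := by
  classical
  exact univ.filter (fun g => g + x ∈ A)

theorem mem_tr {A : Finset G} {x g : G} : g ∈ tr A x ↔ g + x ∈ A := by
  classical
  simp [tr]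

theorem cnt_eq_card {A B : Finset G} {x : G} (C : Finset G)
    (hC : ∀ g, g ∈ C ↔ g + x ∈ A ∧ g ∈ B) : cnt A B x = C.card := by
  classical
  unfold cnt
  apply Finset.card_bij' (fun a _ => a - x) (fun g _ => g + x)
  · intro a ha
    rw [Finset.mem_filter] at ha
    rw [hC]
    simp [ha.1, ha.2]
  · intro g hg
    rw [hC] at hg
    rw [Finset.mem_filter]
    simp [hg.1, hg.2]
  · intro a _
    simp
  · intro g _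
    simp

theorem cnt_tr (A B : Finset G) (x y : G) : cnt (tr A x) B y = cnt A B (y + x) := by
  classical
  have h1 : cnt A B (y + x) = (univ.filter (fun g => g + (y + x) ∈ A ∧ g ∈ B)).card := by
    apply cnt_eq_card
    intro g
    simp
  rw [h1]
  apply cnt_eq_card
  intro g
  simp only [Finset.mem_filter, Finset.mem_univ, true_and, mem_tr]
  rw [add_assoc]

theorem cnt_le (A B : Finset G) (x : G) : cnt A B x ≤ B.card := by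
  classical
  have h1 : cnt A B x = (univ.filter (fun g => g + x ∈ A ∧ g ∈ B)).card := by
    apply cnt_eq_card
    intro g
    simp
  rw [h1]
  apply Finset.card_le_card
  intro g hg
  rw [Finset.mem_filter] at hg
  exact hg.2.2

theorem taf_tr {A : Finset G} (h : TAF A) (x : G) : TAF (tr A x) := by
  intro a ha b hb c hc habc
  rw [mem_tr] at ha hb hc
  have := h _ ha _ hb _ hc (by
    have e : a + x + (b + x) = (a + b) + (x + x) := by abel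
    rw [e, habc]
    abel)
  exact add_right_cancel this

/-- power comparison -/
theorem pow_ge (x : ℝ) (hx : 0 ≤ x) (L : ℕ) :
    x ^ (2 * L) / 8 - (1 / 8) ^ (2 * L + 1) ≤ x ^ (2 * L + 1) := by
  rcases le_or_gt (1 / 8) x with h | h
  · have h1 : x ^ (2 * L) * (1 / 8) ≤ x ^ (2 * L) * x :=
      mul_le_mul_of_nonneg_left h (by positivity)
    have h2 : (0 : ℝ) ≤ (1 / 8) ^ (2 * L + 1) := by positivity
    rw [pow_succ x]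
    linarith
  · have h1 : x ^ (2 * L) ≤ (1 / 8) ^ (2 * L) := pow_le_pow_left₀ hx h.le _
    have h2 : (0 : ℝ) ≤ x ^ (2 * L + 1) := by positivity
    rw [pow_succ (1 / 8 : ℝ)]
    linarith

/-- doubles of a Bohr set -/
theorem sum_doubles {M : Type} [AddCommMonoid M] {Γ Γ' : Finset (AddChar G ℂ)}
    (hbij : Function.Bijective (fun x : G => x + x))
    (h : ∀ (ρ : ℝ) (x : G), x ∈ bohr Γ ρ ↔ x + x ∈ bohr Γ' ρ) (ρ : ℝ) (Φ : G → M) :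
    ∑ b ∈ bohr Γ ρ, Φ (b + b) = ∑ d ∈ bohr Γ' ρ, Φ d := by
  classical
  apply Finset.sum_bij (fun b _ => b + b)
  · intro b hb
    exact (h ρ b).1 hb
  · intro b _ b' _ hbb
    exact hbij.1 hbb
  · intro d hd
    obtain ⟨b, hb⟩ := hbij.2 d
    refine ⟨b, ?_, hb⟩
    rw [h]
    simp only at hb
    rw [hb]
    exact hd
  · intro b _
    rfl

theorem card_doubles {Γ Γ' : Finset (AddChar G ℂ)}
    (hbij : Function.Bijective (fun x : G => x + x))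
    (h : ∀ (ρ : ℝ) (x : G), x ∈ bohr Γ ρ ↔ x + x ∈ bohr Γ' ρ) (ρ : ℝ) :
    (bohr Γ' ρ).card = (bohr Γ ρ).card := by
  have := sum_doubles hbij h ρ (fun _ => (1 : ℕ))
  simpa using this.symm

theorem reg_doubles {Γ Γ' : Finset (AddChar G ℂ)}
    (hbij : Function.Bijective (fun x : G => x + x)) (hc : Γ'.card = Γ.card)
    (h : ∀ (ρ : ℝ) (x : G), x ∈ bohr Γ ρ ↔ x + x ∈ bohr Γ' ρ) {ρ : ℝ} (hr : Reg Γ ρ) :
    Reg Γ' ρ := by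
  unfold Reg at hr ⊢
  rw [hc, card_doubles hbij h, card_doubles hbij h]
  exact hr

theorem moments (D : Finset G) (F : G → ℝ) (L : ℕ) (hL : 1 ≤ L)
    (hev : (1 / 4 : ℝ) ^ (2 * L) * (D.card : ℝ) ^ 2 ≤ ∑ d ∈ D, ∑ d' ∈ D, (F (d - d')) ^ (2 * L)) :
    (1 / 8 : ℝ) ^ (2 * L + 1) * (D.card : ℝ) ^ 2 ≤
      ∑ d ∈ D, ∑ d' ∈ D, |F (d - d')| ^ (2 * L + 1) := by
  have e1 : ∑ d ∈ D, ∑ d' ∈ D, ((F (d - d')) ^ (2 * L) / 8 - (1 / 8 : ℝ) ^ (2 * L + 1)) ≤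
      ∑ d ∈ D, ∑ d' ∈ D, |F (d - d')| ^ (2 * L + 1) := by
    apply Finset.sum_le_sum
    intro d _
    apply Finset.sum_le_sum
    intro d' _
    have := pow_ge |F (d - d')| (abs_nonneg _) L
    rwa [(even_two_mul L).pow_abs] at this
  refine le_trans ?_ e1
  have e0 : ∑ d ∈ D, ∑ d' ∈ D, ((F (d - d')) ^ (2 * L) / 8 - (1 / 8 : ℝ) ^ (2 * L + 1))
      = (∑ d ∈ D, ∑ d' ∈ D, (F (d - d')) ^ (2 * L)) / 8
        - (D.card : ℝ) ^ 2 * (1 / 8 : ℝ) ^ (2 * L + 1) := by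
    simp only [Finset.sum_sub_distrib, Finset.sum_div, Finset.sum_const, nsmul_eq_mul]
    ring
  rw [e0]
  have e2 : (2 : ℝ) * (1 / 8) ^ (2 * L) ≤ (1 / 4) ^ (2 * L) := by
    have : (1 / 4 : ℝ) ^ (2 * L) = 2 ^ (2 * L) * (1 / 8) ^ (2 * L) := by
      rw [← mul_pow]; norm_num
    rw [this]
    apply mul_le_mul_of_nonneg_right _ (by positivity)
    calc (2 : ℝ) = 2 ^ 1 := by norm_num
      _ ≤ 2 ^ (2 * L) := pow_le_pow_right₀ (by norm_num) (by omega)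
  have e3 : (1 / 8 : ℝ) ^ (2 * L + 1) = (1 / 8) ^ (2 * L) * (1 / 8) := pow_succ _ _
  rw [e3]
  have e4 : (2 : ℝ) * (1 / 8) ^ (2 * L) * (D.card : ℝ) ^ 2
      ≤ (1 / 4) ^ (2 * L) * (D.card : ℝ) ^ 2 :=
    mul_le_mul_of_nonneg_right e2 (by positivity)
  linarith

theorem unb_avd (hUNB : UNB) (D : Finset G) (hD : D.Nonempty) (F g : G → ℝ) (p : ℕ)
    (hg : ∀ x, 0 ≤ g x) (hF : ∀ y ∈ D, ∀ y' ∈ D, |F (y - y') - (g (y - y') - 1)| ≤ 1 / 256)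
    (hp : Odd p) (hp3 : 3 ≤ p) (h1 : 0 ≤ ∑ d ∈ D, ∑ d' ∈ D, (F (d - d')) ^ p)
    (h2 : (1 / 8 : ℝ) ^ p * (D.card : ℝ) ^ 2 ≤ ∑ d ∈ D, ∑ d' ∈ D, |F (d - d')| ^ p) :
    (65 / 64 : ℝ) ^ (400 * p) ≤ avd D (fun x => (g x) ^ (400 * p)) := by
  classical
  have hDpos : (0 : ℝ) < D.card := by exact_mod_cast hD.card_pos
  have hsum : ∀ Φ : G → ℝ, ∑ ω : {q : G × G // q ∈ D ×ˢ D}, 1 / (D.card : ℝ) ^ 2 * Φ (ω.1.1 - ω.1.2)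
      = (∑ d ∈ D, ∑ d' ∈ D, Φ (d - d')) / (D.card : ℝ) ^ 2 := by
    intro Φ
    rw [← Finset.sum_product', ← Finset.sum_coe_sort (D ×ˢ D), Finset.sum_div]
    apply Finset.sum_congr rfl
    intro ω _
    ring
  have hU := hUNB {q : G × G // q ∈ D ×ˢ D} (fun _ => 1 / (D.card : ℝ) ^ 2)
    (fun ω => F (ω.1.1 - ω.1.2)) (fun ω => g (ω.1.1 - ω.1.2)) p (fun _ => by positivity)
  have h5 := hU (by
      have := hsum (fun _ => 1)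
      simp only [mul_one] at this
      rw [this]
      simp only [Finset.sum_const, nsmul_eq_mul, mul_one]
      field_simp)
    (fun ω => hg _)
    (by
      rintro ⟨⟨y, y'⟩, hy⟩
      rw [Finset.mem_product] at hy
      exact hF y hy.1 y' hy.2)
    hp hp3
    (by
      rw [hsum (fun y => (F y) ^ p)]
      exact div_nonneg h1 (by positivity))
    (by
      rw [hsum (fun y => |F y| ^ p), le_div_iff₀ (by positivity)]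
      exact h2)
  rw [hsum (fun y => (g y) ^ (400 * p))] at h5
  exact h5

theorem card_wide {Γ : Finset (AddChar G ℂ)} {ρ : ℝ} (h : 0 < ρ) (hreg : Reg Γ ρ) :
    ((bohr (G := G) Γ ((1 + 2 * kap Γ.card) * ρ)).card : ℝ) ≤ 2 * (bohr Γ ρ).card := by
  have hk : 0 < kap Γ.card := kap_pos _
  have e1 := hreg
  unfold Reg at e1
  have e0 : (1 - 2 * kap Γ.card) * ρ ≤ ρ := by nlinarith
  have e2 : ((bohr (G := G) Γ ((1 - 2 * kap Γ.card) * ρ)).card : ℝ) ≤ (bohr Γ ρ).card := by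
    exact_mod_cast Finset.card_le_card (bohr_mono e0)
  have e3 : (1 + eps0) ≤ 2 := by unfold eps0; norm_num
  have e4 : (0 : ℝ) ≤ ((bohr (G := G) Γ ((1 - 2 * kap Γ.card) * ρ)).card : ℝ) :=
    Nat.cast_nonneg _
  calc _ ≤ _ := e1
    _ ≤ 2 * ((bohr (G := G) Γ ((1 - 2 * kap Γ.card) * ρ)).card : ℝ) :=
        mul_le_mul_of_nonneg_right e3 e4
    _ ≤ _ := by linarith

theorem hsm_part (hBELEM : BELEM) (hHSM : HSM) {Γ Γ' : Finset (AddChar G ℂ)}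
    (hbij : Function.Bijective (fun x : G => x + x))
    (hΓ' : ∀ (ρ : ℝ) (x : G), x ∈ bohr Γ ρ ↔ x + x ∈ bohr Γ' ρ) {ρ₂ ρ₃ : ℝ} (h2 : 0 < ρ₂)
    (hreg2 : Reg Γ ρ₂) (h3 : 0 < ρ₃) (h32 : ρ₃ ≤ kap Γ.card * ρ₂) (A2 : Finset G)
    (hA2B2 : A2 ⊆ bohr Γ ρ₂) (hA2ne : A2.Nonempty) (L : ℕ) (hL : 1 ≤ L)
    (hB2L : ((bohr Γ ρ₂).card : ℝ) ≤ 2 ^ L * A2.card) (F : G → ℝ)
    (hneg : ∑ z ∈ A2, F (z + z) ≤ - (A2.card : ℝ) / 2) :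
    ∃ v, (1 / 4 : ℝ) ^ (2 * L) * ((bohr Γ' ρ₃).card : ℝ) ^ 2 ≤
      ∑ d ∈ bohr Γ' ρ₃, ∑ d' ∈ bohr Γ' ρ₃, (F (d - d' + v)) ^ (2 * L) := by
  have hB2p := card_wide h2 hreg2
  obtain ⟨-, -, -, hadd', hsub', -⟩ := hBELEM G Γ
  obtain ⟨v, hv⟩ := hHSM G F A2 (bohr Γ ρ₂)
    (bohr Γ ((1 + 2 * kap Γ.card) * ρ₂)) (bohr Γ ρ₃) L hL hA2B2 hA2ne ⟨0, zero_mem_bohr h3.le⟩
    hB2L hB2p
    (by
      intro z hz b hb b' hb'
      have e1 : z - b ∈ bohr Γ (ρ₂ + ρ₃) := hsub' _ _ _ _ hz hb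
      have e2 : z - b + b' ∈ bohr Γ (ρ₂ + ρ₃ + ρ₃) := hadd' _ _ _ _ e1 hb'
      have e3 : ρ₂ + ρ₃ + ρ₃ ≤ (1 + 2 * kap Γ.card) * ρ₂ := by linarith
      exact bohr_mono e3 e2)
    hneg
  refine ⟨v, ?_⟩
  have e1 : ∑ b ∈ bohr Γ ρ₃, ∑ b' ∈ bohr Γ ρ₃, (F ((b + b) - (b' + b') + v)) ^ (2 * L)
      = ∑ d ∈ bohr Γ' ρ₃, ∑ d' ∈ bohr Γ' ρ₃, (F (d - d' + v)) ^ (2 * L) := by
    have e2 : ∀ u : G, ∑ b' ∈ bohr Γ ρ₃, (F (u - (b' + b') + v)) ^ (2 * L)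
        = ∑ d' ∈ bohr Γ' ρ₃, (F (u - d' + v)) ^ (2 * L) := fun u =>
      sum_doubles hbij hΓ' ρ₃ (fun d' => (F (u - d' + v)) ^ (2 * L))
    simp_rw [e2]
    exact sum_doubles hbij hΓ' ρ₃
      (fun d => ∑ d' ∈ bohr Γ' ρ₃, (F (d - d' + v)) ^ (2 * L))
  rw [← e1, card_doubles hbij hΓ']
  exact hv

theorem dens_lower {b a α : ℝ} {L : ℕ} (hb : 0 < b) (hαL : 2 ≤ α * 2 ^ L)
    (h : (1 - 1 / 200) * α * b ≤ a) : b ≤ 2 ^ L * a := by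
  have e1 : 2 ^ L * ((1 - 1 / 200) * α * b) ≤ 2 ^ L * a :=
    mul_le_mul_of_nonneg_left h (by positivity)
  have e2 : (2 : ℝ) * b ≤ (α * 2 ^ L) * b := mul_le_mul_of_nonneg_right hαL hb.le
  have e3 : (2 : ℝ) ^ L * ((1 - 1 / 200) * α * b) = (1 - 1 / 200) * ((α * 2 ^ L) * b) := by ring
  rw [e3] at e1
  linarith

/-- the set of differences is inside the narrow Bohr set -/
theorem diff_mem (hBELEM : BELEM) {Γ Γ' : Finset (AddChar G ℂ)}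
    (hbij : Function.Bijective (fun x : G => x + x))
    (hΓ' : ∀ (ρ : ℝ) (x : G), x ∈ bohr Γ ρ ↔ x + x ∈ bohr Γ' ρ) {ρ₁ ρ₂ ρ₃ : ℝ} (h2 : 0 < ρ₂)
    (h21 : 2 * ρ₂ ≤ kap Γ.card * ρ₁) (h32 : ρ₃ ≤ kap Γ.card * ρ₂) {y y' : G}
    (hy : y ∈ bohr Γ' ρ₃) (hy' : y' ∈ bohr Γ' ρ₃) : y - y' ∈ bohr Γ (kap Γ.card * ρ₁) := by
  have hk : 0 < kap Γ.card := kap_pos _
  have hk1 : kap Γ.card ≤ 1 / 2 ^ 24 := kap_le _
  obtain ⟨-, -, -, hadd', hsub', -⟩ := hBELEM G Γ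
  have hmem : ∀ w ∈ bohr Γ' ρ₃, w ∈ bohr Γ (2 * ρ₃) := by
    intro w hw
    obtain ⟨b, hb⟩ := hbij.2 w
    simp only at hb
    have hb3 : b ∈ bohr Γ ρ₃ := by
      rw [hΓ', hb]
      exact hw
    rw [← hb, two_mul]
    exact hadd' _ _ _ _ hb3 hb3
  have h := hsub' _ _ _ _ (hmem _ hy) (hmem _ hy')
  have e1 : kap Γ.card * ρ₂ ≤ 1 / 2 ^ 24 * ρ₂ := mul_le_mul_of_nonneg_right hk1 h2.le
  have e2 : 2 * ρ₃ + 2 * ρ₃ ≤ kap Γ.card * ρ₁ := by linarith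
  exact bohr_mono e2 h

theorem csm_part (hCSM : CSM) (D : Finset G) (hD : ∀ y ∈ D, -y ∈ D) (f : G → ℝ) (c : ℝ)
    (hc : 0 ≤ c) (v : G) (L : ℕ)
    (hv : (1 / 4 : ℝ) ^ (2 * L) * (D.card : ℝ) ^ 2 ≤
      ∑ d ∈ D, ∑ d' ∈ D, (c * conv f (d - d' + v)) ^ (2 * L)) :
    (1 / 4 : ℝ) ^ (2 * L) * (D.card : ℝ) ^ 2 ≤
      ∑ d ∈ D, ∑ d' ∈ D, (c * corr f (d - d')) ^ (2 * L) ∧
    0 ≤ ∑ d ∈ D, ∑ d' ∈ D, (c * corr f (d - d')) ^ (2 * L + 1) := by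
  have h1 := (hCSM G f D v (2 * L) hD).1
  have h2 := (hCSM G f D v (2 * L + 1) hD).2
  constructor
  · refine hv.trans ?_
    simp only [mul_pow, ← Finset.mul_sum]
    exact mul_le_mul_of_nonneg_left h1 (pow_nonneg hc _)
  · simp only [mul_pow, ← Finset.mul_sum]
    exact mul_nonneg (pow_nonneg hc _) h2

theorem core (hBELEM : BELEM) (hAPC : APC) (hHSM : HSM) (hCSM : CSM)
    (hUNB : UNB) (Γ Γ' : Finset (AddChar G ℂ)) (ρ₁ ρ₂ ρ₃ α : ℝ) (A A1 A2 : Finset G) (L : ℕ)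
    (hbij : Function.Bijective (fun x : G => x + x)) (htaf : TAF A)
    (hΓ' : ∀ (ρ : ℝ) (x : G), x ∈ bohr Γ ρ ↔ x + x ∈ bohr Γ' ρ)
    (h1 : 0 < ρ₁) (hreg1 : Reg Γ ρ₁) (h2 : 0 < ρ₂) (hreg2 : Reg Γ ρ₂)
    (h21 : 2 * ρ₂ ≤ kap Γ.card * ρ₁) (h3 : 0 < ρ₃)
    (h32 : ρ₃ ≤ kap Γ.card * ρ₂) (hL : 1 ≤ L) (hα : 0 < α) (hα1 : α ≤ 1) (hαL : 2 ≤ α * 2 ^ L)
    (hA1 : A1 ⊆ A) (hA1B1 : A1 ⊆ bohr Γ ρ₁) (hA1' : ∀ g ∈ A, g ∈ bohr Γ ρ₁ → g ∈ A1)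
    (hA2 : A2 ⊆ A) (hA2B2 : A2 ⊆ bohr Γ ρ₂)
    (hd1 : (1 - 1 / 200) * α * (bohr Γ ρ₁).card ≤ A1.card)
    (hd2 : (1 - 1 / 200) * α * (bohr Γ ρ₂).card ≤ A2.card)
    (hA1ne : A1.Nonempty) (hA2ne : A2.Nonempty)
    (hmax2 : ∀ x, (cnt A (bohr Γ ρ₂) x : ℝ) ≤ (1 + 1 / 500) * α * (bohr Γ ρ₂).card)
    (h16 : 16 ≤ α ^ 2 * (bohr Γ ρ₁).card) :
    (65 / 64 : ℝ) ^ (400 * (2 * L + 1)) ≤
        avd (bohr Γ' ρ₃) (fun x => (((bohr Γ ρ₁).card : ℝ) / (A1.card : ℝ) ^ 2 * rep A1 x)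
          ^ (400 * (2 * L + 1))) := by
  have hB2pos : (0 : ℝ) < (bohr Γ ρ₂).card := by exact_mod_cast card_bohr_pos h2.le
  have hinj : ∀ x y : G, x + x = y + y → x = y := fun x y h => hbij.1 h
  obtain ⟨hneg, hcomp⟩ := hAPC G Γ ρ₁ ρ₂ α A A1 A2 hinj htaf h1 hreg1 h2 h21 hα hα1
    hA1 hA1B1 hA1' hA2 hA2B2 hd1 hA2ne hmax2 h16
  obtain ⟨v, hv2⟩ := hsm_part hBELEM hHSM hbij hΓ' h2 hreg2 h3 h32 A2 hA2B2 hA2ne L hL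
    (dens_lower hB2pos hαL hd2)
    (fun y => ((bohr Γ ρ₁).card : ℝ) * conv (fun x => mu A1 x - mu (bohr Γ ρ₁) x) y) hneg
  have hDsymm : ∀ y ∈ bohr Γ' ρ₃, -y ∈ bohr Γ' ρ₃ := by
    intro y hy
    obtain ⟨-, h', -⟩ := hBELEM G Γ'
    exact h' _ _ hy
  obtain ⟨hev, hodd⟩ := csm_part hCSM (bohr Γ' ρ₃) hDsymm (fun x => mu A1 x - mu (bohr Γ ρ₁) x)
    ((bohr Γ ρ₁).card : ℝ) (Nat.cast_nonneg _) v L hv2
  have habs := moments (bohr Γ' ρ₃)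
    (fun y => ((bohr Γ ρ₁).card : ℝ) * corr (fun x => mu A1 x - mu (bohr Γ ρ₁) x) y) L hL hev
  refine unb_avd hUNB (bohr Γ' ρ₃) ⟨0, zero_mem_bohr h3.le⟩
    (fun y => ((bohr Γ ρ₁).card : ℝ) * corr (fun x => mu A1 x - mu (bohr Γ ρ₁) x) y)
    (fun y => ((bohr Γ ρ₁).card : ℝ) / (A1.card : ℝ) ^ 2 * rep A1 y) (2 * L + 1)
    (fun y => by positivity) ?_ ⟨L, rfl⟩ (by omega) hodd habs
  intro y hy y' hy'
  exact hcomp (y - y') (diff_mem hBELEM hbij hΓ' h2 h21 h32 hy hy')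

theorem out3 (hBELEM : BELEM) (hBHALF : BHALF) (hAPC : APC) (hHSM : HSM) (hCSM : CSM)
    (hUNB : UNB) (Γ : Finset (AddChar G ℂ)) (ρ₁ ρ₂ ρ₃ α : ℝ) (A : Finset G) (L : ℕ) (x : G)
    (hbij : Function.Bijective (fun x : G => x + x)) (htaf : TAF A)
    (h1 : 0 < ρ₁) (hreg1 : Reg Γ ρ₁) (h2 : 0 < ρ₂) (hreg2 : Reg Γ ρ₂)
    (h21 : 2 * ρ₂ ≤ kap Γ.card * ρ₁) (h3 : 0 < ρ₃) (hreg3 : Reg Γ ρ₃)
    (h32 : ρ₃ ≤ kap Γ.card * ρ₂) (hL : 1 ≤ L) (hα : 0 < α) (hα1 : α ≤ 1) (hαL : 2 ≤ α * 2 ^ L)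
    (hd1 : (1 - 1 / 200) * α * (bohr Γ ρ₁).card ≤ cnt A (bohr Γ ρ₁) x)
    (hd2 : (1 - 1 / 200) * α * (bohr Γ ρ₂).card ≤ cnt A (bohr Γ ρ₂) x)
    (hmax2 : ∀ x, (cnt A (bohr Γ ρ₂) x : ℝ) ≤ (1 + 1 / 500) * α * (bohr Γ ρ₂).card)
    (h16 : 16 ≤ α ^ 2 * (bohr Γ ρ₁).card) :
    ∃ (Γ' : Finset (AddChar G ℂ)) (c : ℝ) (A' : Finset G), Γ'.card = Γ.card ∧
      Reg Γ' ρ₃ ∧ (∀ a ∈ A', a + x ∈ A) ∧ A'.Nonempty ∧ 0 < c ∧ 1 ≤ c * A'.card ∧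
      c * A'.card ≤ 2 ^ L ∧ (1 - 1 / 200) * α * (c * A'.card) ≤ 1 ∧
      (65 / 64 : ℝ) ^ (400 * (2 * L + 1)) ≤
        avd (bohr Γ' ρ₃) (fun x => (c * rep A' x) ^ (400 * (2 * L + 1))) := by
  classical
  obtain ⟨Γ', hΓc, hΓ'⟩ := hBHALF G hbij Γ
  have hc1 : cnt A (bohr Γ ρ₁) x = ((tr A x).filter (fun g => g ∈ bohr Γ ρ₁)).card := by
    apply cnt_eq_card
    intro g
    rw [Finset.mem_filter, mem_tr]
  have hc2 : cnt A (bohr Γ ρ₂) x = ((tr A x).filter (fun g => g ∈ bohr Γ ρ₂)).card := by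
    apply cnt_eq_card
    intro g
    rw [Finset.mem_filter, mem_tr]
  rw [hc1] at hd1
  rw [hc2] at hd2
  have hB1pos : (0 : ℝ) < (bohr Γ ρ₁).card := by exact_mod_cast card_bohr_pos h1.le
  have hB2pos : (0 : ℝ) < (bohr Γ ρ₂).card := by exact_mod_cast card_bohr_pos h2.le
  have hA1s : (tr A x).filter (fun g => g ∈ bohr Γ ρ₁) ⊆ bohr Γ ρ₁ :=
    fun g hg => (Finset.mem_filter.1 hg).2
  have hA2s : (tr A x).filter (fun g => g ∈ bohr Γ ρ₂) ⊆ bohr Γ ρ₂ :=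
    fun g hg => (Finset.mem_filter.1 hg).2
  have hA1m : ∀ a ∈ (tr A x).filter (fun g => g ∈ bohr Γ ρ₁), a + x ∈ A := by
    intro a ha
    have := (Finset.mem_filter.1 ha).1
    rwa [mem_tr] at this
  have hA1' : ∀ g ∈ tr A x, g ∈ bohr Γ ρ₁ → g ∈ (tr A x).filter (fun g => g ∈ bohr Γ ρ₁) :=
    fun g hg hg' => Finset.mem_filter.2 ⟨hg, hg'⟩
  have hA1sub : (tr A x).filter (fun g => g ∈ bohr Γ ρ₁) ⊆ tr A x := Finset.filter_subset _ _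
  have hA2sub : (tr A x).filter (fun g => g ∈ bohr Γ ρ₂) ⊆ tr A x := Finset.filter_subset _ _
  have hmax2' : ∀ y, (cnt (tr A x) (bohr Γ ρ₂) y : ℝ) ≤ (1 + 1 / 500) * α * (bohr Γ ρ₂).card := by
    intro y
    rw [cnt_tr]
    exact hmax2 _
  generalize (tr A x).filter (fun g => g ∈ bohr Γ ρ₁) = A1 at *
  generalize (tr A x).filter (fun g => g ∈ bohr Γ ρ₂) = A2 at *
  have hA1pos : (0 : ℝ) < A1.card := lt_of_lt_of_le (by positivity) hd1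
  have hA2pos : (0 : ℝ) < A2.card := lt_of_lt_of_le (by positivity) hd2
  have hA1ne : A1.Nonempty := by
    rw [← Finset.card_pos]
    exact_mod_cast hA1pos
  have hA2ne : A2.Nonempty := by
    rw [← Finset.card_pos]
    exact_mod_cast hA2pos
  have hmain := core hBELEM hAPC hHSM hCSM hUNB Γ Γ' ρ₁ ρ₂ ρ₃ α (tr A x) A1 A2 L hbij
    (taf_tr htaf x) hΓ' h1 hreg1 h2 hreg2 h21 h3 h32 hL hα hα1 hαL hA1sub hA1s hA1' hA2sub hA2s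
    hd1 hd2 hA1ne hA2ne hmax2' h16
  have hcA : ((bohr Γ ρ₁).card : ℝ) / (A1.card : ℝ) ^ 2 * A1.card
      = (bohr Γ ρ₁).card / A1.card := by
    field_simp
  refine ⟨Γ', ((bohr Γ ρ₁).card : ℝ) / (A1.card : ℝ) ^ 2, A1, hΓc,
    reg_doubles hbij hΓc hΓ' hreg3, hA1m, hA1ne, by positivity, ?_, ?_, ?_, hmain⟩
  · rw [hcA, le_div_iff₀ hA1pos, one_mul]
    exact_mod_cast Finset.card_le_card hA1s
  · rw [hcA, div_le_iff₀ hA1pos]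
    exact dens_lower hB1pos hαL hd1
  · rw [hcA, ← mul_div_assoc, div_le_one hA1pos]
    exact hd1

/-- radius bookkeeping -/
theorem rad_bound {d : ℕ} {ρ ρ₁ ρ₂ ρ₃ : ℝ} (hρ : 0 < ρ) (h1 : kap d * ρ / 2 ≤ ρ₁)
    (h2 : kap d * ρ₁ / 2 / 2 ≤ ρ₂) (h3 : kap d * ρ₂ / 2 ≤ ρ₃) :
    ρ ≤ ρ₁ * ((2 ^ 80 : ℝ) * ((d : ℝ) + 1) ^ 3) ∧ ρ ≤ ρ₂ * ((2 ^ 80 : ℝ) * ((d : ℝ) + 1) ^ 3) ∧
      ρ ≤ ρ₃ * ((2 ^ 80 : ℝ) * ((d : ℝ) + 1) ^ 3) := by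
  have hd : (0 : ℝ) ≤ d := Nat.cast_nonneg d
  have hk : 0 < kap d := kap_pos d
  have hkd : kap d * (2 ^ 24 * ((d : ℝ) + 1)) = 1 := by
    unfold kap
    field_simp
  have hD1 : (1 : ℝ) ≤ (d : ℝ) + 1 := by linarith
  have q1 : ρ ≤ ρ₁ * (2 ^ 25 * ((d : ℝ) + 1)) := by
    have e : ρ = (kap d * ρ / 2) * (2 ^ 25 * ((d : ℝ) + 1)) := by
      calc ρ = (kap d * (2 ^ 24 * ((d : ℝ) + 1))) * ρ := by rw [hkd, one_mul]
        _ = _ := by ring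
    exact e.trans_le (mul_le_mul_of_nonneg_right h1 (by positivity))
  have p1 : 0 < ρ₁ := lt_of_lt_of_le (by positivity) h1
  have q2 : ρ₁ ≤ ρ₂ * (2 ^ 26 * ((d : ℝ) + 1)) := by
    have e : ρ₁ = (kap d * ρ₁ / 2 / 2) * (2 ^ 26 * ((d : ℝ) + 1)) := by
      calc ρ₁ = (kap d * (2 ^ 24 * ((d : ℝ) + 1))) * ρ₁ := by rw [hkd, one_mul]
        _ = _ := by ring
    exact e.trans_le (mul_le_mul_of_nonneg_right h2 (by positivity))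
  have p2 : 0 < ρ₂ := lt_of_lt_of_le (by positivity) h2
  have q3 : ρ₂ ≤ ρ₃ * (2 ^ 25 * ((d : ℝ) + 1)) := by
    have e : ρ₂ = (kap d * ρ₂ / 2) * (2 ^ 25 * ((d : ℝ) + 1)) := by
      calc ρ₂ = (kap d * (2 ^ 24 * ((d : ℝ) + 1))) * ρ₂ := by rw [hkd, one_mul]
        _ = _ := by ring
    exact e.trans_le (mul_le_mul_of_nonneg_right h3 (by positivity))
  have p3 : 0 < ρ₃ := lt_of_lt_of_le (by positivity) h3
  have hD3 : ((d : ℝ) + 1) ≤ ((d : ℝ) + 1) ^ 3 := by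
    calc ((d : ℝ) + 1) = ((d : ℝ) + 1) ^ 1 := (pow_one _).symm
      _ ≤ _ := pow_le_pow_right₀ hD1 (by norm_num)
  have hD2 : ((d : ℝ) + 1) ^ 2 ≤ ((d : ℝ) + 1) ^ 3 := pow_le_pow_right₀ hD1 (by norm_num)
  refine ⟨?_, ?_, ?_⟩
  · refine q1.trans (mul_le_mul_of_nonneg_left ?_ p1.le)
    calc (2 : ℝ) ^ 25 * ((d : ℝ) + 1) ≤ 2 ^ 25 * ((d : ℝ) + 1) ^ 3 :=
          mul_le_mul_of_nonneg_left hD3 (by positivity)
      _ ≤ 2 ^ 80 * ((d : ℝ) + 1) ^ 3 := mul_le_mul_of_nonneg_right (by norm_num) (by positivity)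
  · calc ρ ≤ ρ₁ * (2 ^ 25 * ((d : ℝ) + 1)) := q1
      _ ≤ (ρ₂ * (2 ^ 26 * ((d : ℝ) + 1))) * (2 ^ 25 * ((d : ℝ) + 1)) :=
          mul_le_mul_of_nonneg_right q2 (by positivity)
      _ = ρ₂ * (2 ^ 51 * ((d : ℝ) + 1) ^ 2) := by ring
      _ ≤ ρ₂ * (2 ^ 80 * ((d : ℝ) + 1) ^ 3) := by
          apply mul_le_mul_of_nonneg_left _ p2.le
          exact mul_le_mul (by norm_num) hD2 (by positivity) (by positivity)
  · calc ρ ≤ ρ₁ * (2 ^ 25 * ((d : ℝ) + 1)) := q1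
      _ ≤ (ρ₂ * (2 ^ 26 * ((d : ℝ) + 1))) * (2 ^ 25 * ((d : ℝ) + 1)) :=
          mul_le_mul_of_nonneg_right q2 (by positivity)
      _ ≤ ((ρ₃ * (2 ^ 25 * ((d : ℝ) + 1))) * (2 ^ 26 * ((d : ℝ) + 1))) * (2 ^ 25 * ((d : ℝ) + 1)) :=
          mul_le_mul_of_nonneg_right (mul_le_mul_of_nonneg_right q3 (by positivity)) (by positivity)
      _ = ρ₃ * (2 ^ 76 * ((d : ℝ) + 1) ^ 3) := by ring
      _ ≤ ρ₃ * (2 ^ 80 * ((d : ℝ) + 1) ^ 3) := by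
          apply mul_le_mul_of_nonneg_left _ p3.le
          exact mul_le_mul_of_nonneg_right (by norm_num) (by positivity)

end

end Vale.Agent.P057.PA

namespace Vale.Agent.P057

open Vale.Agent.P057.PA

theorem parta_proof (hREGEX : REGEX) (hBELEM : BELEM) (hBHALF : BHALF) (hAVER : AVER)
    (hAPC : APC) (hHSM : HSM) (hCSM : CSM) (hUNB : UNB) : PARTA := by
  refine ⟨2 ^ 80, by norm_num, ?_⟩
  intro G _ _ Γ ρ α A L x₀ hbij htaf hρ hρ1 hreg hL hα hαL hdens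
  have hk : 0 < kap Γ.card := kap_pos _
  have hk1 : kap Γ.card ≤ 1 / 2 ^ 24 := kap_le _
  obtain ⟨ρ₁, l1, u1, hreg1⟩ := hREGEX G Γ (kap Γ.card * ρ) (by positivity)
  have p1 : 0 < ρ₁ := lt_of_lt_of_le (by positivity) l1
  obtain ⟨ρ₂, l2, u2, hreg2⟩ := hREGEX G Γ (kap Γ.card * ρ₁ / 2) (by positivity)
  have p2 : 0 < ρ₂ := lt_of_lt_of_le (by positivity) l2
  obtain ⟨ρ₃, l3, u3, hreg3⟩ := hREGEX G Γ (kap Γ.card * ρ₂) (by positivity)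
  have p3 : 0 < ρ₃ := lt_of_lt_of_le (by positivity) l3
  obtain ⟨r1, r2, r3⟩ := rad_bound hρ l1 l2 l3
  have hcast : ((2 ^ 80 : ℕ) : ℝ) = (2 ^ 80 : ℝ) := by norm_num
  rw [hcast]
  have v1 : ρ₁ ≤ ρ := u1.trans (by nlinarith)
  have v2 : ρ₂ ≤ ρ₁ := u2.trans (by nlinarith)
  have v3 : ρ₃ ≤ ρ₂ := u3.trans (by nlinarith)
  have w2 : ρ₂ ≤ kap Γ.card * ρ := by
    have : kap Γ.card * ρ₁ ≤ kap Γ.card * ρ := mul_le_mul_of_nonneg_left v1 hk.le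
    have h0 : 0 < kap Γ.card * ρ₁ := by positivity
    linarith
  by_cases H1 : ∃ x, (1 + 1 / 500) * α * (bohr Γ ρ₁).card ≤ cnt A (bohr Γ ρ₁) x
  · obtain ⟨x, hx⟩ := H1
    exact Or.inr (Or.inl ⟨ρ₁, x, p1, by linarith, hreg1, r1, hx⟩)
  by_cases H2 : ∃ x, (1 + 1 / 500) * α * (bohr Γ ρ₂).card ≤ cnt A (bohr Γ ρ₂) x
  · obtain ⟨x, hx⟩ := H2
    exact Or.inr (Or.inl ⟨ρ₂, x, p2, by linarith, hreg2, r2, hx⟩)
  by_cases H3 : α ^ 2 * (bohr Γ ρ₁).card ≤ 16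
  · exact Or.inl ⟨ρ₁, p1, by linarith, r1, H3⟩
  push Not at H1 H2 H3
  have hBpos : (0 : ℝ) < (bohr Γ ρ).card := by exact_mod_cast card_bohr_pos hρ.le
  have hα1 : α ≤ 1 := by
    have e : (cnt A (bohr Γ ρ) x₀ : ℝ) ≤ (bohr Γ ρ).card := by exact_mod_cast cnt_le _ _ _
    by_contra hcon
    push Not at hcon
    have : (bohr Γ ρ).card < α * (bohr Γ ρ).card := by nlinarith
    linarith
  obtain ⟨x, hx1, hx2⟩ := hAVER G Γ ρ ρ₁ ρ₂ α A x₀ hρ hreg p1 u1 p2 w2 hα hdens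
    (fun x => (H1 x).le) (fun x => (H2 x).le)
  obtain ⟨Γ', c, A', a1, a2, a3, a4, a5, a6, a7, a8, a9⟩ := out3 hBELEM hBHALF hAPC hHSM hCSM hUNB
    Γ ρ₁ ρ₂ ρ₃ α A L x hbij htaf p1 hreg1 p2 hreg2 (by linarith) p3 hreg3 u3 hL hα hα1 hαL
    hx1 hx2 (fun x => (H2 x).le) H3.le
  exact Or.inr (Or.inr ⟨Γ', ρ₃, c, A', x, a1, p3, by linarith, a2, r3, a3, a4, a5, a6, a7, a8, a9⟩)

end Vale.Agent.P057
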