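import Vale.Agent.P057.PartB0

/-!
# P057: module PARTB
-/

open Finset

namespace Vale.Agent.P057.PB

open Vale.Agent.P057

noncomputable section

variable {G : Type} [AddCommGroup G] [Fintype G]

theorem eps0_val : eps0 = 1 / 4096 := by
  unfold eps0
  norm_num

theorem reg_card_le (hBELEM : BELEM) {Γ : Finset (AddChar G ℂ)} {ρ : ℝ} (hρ : 0 < ρ) (hReg : Reg Γ ρ) :
    ((bohr Γ ((1 + 2 * kap Γ.card) * ρ)).card : ℝ) ≤ 2 * (bohr Γ ρ).card := by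
  obtain ⟨_, _, hmono, _⟩ := hBELEM G Γ
  have hk := kap_pos Γ.card
  have h1 : ((bohr Γ ((1 - 2 * kap Γ.card) * ρ)).card : ℝ) ≤ (bohr Γ ρ).card := by
    have : (bohr Γ ((1 - 2 * kap Γ.card) * ρ)).card ≤ (bohr Γ ρ).card := by
      apply Finset.card_le_card
      intro x hx
      exact hmono _ _ x (by nlinarith) hx
    exact_mod_cast this
  have h2 : (0 : ℝ) ≤ (bohr Γ ρ).card := Nat.cast_nonneg _
  unfold Reg at hReg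
  rw [eps0_val] at hReg
  nlinarith

/-- numerical choice of `k`, `θ`, `ε` -/
theorem num_exp (L : ℕ) (hL : 1 ≤ L) :
    16 * Real.exp (- (1 / 10 ^ 11 : ℝ) ^ 2 * ((3 * 10 ^ 25 * L ^ 2 : ℕ) : ℝ) / 2)
      ≤ (1 / 10 ^ 11) * (1 / 2 : ℝ) ^ (1214 * L ^ 2) := by
  have hL2 : 1 ≤ L ^ 2 := Nat.one_le_pow _ _ hL
  set n := L ^ 2 with hn
  have h1 : - (1 / 10 ^ 11 : ℝ) ^ 2 * ((3 * 10 ^ 25 * n : ℕ) : ℝ) / 2 = ((1500 * n : ℕ) : ℝ) * (-1) := by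
    push_cast
    ring
  rw [h1, Real.exp_nat_mul]
  have h2 : Real.exp (-1) ≤ 1 / 2 := by
    rw [Real.exp_neg, ← one_div]
    apply one_div_le_one_div_of_le (by norm_num)
    have := Real.add_one_le_exp (1 : ℝ)
    linarith
  have h3 : Real.exp (-1) ^ (1500 * n) ≤ (1 / 2 : ℝ) ^ (1500 * n) :=
    pow_le_pow_left₀ (Real.exp_pos _).le h2 _
  have h4 : (1 / 2 : ℝ) ^ (1500 * n) = (1 / 2 : ℝ) ^ (1214 * n) * (1 / 2 : ℝ) ^ (286 * n) := by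
    rw [← pow_add]
    congr 1
    ring
  have h5 : (1 / 2 : ℝ) ^ (286 * n) ≤ (1 / 2 : ℝ) ^ 200 :=
    pow_le_pow_of_le_one (by norm_num) (by norm_num) (by omega)
  have h6 : 16 * (1 / 2 : ℝ) ^ 200 ≤ 1 / 10 ^ 11 := by norm_num
  have h7 : (0 : ℝ) < (1 / 2 : ℝ) ^ (1214 * n) := by positivity
  calc 16 * Real.exp (-1) ^ (1500 * n) ≤ 16 * ((1 / 2 : ℝ) ^ (1214 * n) * (1 / 2 : ℝ) ^ (286 * n)) := by
        rw [← h4]
        linarith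
    _ ≤ 16 * ((1 / 2 : ℝ) ^ (1214 * n) * (1 / 2 : ℝ) ^ 200) := by
        have := mul_le_mul_of_nonneg_left h5 h7.le
        linarith
    _ = (16 * (1 / 2 : ℝ) ^ 200) * (1 / 2 : ℝ) ^ (1214 * n) := by ring
    _ ≤ _ := mul_le_mul_of_nonneg_right h6 h7.le

/-- numerical bound for the density of the sifted set -/
theorem num_theta (L q : ℕ) (x : ℝ) (hL : 1 ≤ L) (hq : q ≤ 400 * (2 * L + 1) + L) (hx1 : 1 ≤ x) (hx : x ≤ 2 ^ L) :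
    (1 / 2 : ℝ) ^ (1214 * L ^ 2) ≤ 1 / 4000 * (1 / x) ^ (q + 1) := by
  have hL2 : 1 ≤ L ^ 2 := Nat.one_le_pow _ _ hL
  have h1 : (1 / 2 : ℝ) ^ L ≤ 1 / x := by
    rw [one_div_pow]
    exact one_div_le_one_div_of_le (by linarith) hx
  have h2 : ((1 / 2 : ℝ) ^ L) ^ (q + 1) ≤ (1 / x) ^ (q + 1) := pow_le_pow_left₀ (by positivity) h1 _
  have h3 : L * (q + 1) ≤ 1202 * L ^ 2 := by nlinarith
  have h4 : (1 / 2 : ℝ) ^ (1202 * L ^ 2) ≤ (1 / 2 : ℝ) ^ (L * (q + 1)) :=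
    pow_le_pow_of_le_one (by norm_num) (by norm_num) h3
  have h5 : (1 / 2 : ℝ) ^ (12 * L ^ 2) ≤ (1 / 2 : ℝ) ^ 12 :=
    pow_le_pow_of_le_one (by norm_num) (by norm_num) (by omega)
  have h6 : (1 / 2 : ℝ) ^ 12 ≤ 1 / 4000 := by norm_num
  have h7 : (1 / 2 : ℝ) ^ (1214 * L ^ 2) = (1 / 2 : ℝ) ^ (12 * L ^ 2) * (1 / 2 : ℝ) ^ (1202 * L ^ 2) := by
    rw [← pow_add]
    congr 1
    ring
  rw [h7]
  apply mul_le_mul (h5.trans h6) _ (by positivity) (by norm_num)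
  rw [← pow_mul] at h2
  exact h4.trans h2

theorem num_ell (L : ℕ) (hL : 1 ≤ L) :
    8 * (((3 * 10 ^ 25 * L ^ 2) * (1214 * L ^ 2 + 1) + 1 : ℕ) : ℝ) + 12 < ((10 ^ 30 * L ^ 4 : ℕ) : ℝ) := by
  have hL2 : 1 ≤ L ^ 2 := Nat.one_le_pow _ _ hL
  have h4 : L ^ 4 = (L ^ 2) ^ 2 := by ring
  rw [h4]
  set n := L ^ 2 with hn
  have h : 8 * ((3 * 10 ^ 25 * n) * (1214 * n + 1) + 1) + 12 < 10 ^ 30 * n ^ 2 := by nlinarith
  exact_mod_cast h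

/-- the concentration of the Fourier weights on the large spectrum -/
theorem conc (w : AddChar G ℂ → ℝ) (hw : ∀ ψ, 0 ≤ w ψ) (T D₆ : Finset G) (hT : T.Nonempty) (hD₆ : D₆.Nonempty)
    (Φ : ℝ) (hΦ : Φ = ∑ ψ, w ψ) (h1 : (1 - 3 / 1000) * Φ ≤ ∑ ψ, w ψ * (‖∑ x ∈ T, ψ x‖ / T.card) ^ 2)
    (h2 : ∀ ψ, Lg T ψ → ∀ x ∈ D₆, ‖ψ x - 1‖ ≤ 1 / 1000) :
    0.994 * Φ ≤ ∑ ψ, w ψ * (‖∑ x ∈ D₆, ψ x‖ / D₆.card) ^ 2 := by
  classical
  have hTc : (0 : ℝ) < T.card := by exact_mod_cast hT.card_pos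
  have hDc : (0 : ℝ) < D₆.card := by exact_mod_cast hD₆.card_pos
  have hΦ0 : 0 ≤ Φ := by
    rw [hΦ]
    exact Finset.sum_nonneg (fun ψ _ => hw ψ)
  -- termwise inequality
  have key : ∀ ψ, 0.998 * (w ψ - 4 / 3 * (w ψ - w ψ * (‖∑ x ∈ T, ψ x‖ / T.card) ^ 2))
      ≤ w ψ * (‖∑ x ∈ D₆, ψ x‖ / D₆.card) ^ 2 := by
    intro ψ
    have hT1 : ‖∑ x ∈ T, ψ x‖ / T.card ≤ 1 := by
      rw [div_le_one hTc]
      exact sum_norm_le T ψ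
    have hT0 : 0 ≤ ‖∑ x ∈ T, ψ x‖ / T.card := by positivity
    have hT2 : (‖∑ x ∈ T, ψ x‖ / T.card) ^ 2 ≤ 1 := by nlinarith
    by_cases hψ : Lg T ψ
    · have h3 : (1 - 1 / 1000) * (D₆.card : ℝ) ≤ ‖∑ x ∈ D₆, ψ x‖ := sum_norm_ge D₆ ψ _ (h2 ψ hψ)
      have h4 : (1 - 1 / 1000 : ℝ) ≤ ‖∑ x ∈ D₆, ψ x‖ / D₆.card := by
        rw [le_div_iff₀ hDc]
        exact h3
      have h5 : (0.998 : ℝ) ≤ (‖∑ x ∈ D₆, ψ x‖ / D₆.card) ^ 2 := by nlinarith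
      have h6 : 0.998 * w ψ ≤ w ψ * (‖∑ x ∈ D₆, ψ x‖ / D₆.card) ^ 2 := by
        rw [mul_comm]
        exact mul_le_mul_of_nonneg_left h5 (hw ψ)
      have h7 : w ψ * (‖∑ x ∈ T, ψ x‖ / T.card) ^ 2 ≤ w ψ := by
        have := mul_le_mul_of_nonneg_left hT2 (hw ψ)
        linarith
      linarith
    · have h3 : ‖∑ x ∈ T, ψ x‖ / T.card ≤ 1 / 2 := by
        unfold Lg at hψ
        rw [div_le_iff₀ hTc]
        linarith [not_le.mp hψ]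
      have h4 : (‖∑ x ∈ T, ψ x‖ / T.card) ^ 2 ≤ 1 / 4 := by nlinarith
      have h5 : w ψ * (‖∑ x ∈ T, ψ x‖ / T.card) ^ 2 ≤ w ψ * (1 / 4) := mul_le_mul_of_nonneg_left h4 (hw ψ)
      have h6 : 0 ≤ w ψ * (‖∑ x ∈ D₆, ψ x‖ / D₆.card) ^ 2 := mul_nonneg (hw ψ) (sq_nonneg _)
      linarith
  have hsum := Finset.sum_le_sum (fun ψ (_ : ψ ∈ univ) => key ψ)
  rw [← Finset.mul_sum, Finset.sum_sub_distrib, ← Finset.mul_sum, Finset.sum_sub_distrib, ← hΦ] at hsum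
  linarith

/-- the truncated function -/
def trunc (g : G → ℝ) (H : ℝ) (x : G) : ℝ := if g x ≤ H then g x else 0

theorem trunc_nonneg {g : G → ℝ} (hg : ∀ x, 0 ≤ g x) {H : ℝ} (hH : 0 ≤ H) (x : G) : 0 ≤ trunc g H x ∧ trunc g H x ≤ H := by
  unfold trunc
  split_ifs with hx
  · exact ⟨hg x, hx⟩
  · exact ⟨le_refl _, hH⟩

theorem trunc_le {g : G → ℝ} (hg : ∀ x, 0 ≤ g x) (H : ℝ) (x : G) : trunc g H x ≤ g x := by
  unfold trunc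
  split_ifs with hx
  · exact le_refl _
  · exact hg x

theorem trunc_split (a : Finset G) (g : G → ℝ) (H : ℝ) :
    avd a g = avd a (trunc g H) + avd a (fun x => if g x ≤ H then 0 else g x) := by
  rw [← avd_add]
  congr 1
  funext x
  unfold trunc
  split_ifs <;> simp

theorem step1 (hQSEL : QSEL) (hSIFT : SIFT) (D A : Finset G) (c : ℝ) (L : ℕ) (hDne : D.Nonempty) (hA : A.Nonempty)
    (hc : 0 < c) (hL : 1 ≤ L) (hcA1 : 1 ≤ c * A.card) (hcA2 : c * A.card ≤ 2 ^ L)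
    (hmom : (65 / 64 : ℝ) ^ (400 * (2 * L + 1)) ≤ avd D (fun x => (c * rep A x) ^ (400 * (2 * L + 1)))) :
    ∃ (a : Finset G) (W : ℝ), a ⊆ D ∧ a.Nonempty ∧ 65 / 64 ≤ W ∧ (1 / 2 : ℝ) ^ (1214 * L ^ 2) * D.card ≤ a.card ∧
      (1 - 1 / 1000) * W ≤ avd a (fun x => c * rep A x) ∧
      (1 - 1 / 1000) * avd a (fun x => c * rep A x) ≤ avd a (trunc (fun x => c * rep A x) (4000000 * W)) := by
  have hDc : (0 : ℝ) < D.card := by exact_mod_cast hDne.card_pos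
  set g : G → ℝ := fun x => c * rep A x with hg
  have hg0 : ∀ x, 0 ≤ g x := fun x => mul_nonneg hc.le (Nat.cast_nonneg _)
  have hgM : ∀ x, g x ≤ c * A.card := by
    intro x
    apply mul_le_mul_of_nonneg_left _ hc.le
    exact_mod_cast rep_le A x
  have hgz : 0 < g 0 := by
    simp only [hg]
    rw [rep_zero]
    linarith
  obtain ⟨q, hq1, hq2, hq3, hq4, hq5⟩ := hQSEL (fun j => avd D (fun x => g x ^ j)) (400 * (2 * L + 1)) L (c * A.card)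
    (by
      have : (fun x : G => g x ^ 0) = fun _ => (1 : ℝ) := by
        funext x
        simp
      rw [this]
      exact avd_one hDne)
    (fun j => mom_pos hDne g hg0 hgz j)
    (fun j => mom_convex D g hg0 j)
    (fun j => mom_step D g _ hg0 hgM j)
    hcA2 (by omega) hmom
  set m0 := avd D (fun x => g x ^ q) with hm0
  set m1 := avd D (fun x => g x ^ (q + 1)) with hm1
  set m2 := avd D (fun x => g x ^ (q + 2)) with hm2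
  have hm0p : 0 < m0 := by linarith
  have hW1 : 65 / 64 ≤ m1 / m0 := by
    rw [le_div_iff₀ hm0p]
    exact hq4
  have hWm : m1 = (m1 / m0) * m0 := by
    field_simp
  have hWm2 : m2 ≤ 2 * (m1 / m0) ^ 2 * m0 := by
    have h1 : m2 * m0 ≤ (2 * (m1 / m0) ^ 2 * m0) * m0 := by
      calc m2 * m0 ≤ 2 * m1 ^ 2 := hq5
        _ = (2 * (m1 / m0) ^ 2 * m0) * m0 := by
          field_simp
    exact le_of_mul_le_mul_right h1 hm0p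
  obtain ⟨a, haD, hane, hac, haW, hatail⟩ := hSIFT G A D c (m1 / m0) q hA hDne hc (by linarith) hcA1 hq3 hWm hWm2
  refine ⟨a, m1 / m0, haD, hane, hW1, ?_, haW, ?_⟩
  · refine le_trans ?_ hac
    apply mul_le_mul_of_nonneg_right _ hDc.le
    exact num_theta L q (c * A.card) hL hq2 hcA1 hcA2
  · have h2 := trunc_split a g (4000000 * (m1 / m0))
    have h1 : avd a (fun x => if g x ≤ 4000000 * (m1 / m0) then 0 else g x) ≤ 1 / 1000 * avd a g := hatail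
    linarith

theorem step2 (hCROOT : CROOT) (a D D₄ Y : Finset G) (g : G → ℝ) (hg0 : ∀ x, 0 ≤ g x) (W : ℝ) (L : ℕ) (hL : 1 ≤ L)
    (hane : a.Nonempty) (haD : a ⊆ D) (hD4ne : D₄.Nonempty) (hW1 : 65 / 64 ≤ W)
    (hθD : (1 / 2 : ℝ) ^ (1214 * L ^ 2) * D.card ≤ a.card) (hYc : (Y.card : ℝ) ≤ 2 * D.card)
    (hPhiW : (1 - 1 / 1000) * W ≤ avd a g)
    (hPhi_h : (1 - 1 / 1000) * avd a g ≤ avd a (trunc g (4000000 * W)))
    (h1 : ∀ x ∈ D, ∀ t ∈ D₄, x + t ∈ Y) (h2 : ∀ x ∈ D, ∀ t ∈ D₄, ∀ t' ∈ D₄, x + t - t' ∈ Y) (h3 : D ⊆ Y) :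
    ∃ T : Finset G, T ⊆ D₄ ∧ T.Nonempty ∧
      (D₄.card : ℝ) ≤ Real.exp (((3 * 10 ^ 25 * L ^ 2) * (1214 * L ^ 2 + 1) + 1 : ℕ) : ℝ) * T.card ∧
      ∀ t ∈ T, ∀ t' ∈ T, (1 - 3 / 1000) * avd a g ≤ avd a (fun x => g (x + (t - t'))) := by
  have hHp : 0 < 4000000 * W := by linarith
  have hL2 : 1 ≤ L ^ 2 := Nat.one_le_pow _ _ hL
  obtain ⟨T, hTD, hTne, hTc, hTt⟩ := hCROOT G a D D₄ Y (trunc g (4000000 * W)) (4000000 * W) (1 / 10 ^ 11)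
    ((1 / 2 : ℝ) ^ (1214 * L ^ 2)) (3 * 10 ^ 25 * L ^ 2) hane haD hD4ne hHp (by norm_num) (by positivity)
    (pow_le_one₀ (by norm_num) (by norm_num)) (by nlinarith)
    (trunc_nonneg hg0 hHp.le) hθD hYc h1 h2 h3 (num_exp L hL)
  refine ⟨T, hTD, hTne, ?_, ?_⟩
  · have hTcp : (0 : ℝ) < T.card := by exact_mod_cast hTne.card_pos
    have e1 : (1 / 2 : ℝ) * ((1 / 2 : ℝ) ^ (1214 * L ^ 2) / 2) ^ (3 * 10 ^ 25 * L ^ 2)
        = (1 / 2 : ℝ) ^ ((3 * 10 ^ 25 * L ^ 2) * (1214 * L ^ 2 + 1) + 1) := by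
      have : (1 / 2 : ℝ) ^ (1214 * L ^ 2) / 2 = (1 / 2 : ℝ) ^ (1214 * L ^ 2 + 1) := by
        rw [pow_succ]
        ring
      rw [this, ← pow_mul, ← pow_succ']
      congr 2
      ring
    rw [e1] at hTc
    have e2 : (2 : ℝ) ^ ((3 * 10 ^ 25 * L ^ 2) * (1214 * L ^ 2 + 1) + 1)
        ≤ Real.exp (((3 * 10 ^ 25 * L ^ 2) * (1214 * L ^ 2 + 1) + 1 : ℕ) : ℝ) := by
      have e3 : (2 : ℝ) ≤ Real.exp 1 := by
        have := Real.add_one_le_exp (1 : ℝ)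
        linarith
      have e4 : Real.exp (((3 * 10 ^ 25 * L ^ 2) * (1214 * L ^ 2 + 1) + 1 : ℕ) : ℝ)
          = (Real.exp 1) ^ ((3 * 10 ^ 25 * L ^ 2) * (1214 * L ^ 2 + 1) + 1) := by
        rw [← Real.exp_nat_mul, mul_one]
      rw [e4]
      exact pow_le_pow_left₀ (by norm_num) e3 _
    have e5 : (1 / 2 : ℝ) ^ ((3 * 10 ^ 25 * L ^ 2) * (1214 * L ^ 2 + 1) + 1)
        = 1 / (2 : ℝ) ^ ((3 * 10 ^ 25 * L ^ 2) * (1214 * L ^ 2 + 1) + 1) := one_div_pow _ _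
    rw [e5, one_div, inv_mul_le_iff₀ (by positivity)] at hTc
    refine hTc.trans ?_
    exact mul_le_mul_of_nonneg_right e2 hTcp.le
  · intro t ht t' ht'
    have e1 := hTt t ht t' ht'
    have e2 : avd a (fun x => trunc g (4000000 * W) (x + (t - t'))) ≤ avd a (fun x => g (x + (t - t'))) :=
      avd_mono a (fun x => trunc_le hg0 _ _)
    norm_num at e1 hPhiW hPhi_h ⊢
    linarith

theorem step3 (hBELEM : BELEM) (hREGEX : REGEX) (hGTRIV : GTRIV) (Γ Λ : Finset (AddChar G ℂ)) (ρ₅ : ℝ) (n : ℕ)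
    (T : Finset G) (hρ5 : 0 < ρ₅) (hReg5 : Reg Γ ρ₅) (hn1 : 1 ≤ n) (hΛc : Λ.card ≤ n)
    (hΛs : ∀ ψ : AddChar G ℂ, Lg T ψ → ∃ m : AddChar G ℂ → ℤ, (∀ χ, |m χ| ≤ 1) ∧ Lg (bohr Γ ρ₅) (ψ * pch Λ m)) :
    ∃ (Γ' : Finset (AddChar G ℂ)) (ρ₆ : ℝ), Γ'.card ≤ Γ.card + n ∧ 0 < ρ₆ ∧ ρ₆ ≤ 1 ∧ Reg Γ' ρ₆ ∧
      (bohr Γ' ρ₆).Nonempty ∧ min (kap Γ.card * ρ₅) (1 / (2 ^ 12 * n)) / 2 ≤ ρ₆ ∧
      ∀ ψ, Lg T ψ → ∀ x ∈ bohr Γ' ρ₆, ‖ψ x - 1‖ ≤ 1 / 1000 := by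
  classical
  have hκ0 := kap_pos Γ.card
  have hn : (1 : ℝ) ≤ n := by exact_mod_cast hn1
  have hnp : (0 : ℝ) < n := by linarith
  set r := min (kap Γ.card * ρ₅) (1 / (2 ^ 12 * (n : ℝ))) with hr
  have hr0 : 0 < r := by
    rw [hr]
    apply lt_min <;> positivity
  obtain ⟨ρ₆, hρ61, hρ62, hReg6⟩ := hREGEX G (Γ ∪ Λ) r hr0
  have hρ6 : 0 < ρ₆ := by linarith
  have hD6mem : ∀ x ∈ bohr (Γ ∪ Λ) ρ₆, x ∈ bohr Γ (kap Γ.card * ρ₅) ∧ ∀ χ ∈ Λ, ‖χ x - 1‖ ≤ 1 / (2 ^ 12 * (n : ℝ)) := by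
    intro x hx
    simp only [bohr, mem_filter, mem_univ, true_and, mem_union] at hx
    constructor
    · simp only [bohr, mem_filter, mem_univ, true_and]
      intro ψ hψ
      exact (hx ψ (Or.inl hψ)).trans (hρ62.trans (min_le_left _ _))
    · intro χ hχ
      exact (hx χ (Or.inr hχ)).trans (hρ62.trans (min_le_right _ _))
  refine ⟨Γ ∪ Λ, ρ₆, ?_, hρ6, ?_, hReg6, ⟨0, (hBELEM G (Γ ∪ Λ)).1 ρ₆ hρ6.le⟩, hρ61, ?_⟩
  · calc (Γ ∪ Λ).card ≤ Γ.card + Λ.card := Finset.card_union_le _ _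
      _ ≤ Γ.card + n := by omega
  · have h1 : r ≤ 1 := by
      refine (min_le_right _ _).trans ?_
      rw [div_le_one (by positivity)]
      nlinarith
    linarith
  · intro ψ hψ x hx
    obtain ⟨m, hm1, hm2⟩ := hΛs ψ hψ
    obtain ⟨hx1, hx2⟩ := hD6mem x hx
    have h1 := hGTRIV G Γ ρ₅ (ψ * pch Λ m) hρ5 hReg5 hm2 x hx1
    have h2 : ‖pch Λ m x - 1‖ ≤ 1 / 2 ^ 12 := by
      refine (pch_sub_one Λ m hm1 x).trans ?_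
      refine (Finset.sum_le_sum hx2).trans ?_
      rw [Finset.sum_const, nsmul_eq_mul]
      have h3 : (Λ.card : ℝ) ≤ n := by exact_mod_cast hΛc
      calc (Λ.card : ℝ) * (1 / (2 ^ 12 * n)) ≤ n * (1 / (2 ^ 12 * n)) :=
            mul_le_mul_of_nonneg_right h3 (by positivity)
        _ = 1 / 2 ^ 12 := by field_simp
    have h4 := close_of_mul h1 h2
    rw [eps0_val] at h4
    norm_num at h4 ⊢
    linarith

theorem radius (d : ℕ) (n ρ ρ₄ ρ₅ ρ₆ : ℝ) (hn : 1 ≤ n) (hρ : 0 < ρ) (hρ1 : ρ ≤ 1)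
    (h4 : kap d * ρ / 2 / 2 ≤ ρ₄) (h5 : kap d * ρ₄ / n / 2 ≤ ρ₅) (h6 : min (kap d * ρ₅) (1 / (2 ^ 12 * n)) / 2 ≤ ρ₆) :
    ρ ≤ ρ₆ * (16 * n * (2 ^ 24 * ((d : ℝ) + 1)) ^ 3) := by
  have hki := kap_inv d
  have hκ0 := kap_pos d
  have hκ1 := kap_le d
  set κ := kap d with hκ
  set e : ℝ := 2 ^ 24 * ((d : ℝ) + 1) with he
  have he0 : 0 < e := by
    rw [he]
    positivity
  have hnp : 0 < n := by linarith
  have hκe : κ = 1 / e := by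
    field_simp
    linarith
  have h1 : κ ^ 3 * ρ / (8 * n) ≤ min (κ * ρ₅) (1 / (2 ^ 12 * n)) := by
    apply le_min
    · calc κ ^ 3 * ρ / (8 * n) = κ * (κ * (κ * ρ / 2 / 2) / n / 2) := by
            field_simp
            norm_num
        _ ≤ κ * (κ * ρ₄ / n / 2) := by gcongr
        _ ≤ κ * ρ₅ := by gcongr
    · have h2 : κ ^ 3 * ρ / 8 ≤ 1 / 2 ^ 12 := by
        have h3 : κ ^ 3 ≤ (1 / 2 ^ 24) ^ 3 := pow_le_pow_left₀ hκ0.le hκ1 3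
        have h4 : κ ^ 3 * ρ ≤ (1 / 2 ^ 24) ^ 3 * 1 := mul_le_mul h3 hρ1 hρ.le (by positivity)
        norm_num at h4 ⊢
        linarith
      calc κ ^ 3 * ρ / (8 * n) = (κ ^ 3 * ρ / 8) / n := by field_simp
        _ ≤ (1 / 2 ^ 12) / n := by gcongr
        _ = 1 / (2 ^ 12 * n) := by field_simp
  have h2 : κ ^ 3 * ρ / (16 * n) ≤ ρ₆ := by
    have h3 : κ ^ 3 * ρ / (16 * n) = (κ ^ 3 * ρ / (8 * n)) / 2 := by
      field_simp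
      norm_num
    rw [h3]
    linarith
  have h4 : κ ^ 3 * ρ / (16 * n) * (16 * n * e ^ 3) = ρ := by
    rw [hκe]
    field_simp
  calc ρ = κ ^ 3 * ρ / (16 * n) * (16 * n * e ^ 3) := h4.symm
    _ ≤ _ := mul_le_mul_of_nonneg_right h2 (by positivity)

theorem step4 (hSPAN : SPAN) (hREGEX : REGEX) (hBELEM : BELEM) (Γ : Finset (AddChar G ℂ)) (ρ₄ : ℝ) (L : ℕ) (T : Finset G)
    (hL : 1 ≤ L) (hρ4 : 0 < ρ₄) (hReg4 : Reg Γ ρ₄) (hTne : T.Nonempty) (hTD : T ⊆ bohr Γ ρ₄)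
    (hD4T : ((bohr Γ ρ₄).card : ℝ) ≤ Real.exp (((3 * 10 ^ 25 * L ^ 2) * (1214 * L ^ 2 + 1) + 1 : ℕ) : ℝ) * T.card) :
    ∃ (ρ₅ : ℝ) (Λ : Finset (AddChar G ℂ)), kap Γ.card * ρ₄ / ((10 ^ 30 * L ^ 4 : ℕ) : ℝ) / 2 ≤ ρ₅ ∧ 0 < ρ₅ ∧ Reg Γ ρ₅ ∧
      Λ.card ≤ 10 ^ 30 * L ^ 4 ∧
      ∀ ψ : AddChar G ℂ, Lg T ψ → ∃ m : AddChar G ℂ → ℤ, (∀ χ, |m χ| ≤ 1) ∧ Lg (bohr Γ ρ₅) (ψ * pch Λ m) := by
  obtain ⟨hz, hneg, hmono, hadd, hsub, hsum⟩ := hBELEM G Γ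
  have hκ0 := kap_pos Γ.card
  have hnp : 0 < 10 ^ 30 * L ^ 4 := by positivity
  have hell := num_ell L hL
  generalize ((3 * 10 ^ 25 * L ^ 2) * (1214 * L ^ 2 + 1) + 1) = ell at hD4T hell
  generalize (10 ^ 30 * L ^ 4) = n at hnp hell ⊢
  have hnr : (0 : ℝ) < n := by exact_mod_cast hnp
  obtain ⟨ρ₅, hρ51, hρ52, hReg5⟩ := hREGEX G Γ (kap Γ.card * ρ₄ / n) (by positivity)
  have hρ5 : 0 < ρ₅ := by
    have : 0 < kap Γ.card * ρ₄ / n := by positivity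
    linarith
  obtain ⟨Λ, hΛc, hΛT, hΛs⟩ := hSPAN G T (bohr Γ ρ₄) (bohr Γ ((1 + 2 * kap Γ.card) * ρ₄)) (bohr Γ ρ₅) ell n hTne hTD
    ⟨0, hz ρ₅ hρ5.le⟩ (fun x hx => hneg _ _ hx) (Nat.cast_nonneg _) hD4T (reg_card_le hBELEM hρ4 hReg4)
    (by
      intro j hj x hx y hy
      have h1 := hsum ρ₅ j y hy
      apply hmono (ρ₄ + j * ρ₅) _ _ _ (hsub _ _ _ _ hx h1)
      have h2 : (j : ℝ) * ρ₅ ≤ n * (kap Γ.card * ρ₄ / n) := by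
        apply mul_le_mul _ hρ52 hρ5.le hnr.le
        exact_mod_cast hj
      have h3 : (n : ℝ) * (kap Γ.card * ρ₄ / n) = kap Γ.card * ρ₄ := by field_simp
      nlinarith)
    hell
  exact ⟨ρ₅, Λ, hρ51, hρ5, hReg5, hΛc, hΛs⟩

theorem step5 (hFREP : FREP) (hFAVG : FAVG) (hFINI : FINI) (a A T D₆ : Finset G) (c W : ℝ) (hane : a.Nonempty)
    (hA : A.Nonempty) (hTne : T.Nonempty) (hD6ne : D₆.Nonempty) (hc : 0 < c) (hW1 : 65 / 64 ≤ W)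
    (hPhiW : (1 - 1 / 1000) * W ≤ avd a (fun x => c * rep A x))
    (hTt : ∀ t ∈ T, ∀ t' ∈ T, (1 - 3 / 1000) * avd a (fun x => c * rep A x) ≤ avd a (fun x => c * rep A (x + (t - t'))))
    (hclose : ∀ ψ, Lg T ψ → ∀ x ∈ D₆, ‖ψ x - 1‖ ≤ 1 / 1000) :
    ∃ y : G, (1008 / 1000) * (D₆.card : ℝ) ≤ c * A.card * cnt A D₆ y := by
  obtain ⟨w, hw0, hw⟩ := hFREP G a A c hane hc
  have hPhi : avd a (fun x => c * rep A x) = ∑ ψ, w ψ := by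
    have := hw 0
    simp only [add_zero, AddChar.map_zero_eq_one, Complex.one_re, mul_one] at this
    exact this
  have hTcp : (0 : ℝ) < T.card := by exact_mod_cast hTne.card_pos
  have hFav := hFAVG G w T hTne
  have hconc1 : (1 - 3 / 1000) * avd a (fun x => c * rep A x) ≤ ∑ ψ, w ψ * (‖∑ x ∈ T, ψ x‖ / T.card) ^ 2 := by
    rw [← hFav, le_div_iff₀ (by positivity)]
    calc (1 - 3 / 1000) * avd a (fun x => c * rep A x) * (T.card : ℝ) ^ 2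
        = ∑ t ∈ T, ∑ t' ∈ T, (1 - 3 / 1000) * avd a (fun x => c * rep A x) := by
          simp only [Finset.sum_const, nsmul_eq_mul]
          ring
      _ ≤ _ := Finset.sum_le_sum (fun t ht => Finset.sum_le_sum (fun t' ht' => by
          rw [← hw (t - t')]
          exact hTt t ht t' ht'))
  have hfin := conc w hw0 T D₆ hTne hD6ne _ hPhi hconc1 hclose
  obtain ⟨y, hy⟩ := hFINI G a A D₆ c (1008 / 1000) hane hA hD6ne hc (by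
    have h1 : ∑ t ∈ D₆, ∑ t' ∈ D₆, avd a (fun x => c * rep A (x + (t - t')))
        = ∑ t ∈ D₆, ∑ t' ∈ D₆, ∑ ψ, w ψ * (ψ (t - t')).re :=
      Finset.sum_congr rfl (fun t _ => Finset.sum_congr rfl (fun t' _ => hw _))
    rw [h1, hFAVG G w D₆ hD6ne]
    refine le_trans ?_ hfin
    norm_num at hPhiW ⊢
    linarith)
  exact ⟨y, hy⟩

theorem partb_proof (hQSEL : QSEL) (hSIFT : SIFT) (hCROOT : CROOT) (hFREP : FREP) (hFAVG : FAVG)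
    (hSPAN : SPAN) (hGTRIV : GTRIV) (hFINI : FINI) (hREGEX : REGEX) (hBELEM : BELEM) : PARTB := by
  refine ⟨16 * 10 ^ 30 * 2 ^ 72, by norm_num, ?_⟩
  intro G _ _ Γ ρ c A L hρ hρ1 hReg hA hc hL hcA1 hcA2 hmom
  obtain ⟨hz, hneg, hmono, hadd, hsub, hsum⟩ := hBELEM G Γ
  have hκ0 : 0 < kap Γ.card := kap_pos _
  have hDne : (bohr Γ ρ).Nonempty := ⟨0, hz ρ hρ.le⟩
  obtain ⟨a, W, haD, hane, hW1, hθD, hPhiW, hPhi_h⟩ := step1 hQSEL hSIFT (bohr Γ ρ) A c L hDne hA hc hL hcA1 hcA2 hmom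
  have hκρ : 0 < kap Γ.card * ρ := by positivity
  obtain ⟨ρ₄, hρ41, hρ42, hReg4⟩ := hREGEX G Γ (kap Γ.card * ρ / 2) (by positivity)
  have hρ4 : 0 < ρ₄ := by linarith
  obtain ⟨T, hTD, hTne, hD4T, hTt⟩ := step2 hCROOT a (bohr Γ ρ) (bohr Γ ρ₄) (bohr Γ ((1 + 2 * kap Γ.card) * ρ))
    (fun x => c * rep A x) (fun x => mul_nonneg hc.le (Nat.cast_nonneg _)) W L hL hane haD ⟨0, hz ρ₄ hρ4.le⟩ hW1 hθD
    (reg_card_le hBELEM hρ hReg) hPhiW hPhi_h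
    (by
      intro x hx t ht
      apply hmono (ρ + ρ₄) _ _ _ (hadd _ _ _ _ hx ht)
      nlinarith)
    (by
      intro x hx t ht t' ht'
      apply hmono (ρ + ρ₄ + ρ₄) _ _ _ (hsub _ _ _ _ (hadd _ _ _ _ hx ht) ht')
      nlinarith)
    (by
      intro x hx
      exact hmono ρ _ _ (by nlinarith) hx)
  obtain ⟨ρ₅, Λ, hρ51, hρ5, hReg5, hΛc, hΛs⟩ := step4 hSPAN hREGEX hBELEM Γ ρ₄ L T hL hρ4 hReg4 hTne hTD hD4T
  have hn1 : 1 ≤ 10 ^ 30 * L ^ 4 := Nat.succ_le_of_lt (by positivity)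
  obtain ⟨Γ', ρ₆, hΓ', hρ6, hρ6', hReg6, hD6ne, hρ61, hclose⟩ :=
    step3 hBELEM hREGEX hGTRIV Γ Λ ρ₅ (10 ^ 30 * L ^ 4) T hρ5 hReg5 hn1 hΛc hΛs
  obtain ⟨y, hy⟩ := step5 hFREP hFAVG hFINI a A T (bohr Γ' ρ₆) c W hane hA hTne hD6ne hc hW1 hPhiW hTt hclose
  refine ⟨Γ', ρ₆, y, hρ6, hρ6', hReg6, ?_, ?_, hy⟩
  · refine hΓ'.trans ?_
    have : 10 ^ 30 * L ^ 4 ≤ 16 * 10 ^ 30 * 2 ^ 72 * L ^ 4 := by
      apply Nat.mul_le_mul_right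
      norm_num
    omega
  · have h1 := radius Γ.card ((10 ^ 30 * L ^ 4 : ℕ) : ℝ) ρ ρ₄ ρ₅ ρ₆ (by exact_mod_cast hn1) hρ hρ1 hρ41 hρ51 hρ61
    refine h1.trans (le_of_eq ?_)
    push_cast
    ring

end

end Vale.Agent.P057.PB
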