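import Vale.Agent.P057.Mods

/-!
# P057: helper lemmas for PARTB
-/

open Finset

namespace Vale.Agent.P057.PB

open Vale.Agent.P057

noncomputable section

variable {G : Type} [AddCommGroup G] [Fintype G]

theorem kap_pos (d : ℕ) : 0 < kap d := by
  unfold kap
  positivity

theorem kap_le (d : ℕ) : kap d ≤ 1 / 2 ^ 24 := by
  unfold kap
  apply one_div_le_one_div_of_le (by positivity)
  have : (0 : ℝ) ≤ d := Nat.cast_nonneg d
  nlinarith

theorem kap_inv (d : ℕ) : kap d * (2 ^ 24 * ((d : ℝ) + 1)) = 1 := by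
  unfold kap
  have : (2 ^ 24 * ((d : ℝ) + 1)) ≠ 0 := by positivity
  field_simp

theorem avd_prod (D : Finset G) (h : G → ℝ) :
    avd D h = (∑ q ∈ D ×ˢ D, h (q.1 - q.2)) / (D.card : ℝ) ^ 2 := by
  unfold avd
  rw [Finset.sum_product]

theorem avd_mono (D : Finset G) {f g : G → ℝ} (h : ∀ x, f x ≤ g x) : avd D f ≤ avd D g := by
  unfold avd
  apply div_le_div_of_nonneg_right _ (by positivity)
  exact Finset.sum_le_sum (fun b _ => Finset.sum_le_sum (fun b' _ => h _))

theorem avd_add (D : Finset G) (f g : G → ℝ) : avd D (fun x => f x + g x) = avd D f + avd D g := by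
  unfold avd
  rw [← add_div]
  congr 1
  rw [← Finset.sum_add_distrib]
  apply Finset.sum_congr rfl
  intro b _
  rw [← Finset.sum_add_distrib]

theorem avd_mul (D : Finset G) (c : ℝ) (f : G → ℝ) : avd D (fun x => c * f x) = c * avd D f := by
  unfold avd
  rw [← mul_div_assoc]
  congr 1
  rw [Finset.mul_sum]
  apply Finset.sum_congr rfl
  intro b _
  rw [Finset.mul_sum]

theorem avd_one {D : Finset G} (hD : D.Nonempty) : avd D (fun _ => (1 : ℝ)) = 1 := by
  unfold avd
  have h : (D.card : ℝ) ≠ 0 := by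
    have := hD.card_pos
    positivity
  simp only [Finset.sum_const, nsmul_eq_mul, mul_one]
  field_simp

theorem avd_nonneg (D : Finset G) {f : G → ℝ} (h : ∀ x, 0 ≤ f x) : 0 ≤ avd D f := by
  unfold avd
  apply div_nonneg _ (by positivity)
  exact Finset.sum_nonneg (fun b _ => Finset.sum_nonneg (fun b' _ => h _))

theorem rep_le (A : Finset G) (x : G) : rep A x ≤ A.card := by
  classical
  unfold rep
  apply Finset.card_le_card_of_injOn (fun q => q.1)
  · intro q hq
    simp only [coe_filter, mem_product, Set.mem_setOf_eq] at hq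
    exact hq.1.1
  · intro q hq q' hq' h
    simp only [coe_filter, mem_product, Set.mem_setOf_eq] at hq hq'
    have h1 : q.1 = q'.1 := h
    have h2 : q.2 = q'.2 := by
      have e1 := hq.2
      have e2 := hq'.2
      rw [← e2, h1] at e1
      exact sub_right_injective e1
    exact Prod.ext h1 h2

theorem rep_zero (A : Finset G) : rep A 0 = A.card := by
  classical
  apply le_antisymm (rep_le A 0)
  unfold rep
  apply Finset.card_le_card_of_injOn (fun a => (a, a))
  · intro a ha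
    simp only [coe_filter, mem_product, Set.mem_setOf_eq, sub_self, and_true]
    exact ⟨ha, ha⟩
  · intro a _ a' _ h
    exact (Prod.mk.inj h).1

/-- log-convexity of moments -/
theorem mom_convex (D : Finset G) (g : G → ℝ) (hg : ∀ x, 0 ≤ g x) (q : ℕ) :
    (avd D (fun x => g x ^ (q + 1))) ^ 2 ≤ avd D (fun x => g x ^ q) * avd D (fun x => g x ^ (q + 2)) := by
  rw [avd_prod, avd_prod, avd_prod, div_pow, div_mul_div_comm, ← sq]
  apply div_le_div_of_nonneg_right _ (by positivity)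
  apply Finset.sum_sq_le_sum_mul_sum_of_sq_eq_mul
  · intro i _
    exact pow_nonneg (hg _) _
  · intro i _
    exact pow_nonneg (hg _) _
  · intro i _
    ring

theorem mom_pos {D : Finset G} (hD : D.Nonempty) (g : G → ℝ) (hg : ∀ x, 0 ≤ g x) (h0 : 0 < g 0) (q : ℕ) :
    0 < avd D (fun x => g x ^ q) := by
  unfold avd
  apply div_pos
  · obtain ⟨b, hb⟩ := hD
    apply Finset.sum_pos'
    · intro b _
      exact Finset.sum_nonneg (fun b' _ => pow_nonneg (hg _) _)
    · refine ⟨b, hb, ?_⟩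
      apply Finset.sum_pos'
      · intro b' _
        exact pow_nonneg (hg _) _
      · refine ⟨b, hb, ?_⟩
        rw [sub_self]
        exact pow_pos h0 _
  · have := hD.card_pos
    positivity

theorem mom_step (D : Finset G) (g : G → ℝ) (M : ℝ) (hg : ∀ x, 0 ≤ g x) (hM : ∀ x, g x ≤ M) (q : ℕ) :
    avd D (fun x => g x ^ (q + 1)) ≤ M * avd D (fun x => g x ^ q) := by
  rw [← avd_mul]
  apply avd_mono
  intro x
  rw [pow_succ, mul_comm]
  exact mul_le_mul_of_nonneg_right (hM x) (pow_nonneg (hg x) q)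

theorem char_norm (ψ : AddChar G ℂ) (x : G) : ‖ψ x‖ = 1 := by
  exact AddChar.norm_apply ψ x

theorem mul_sub_one_le {z w : ℂ} (hz : ‖z‖ = 1) : ‖z * w - 1‖ ≤ ‖z - 1‖ + ‖w - 1‖ := by
  have : z * w - 1 = (z - 1) + z * (w - 1) := by ring
  rw [this]
  refine (norm_add_le _ _).trans ?_
  rw [norm_mul, hz, one_mul]

theorem inv_sub_one {z : ℂ} (hz : ‖z‖ = 1) : ‖z⁻¹ - 1‖ = ‖z - 1‖ := by
  have hz0 : z ≠ 0 := by
    intro h
    rw [h] at hz
    simp at hz
  have : z⁻¹ - 1 = - (z⁻¹ * (z - 1)) := by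
    field_simp
    ring
  rw [this, norm_neg, norm_mul, norm_inv, hz, inv_one, one_mul]

theorem zpow_sub_one {z : ℂ} (hz : ‖z‖ = 1) {m : ℤ} (hm : |m| ≤ 1) : ‖z ^ m - 1‖ ≤ ‖z - 1‖ := by
  rw [abs_le] at hm
  obtain ⟨h1, h2⟩ := hm
  have : m = -1 ∨ m = 0 ∨ m = 1 := by omega
  rcases this with h | h | h
  · rw [h, zpow_neg_one, inv_sub_one hz]
  · rw [h]
    simp
  · rw [h, zpow_one]

theorem addchar_zpow_apply (χ : AddChar G ℂ) (m : ℤ) (x : G) : (χ ^ m) x = (χ x) ^ m := by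
  cases m with
  | ofNat n => simp [AddChar.pow_apply]
  | negSucc n =>
    rw [zpow_negSucc, AddChar.inv_apply', AddChar.pow_apply, zpow_negSucc]

theorem pch_sub_one (Λ : Finset (AddChar G ℂ)) (m : AddChar G ℂ → ℤ) (hm : ∀ χ, |m χ| ≤ 1) (x : G) :
    ‖pch Λ m x - 1‖ ≤ ∑ χ ∈ Λ, ‖χ x - 1‖ := by
  classical
  unfold pch
  induction Λ using Finset.induction_on with
  | empty => simp
  | insert χ Λ hχ ih =>
    rw [Finset.prod_insert hχ, Finset.sum_insert hχ, AddChar.mul_apply]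
    have h1 : ‖(χ ^ m χ) x‖ = 1 := char_norm _ _
    refine (mul_sub_one_le h1).trans ?_
    apply add_le_add _ ih
    rw [addchar_zpow_apply]
    exact zpow_sub_one (char_norm χ x) (hm χ)

theorem close_of_mul {ψ π : AddChar G ℂ} {x : G} {r s : ℝ} (h1 : ‖(ψ * π) x - 1‖ ≤ r) (h2 : ‖π x - 1‖ ≤ s) :
    ‖ψ x - 1‖ ≤ r + s := by
  have h3 : ψ x = (ψ * π) x * (π x)⁻¹ := by
    rw [AddChar.mul_apply]
    have : π x ≠ 0 := by
      intro h
      have := char_norm π x
      rw [h] at this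
      simp at this
    field_simp
  rw [h3]
  refine (mul_sub_one_le (char_norm _ _)).trans ?_
  rw [inv_sub_one (char_norm π x)]
  exact add_le_add h1 h2

theorem sum_norm_ge (D : Finset G) (ψ : AddChar G ℂ) (r : ℝ) (h : ∀ x ∈ D, ‖ψ x - 1‖ ≤ r) :
    (1 - r) * D.card ≤ ‖∑ x ∈ D, ψ x‖ := by
  have h1 : ∑ x ∈ D, ψ x = (D.card : ℂ) + ∑ x ∈ D, (ψ x - 1) := by
    rw [Finset.sum_sub_distrib]
    simp
  have h2 : ‖∑ x ∈ D, (ψ x - 1)‖ ≤ r * D.card := by
    refine (norm_sum_le _ _).trans ?_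
    refine (Finset.sum_le_sum h).trans ?_
    rw [Finset.sum_const, nsmul_eq_mul, mul_comm]
  have h3 : ‖(D.card : ℂ)‖ = D.card := by simp
  have h4 : (D.card : ℂ) = ∑ x ∈ D, ψ x - ∑ x ∈ D, (ψ x - 1) := by
    rw [h1]
    ring
  have h5 : (D.card : ℝ) ≤ ‖∑ x ∈ D, ψ x‖ + ‖∑ x ∈ D, (ψ x - 1)‖ := by
    rw [← h3]
    conv_lhs => rw [h4]
    exact norm_sub_le _ _
  nlinarith

theorem sum_norm_le (D : Finset G) (ψ : AddChar G ℂ) : ‖∑ x ∈ D, ψ x‖ ≤ D.card := by
  refine (norm_sum_le _ _).trans ?_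
  simp [char_norm]

end

end Vale.Agent.P057.PB
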