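import Vale.Agent.P057.Mods

open Finset

namespace Vale.Agent.P057.QS

open Vale.Agent.P057

theorem qsel_proof : QSEL := by
  intro m q₀ K M hm0 hpos hlc hM hMK hq₀ hbig
  set r : ℕ → ℝ := fun q => m (q + 1) / m q with hr
  have hrpos : ∀ q, 0 < r q := fun q => div_pos (hpos _) (hpos _)
  have hmr : ∀ q, m (q + 1) = r q * m q := by
    intro q
    have := (hpos q).ne'
    simp only [hr]
    field_simp
  have hrmono1 : ∀ q, r q ≤ r (q + 1) := by
    intro q
    simp only [hr]
    rw [div_le_div_iff₀ (hpos _) (hpos _)]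
    have := hlc q
    nlinarith
  have hrmono : Monotone r := monotone_nat_of_le_succ hrmono1
  have hrM : ∀ q, r q ≤ M := by
    intro q
    simp only [hr]
    rw [div_le_iff₀ (hpos _)]
    exact hM q
  have hlast : (65 / 64 : ℝ) ≤ r (q₀ - 1) := by
    by_contra hcon
    push Not at hcon
    have hle : ∀ q, q ≤ q₀ → m q ≤ (r (q₀ - 1)) ^ q := by
      intro q
      induction q with
      | zero => intro _; simp [hm0]
      | succ q ih =>
        intro hq
        have h1 := ih (by omega)
        have h2 : r q ≤ r (q₀ - 1) := hrmono (by omega)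
        rw [hmr q, pow_succ, mul_comm]
        exact mul_le_mul h1 h2 (hrpos q).le (pow_nonneg (hrpos _).le _)
    have h1 := hle q₀ le_rfl
    have h2 : (r (q₀ - 1)) ^ q₀ < (65 / 64 : ℝ) ^ q₀ :=
      pow_lt_pow_left₀ hcon (hrpos _).le (by omega)
    linarith
  have hrge : ∀ q, q₀ ≤ q → (65 / 64 : ℝ) ≤ r q := fun q hq =>
    hlast.trans (hrmono (by omega))
  have hm1 : ∀ q, q₀ ≤ q → 1 ≤ m q := by
    intro q hq
    induction q, hq using Nat.le_induction with
    | base => exact (one_le_pow₀ (by norm_num)).trans hbig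
    | succ q hq ih =>
      rw [hmr q]
      have := hrge q hq
      nlinarith
  by_contra hcon
  push Not at hcon
  have hstep : ∀ q, q₀ ≤ q → q ≤ q₀ + K → 2 * r q < r (q + 1) := by
    intro q h1 h2
    have h3 := hcon q h1 h2 (hm1 q h1) (by
      rw [hmr q]
      exact mul_le_mul_of_nonneg_right (hrge q h1) (hpos q).le)
    simp only [hr]
    rw [← mul_div_assoc, div_lt_div_iff₀ (hpos _) (hpos _)]
    nlinarith
  have hgrow : ∀ j, j ≤ K + 1 → (2 : ℝ) ^ j * (65 / 64) ≤ r (q₀ + j) := by
    intro j
    induction j with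
    | zero => intro _; simpa using hrge q₀ le_rfl
    | succ j ih =>
      intro hj
      have h1 := ih (by omega)
      have h2 := hstep (q₀ + j) (by omega) (by omega)
      rw [pow_succ]
      have h3 : q₀ + (j + 1) = q₀ + j + 1 := by ring
      rw [h3]
      linarith
  have h1 := hgrow (K + 1) le_rfl
  have h2 := hrM (q₀ + (K + 1))
  have h3 : (0 : ℝ) < 2 ^ K := by positivity
  rw [pow_succ] at h1
  linarith

end Vale.Agent.P057.QS
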