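import Vale.Agent.P057.Mods

/-! # P057: existence of regular widths (module REGEX) -/

open Finset

namespace Vale.Agent.P057.RX

variable {G : Type} [AddCommGroup G] [Fintype G]

theorem bohr_mono (Γ : Finset (AddChar G ℂ)) {ρ ρ' : ℝ} (h : ρ ≤ ρ') :
    bohr Γ ρ ⊆ bohr Γ ρ' := by
  intro x hx
  unfold bohr at hx ⊢
  rw [mem_filter] at hx ⊢
  exact ⟨hx.1, fun ψ hψ => (hx.2 ψ hψ).trans h⟩

theorem one_le_card (Γ : Finset (AddChar G ℂ)) {ρ : ℝ} (h : 0 ≤ ρ) : 1 ≤ (bohr Γ ρ).card := by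
  rw [Nat.one_le_iff_ne_zero, ← Nat.pos_iff_ne_zero, card_pos]
  refine ⟨0, ?_⟩
  unfold bohr
  rw [mem_filter]
  refine ⟨mem_univ _, fun ψ _ => ?_⟩
  rw [AddChar.map_zero_eq_one, sub_self, norm_zero]
  exact h

theorem kap_bounds (d : ℕ) : 0 < kap d ∧ kap d ≤ 1 / 2 ^ 24 ∧
    kap d * ((2 ^ 20 * (d + 1) : ℕ) : ℝ) = 1 / 16 := by
  have hd : (0 : ℝ) ≤ d := Nat.cast_nonneg d
  refine ⟨?_, ?_, ?_⟩
  · unfold kap
    positivity
  · unfold kap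
    apply one_div_le_one_div_of_le (by positivity)
    nlinarith
  · unfold kap
    push_cast
    have : (d : ℝ) + 1 ≠ 0 := by positivity
    field_simp
    norm_num

theorem pow_small {κ : ℝ} (h0 : 0 < κ) (h1 : κ ≤ 1 / 2 ^ 24) {M : ℕ} (hM : κ * (M : ℝ) = 1 / 16) :
    ((1 + 2 * κ) / (1 - 2 * κ)) ^ M ≤ 2 := by
  have h2 : κ ≤ 1 / 100 := h1.trans (by norm_num)
  have h3 : 0 < 1 - 2 * κ := by linarith
  have h4 : 0 < 1 + 2 * κ := by linarith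
  have h5 : 1 - 4 * κ ≤ (1 - 2 * κ) / (1 + 2 * κ) := by
    rw [le_div_iff₀ h4]
    nlinarith [sq_nonneg κ]
  have h6 : 1 + (M : ℝ) * (-(4 * κ)) ≤ (1 + -(4 * κ)) ^ M :=
    one_add_mul_le_pow (by linarith) M
  have h7 : (1 + -(4 * κ)) ^ M ≤ ((1 - 2 * κ) / (1 + 2 * κ)) ^ M := by
    apply pow_le_pow_left₀ (by linarith)
    linarith
  have h8 : (3 : ℝ) / 4 ≤ ((1 - 2 * κ) / (1 + 2 * κ)) ^ M := by
    refine le_trans ?_ (h6.trans h7)
    have : (M : ℝ) * (-(4 * κ)) = -(4 * (κ * M)) := by ring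
    rw [this, hM]
    norm_num
  have h9 : ((1 + 2 * κ) / (1 - 2 * κ)) ^ M * ((1 - 2 * κ) / (1 + 2 * κ)) ^ M = 1 := by
    rw [← mul_pow]
    have : (1 + 2 * κ) / (1 - 2 * κ) * ((1 - 2 * κ) / (1 + 2 * κ)) = 1 := by
      field_simp
    rw [this, one_pow]
  by_contra hc
  push Not at hc
  have h10 : (2 : ℝ) * (3 / 4) ≤
      ((1 + 2 * κ) / (1 - 2 * κ)) ^ M * ((1 - 2 * κ) / (1 + 2 * κ)) ^ M :=
    mul_le_mul hc.le h8 (by norm_num) (by linarith)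
  rw [h9] at h10
  norm_num at h10

theorem pow_big (d : ℕ) : (81 : ℝ) ^ d < (1 + eps0) ^ (2 ^ 20 * (d + 1)) := by
  have h1 : (2 : ℝ) ≤ (1 + eps0) ^ (2 ^ 12) := by
    have := one_add_mul_le_pow (a := eps0) (by unfold eps0; norm_num) (2 ^ 12)
    refine le_trans (le_of_eq ?_) this
    unfold eps0
    push_cast
    norm_num
  have h2 : 2 ^ 20 * (d + 1) = 2 ^ 12 * (2 ^ 8 * (d + 1)) := by ring
  rw [h2, pow_mul]
  have h3 : (2 : ℝ) ^ (2 ^ 8 * (d + 1)) ≤ ((1 + eps0) ^ (2 ^ 12)) ^ (2 ^ 8 * (d + 1)) :=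
    pow_le_pow_left₀ (by norm_num) h1 _
  refine lt_of_lt_of_le ?_ h3
  rw [pow_mul]
  calc (81 : ℝ) ^ d < 81 ^ (d + 1) := pow_lt_pow_right₀ (by norm_num) (Nat.lt_succ_self d)
    _ ≤ ((2 : ℝ) ^ 2 ^ 8) ^ (d + 1) := by
        apply pow_le_pow_left₀ (by norm_num)
        calc (81 : ℝ) ≤ 2 ^ 7 := by norm_num
          _ ≤ 2 ^ 2 ^ 8 := pow_le_pow_right₀ (by norm_num) (by norm_num)

theorem iter_bound {F : ℕ → ℝ} {e : ℝ} (he : 0 ≤ e) : ∀ M : ℕ,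
    (∀ i < M, (1 + e) * F i ≤ F (i + 1)) → (1 + e) ^ M * F 0 ≤ F M := by
  intro M
  induction M with
  | zero =>
    intro _
    simp
  | succ M ih =>
    intro h
    have h1 := ih (fun i hi => h i (by omega))
    have h2 := h M (by omega)
    calc (1 + e) ^ (M + 1) * F 0 = (1 + e) * ((1 + e) ^ M * F 0) := by ring
      _ ≤ (1 + e) * F M := mul_le_mul_of_nonneg_left h1 (by linarith)
      _ ≤ F (M + 1) := h2

theorem choose_M (d : ℕ) : 0 < kap d ∧ kap d ≤ 1 / 2 ^ 24 ∧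
    ∃ M : ℕ, kap d * (M : ℝ) = 1 / 16 ∧ (81 : ℝ) ^ d < (1 + eps0) ^ M :=
  ⟨(kap_bounds d).1, (kap_bounds d).2.1, _, (kap_bounds d).2.2, pow_big d⟩

end Vale.Agent.P057.RX

namespace Vale.Agent.P057

open RX

theorem regex_proof (hD : BDOUB) : REGEX := by
  intro G _ _ Γ ρ₀ hρ₀
  obtain ⟨hk0, hk1, M, hkM, h13⟩ := choose_M Γ.card
  set κ := kap Γ.card with hκ
  have hk2 : κ ≤ 1 / 100 := hk1.trans (by norm_num)
  have he0 : (0 : ℝ) ≤ eps0 := by unfold eps0; positivity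
  by_contra hcon
  push Not at hcon
  set s := (1 + 2 * κ) / (1 - 2 * κ) with hs
  have h3 : 0 < 1 - 2 * κ := by linarith
  have hs1 : 1 ≤ s := by
    rw [hs, le_div_iff₀ h3]
    linarith
  have hsM : s ^ M ≤ 2 := pow_small hk0 hk1 hkM
  have hstep : ∀ i < M,
      (1 + eps0) * ((bohr Γ ((1 - 2 * κ) * (s ^ i * (ρ₀ / 2)))).card : ℝ) ≤
        ((bohr Γ ((1 - 2 * κ) * (s ^ (i + 1) * (ρ₀ / 2)))).card : ℝ) := by
    intro i hi
    have h4 : s ^ i ≤ 2 := (pow_le_pow_right₀ hs1 hi.le).trans hsM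
    have h5 : 1 ≤ s ^ i := one_le_pow₀ hs1
    have h6 := hcon (s ^ i * (ρ₀ / 2)) (by nlinarith) (by nlinarith)
    unfold Reg at h6
    rw [← hκ] at h6
    push Not at h6
    have h7 : (1 + 2 * κ) * (s ^ i * (ρ₀ / 2)) = (1 - 2 * κ) * (s ^ (i + 1) * (ρ₀ / 2)) := by
      rw [pow_succ]
      have : (1 - 2 * κ) * s = 1 + 2 * κ := by
        rw [hs]
        field_simp
      rw [← this]
      ring
    rw [h7] at h6
    exact h6.le
  have hit := iter_bound (F := fun i => ((bohr Γ ((1 - 2 * κ) * (s ^ i * (ρ₀ / 2)))).card : ℝ))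
    he0 _ hstep
  simp only [pow_zero, one_mul] at hit
  have hlast : ((bohr Γ ((1 - 2 * κ) * (s ^ M * (ρ₀ / 2)))).card : ℝ) ≤
      81 ^ Γ.card * ((bohr Γ ((1 - 2 * κ) * (ρ₀ / 2))).card : ℝ) := by
    have h8 := hD G Γ ((1 - 2 * κ) * ρ₀) (by positivity)
    have h9 : (bohr Γ ((1 - 2 * κ) * (s ^ M * (ρ₀ / 2)))).card ≤
        (bohr Γ ((1 - 2 * κ) * ρ₀)).card := by
      apply card_le_card
      apply bohr_mono
      apply mul_le_mul_of_nonneg_left _ h3.le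
      have : s ^ M * (ρ₀ / 2) ≤ 2 * (ρ₀ / 2) := mul_le_mul_of_nonneg_right hsM (by linarith)
      linarith
    have h10 : (1 - 2 * κ) * ρ₀ / 2 = (1 - 2 * κ) * (ρ₀ / 2) := by ring
    rw [h10] at h8
    exact_mod_cast h9.trans h8
  have h11 := one_le_card Γ (ρ := (1 - 2 * κ) * (ρ₀ / 2)) (by positivity)
  have h12 : (1 : ℝ) ≤ ((bohr Γ ((1 - 2 * κ) * (ρ₀ / 2))).card : ℝ) := by exact_mod_cast h11
  have h14 := hit.trans hlast
  have h15 : (1 + eps0) ^ M ≤ 81 ^ Γ.card :=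
    le_of_mul_le_mul_right h14 (by linarith)
  linarith

end Vale.Agent.P057
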