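import Vale.Agent.P057.Mods

/-!
# P057: sifting (module SIFT)
-/

open Finset

namespace Vale.Agent.P057.SIFT

noncomputable section

variable {G : Type} [AddCommGroup G]

open Classical in
/-- the sifted set -/
def As (A D : Finset G) {q : ℕ} (s : Fin q → G) : Finset G :=
  D.filter (fun b => ∀ i, b + s i ∈ A)

open Classical in
theorem card_two [Fintype G] (A : Finset G) (b b' : G) :
    (univ.filter (fun t : G => b + t ∈ A ∧ b' + t ∈ A)).card = rep A (b - b') := by
  unfold rep
  apply card_bij' (fun t _ => (b + t, b' + t)) (fun p _ => p.1 - b)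
  · intro t ht
    have h := (mem_filter.mp ht).2
    rw [mem_filter, mem_product]
    refine ⟨⟨h.1, h.2⟩, ?_⟩
    show b + t - (b' + t) = b - b'
    abel
  · intro p hp
    have h := mem_filter.mp hp
    have h1 := mem_product.mp h.1
    have h2 : p.1 - p.2 = b - b' := h.2
    rw [mem_filter]
    have e1 : b + (p.1 - b) = p.1 := by abel
    have e2 : b' + (p.1 - b) = p.2 := by
      have : b' + (p.1 - b) = p.1 - (b - b') := by abel
      rw [this, ← h2]
      abel
    refine ⟨mem_univ _, ?_, ?_⟩
    · show b + (p.1 - b) ∈ A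
      rw [e1]
      exact h1.1
    · show b' + (p.1 - b) ∈ A
      rw [e2]
      exact h1.2
  · intro t _
    show b + t - b = t
    abel
  · intro p hp
    have h := mem_filter.mp hp
    have h2 : p.1 - p.2 = b - b' := h.2
    apply Prod.ext
    · show b + (p.1 - b) = p.1
      abel
    · show b' + (p.1 - b) = p.2
      have : b' + (p.1 - b) = p.1 - (b - b') := by abel
      rw [this, ← h2]
      abel

open Classical in
theorem card_all {G : Type} [Fintype G] (T : Finset G) (q : ℕ) :
    (univ.filter (fun s : Fin q → G => ∀ i, s i ∈ T)).card = T.card ^ q := by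
  have : univ.filter (fun s : Fin q → G => ∀ i, s i ∈ T) = Fintype.piFinset (fun _ : Fin q => T) := by
    ext s
    rw [mem_filter, Fintype.mem_piFinset]
    exact ⟨fun h => h.2, fun h => ⟨mem_univ _, h⟩⟩
  rw [this, Fintype.card_piFinset]
  simp

/-- double counting identity -/
theorem sum_two [Fintype G] (A D : Finset G) (q : ℕ) (h : G → ℝ) :
    ∑ s : Fin q → G, ∑ b ∈ As A D s, ∑ b' ∈ As A D s, h (b - b') =
      ∑ b ∈ D, ∑ b' ∈ D, h (b - b') * (rep A (b - b') : ℝ) ^ q := by
  classical
  have h1 : ∀ s : Fin q → G, ∑ b ∈ As A D s, ∑ b' ∈ As A D s, h (b - b') =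
      ∑ b ∈ D, ∑ b' ∈ D, (if (∀ i, s i ∈ univ.filter (fun t : G => b + t ∈ A ∧ b' + t ∈ A)) then
        h (b - b') else 0) := by
    intro s
    unfold As
    rw [sum_filter]
    apply sum_congr rfl
    intro b _
    split_ifs with hb
    · rw [sum_filter]
      apply sum_congr rfl
      intro b' _
      congr 1
      apply propext
      constructor
      · intro h2 i
        rw [mem_filter]
        exact ⟨mem_univ _, hb i, h2 i⟩
      · intro h2 i
        exact (mem_filter.mp (h2 i)).2.2
    · symm
      apply sum_eq_zero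
      intro b' _
      rw [if_neg]
      intro h2
      exact hb fun i => (mem_filter.mp (h2 i)).2.1
  simp_rw [h1]
  rw [sum_comm]
  apply sum_congr rfl
  intro b _
  rw [sum_comm]
  apply sum_congr rfl
  intro b' _
  rw [← sum_filter, sum_const, card_all, card_two, nsmul_eq_mul, mul_comm]
  push_cast
  rfl

theorem sum_one [Fintype G] (A D : Finset G) (q : ℕ) :
    ∑ s : Fin q → G, ((As A D s).card : ℝ) = D.card * (A.card : ℝ) ^ q := by
  classical
  have h1 : ∀ s : Fin q → G, ((As A D s).card : ℝ) =
      ∑ b ∈ D, (if (∀ i, s i ∈ univ.filter (fun t : G => b + t ∈ A)) then (1 : ℝ) else 0) := by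
    intro s
    unfold As
    rw [card_filter]
    push_cast
    apply sum_congr rfl
    intro b _
    congr 1
    apply propext
    constructor
    · intro h2 i
      rw [mem_filter]
      exact ⟨mem_univ _, h2 i⟩
    · intro h2 i
      exact (mem_filter.mp (h2 i)).2
  simp_rw [h1]
  rw [sum_comm]
  have h2 : ∀ b ∈ D, ∑ s : Fin q → G,
      (if (∀ i, s i ∈ univ.filter (fun t : G => b + t ∈ A)) then (1 : ℝ) else 0) =
      (A.card : ℝ) ^ q := by
    intro b _
    rw [← sum_filter, sum_const, card_all, nsmul_eq_mul, mul_one]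
    have h3 : (univ.filter (fun t : G => b + t ∈ A)).card = A.card := by
      apply card_bij' (fun t _ => b + t) (fun x _ => x - b)
      · intro t ht
        exact (mem_filter.mp ht).2
      · intro x hx
        rw [mem_filter]
        refine ⟨mem_univ _, ?_⟩
        have : b + (x - b) = x := by abel
        rw [this]
        exact hx
      · intro t _
        show b + t - b = t
        abel
      · intro x _
        show b + (x - b) = x
        abel
    rw [h3]
    push_cast
    rfl
  rw [sum_congr rfl h2, sum_const, nsmul_eq_mul]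

theorem rep_le (A : Finset G) (x : G) : rep A x ≤ A.card := by
  classical
  unfold rep
  apply card_le_card_of_injOn (fun p => p.2)
  · intro p hp
    exact (mem_product.mp (mem_filter.mp hp).1).2
  · intro p hp p' hp' he
    have h1 : p.1 - p.2 = x := (mem_filter.mp hp).2
    have h2 : p'.1 - p'.2 = x := (mem_filter.mp hp').2
    have he' : p.2 = p'.2 := he
    apply Prod.ext
    · have e1 : p.1 = x + p.2 := by rw [← h1]; abel
      have e2 : p'.1 = x + p'.2 := by rw [← h2]; abel
      rw [e1, e2, he']
    · exact he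

/-- sum of a function over differences of the sifted set -/
def Sx (A D : Finset G) {q : ℕ} (h : G → ℝ) (s : Fin q → G) : ℝ :=
  ∑ b ∈ As A D s, ∑ b' ∈ As A D s, h (b - b')

theorem sum_Sx [Fintype G] (A D : Finset G) (hD : D.Nonempty) (q : ℕ) {c : ℝ} (hc : 0 < c)
    (h : G → ℝ) : ∑ s : Fin q → G, Sx A D h s =
      (D.card : ℝ) ^ 2 / c ^ q * avd D (fun x => h x * (c * rep A x) ^ q) := by
  have hDc : (0 : ℝ) < D.card := by exact_mod_cast hD.card_pos
  have e1 := sum_two A D q h
  unfold Sx
  rw [e1]
  unfold avd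
  rw [div_mul_div_comm, mul_comm (c ^ q), ← div_mul_div_comm, div_self (by positivity),
    one_mul, eq_div_iff (by positivity), sum_mul]
  apply sum_congr rfl
  intro b _
  rw [sum_mul]
  apply sum_congr rfl
  intro b' _
  simp only [mul_pow]
  ring

/-- the truncated function -/
def gt (A : Finset G) (c W : ℝ) (x : G) : ℝ :=
  if c * rep A x ≤ 4000000 * W then 0 else c * rep A x

theorem gt_nonneg (A : Finset G) {c : ℝ} (hc : 0 < c) (W : ℝ) (x : G) : 0 ≤ gt A c W x := by
  unfold gt
  split_ifs
  · exact le_rfl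
  · positivity

theorem gt_le (A : Finset G) {c W : ℝ} (hc : 0 < c) (hW : 0 < W) (x : G) :
    gt A c W x ≤ 1 / (4000000 * W) * (c * rep A x) ^ 2 := by
  unfold gt
  split_ifs with hcase
  · positivity
  · push Not at hcase
    rw [one_div, inv_mul_eq_div, le_div_iff₀ (by positivity)]
    have : 0 ≤ c * (rep A x : ℝ) := by positivity
    nlinarith

theorem sift_proof : SIFT := by
  intro G _ _ A D c W q hA hD hc hW hM hm hm1 hm2
  classical
  have hDc : (0 : ℝ) < D.card := by exact_mod_cast hD.card_pos
  have hAc : (0 : ℝ) < A.card := by exact_mod_cast hA.card_pos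
  have hW0 : (0 : ℝ) < W := by linarith
  set g : G → ℝ := fun x => c * rep A x with hg
  have hg0 : ∀ x, 0 ≤ g x := fun x => by positivity
  have hgM : ∀ x, g x ≤ c * A.card := fun x =>
    mul_le_mul_of_nonneg_left (by exact_mod_cast rep_le A x) hc.le
  -- notation
  set N : ℝ := (D.card : ℝ) ^ 2 / c ^ q with hN
  have hN0 : 0 < N := by positivity
  have hsum : ∀ h : G → ℝ, ∑ s : Fin q → G, Sx A D h s = N * avd D (fun x => h x * g x ^ q) :=
    fun h => sum_Sx A D hD q hc h
  set mq := avd D (fun x => (c * rep A x) ^ q) with hmq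
  -- the three sums
  have hZ : ∑ s : Fin q → G, Sx A D (fun _ => 1) s = N * mq := by
    refine (hsum (fun _ => 1)).trans ?_
    congr 1
    simp only [one_mul, hmq, hg]
  have hX : ∑ s : Fin q → G, Sx A D g s = W * (N * mq) := by
    refine (hsum g).trans ?_
    have : avd D (fun x => g x * g x ^ q) = W * mq := by
      rw [← hm1]
      congr 1
      funext x
      simp only [hg]
      ring
    rw [this]
    ring
  have hY : ∑ s : Fin q → G, Sx A D (gt A c W) s ≤ 1 / 2000000 * (W * (N * mq)) := by
    refine (le_of_eq (hsum (gt A c W))).trans ?_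
    have e1 : avd D (fun x => gt A c W x * g x ^ q) ≤
        1 / (4000000 * W) * avd D (fun x => (c * rep A x) ^ (q + 2)) := by
      unfold avd
      rw [← mul_div_assoc]
      apply div_le_div_of_nonneg_right _ (by positivity)
      rw [mul_sum]
      apply sum_le_sum
      intro b _
      rw [mul_sum]
      apply sum_le_sum
      intro b' _
      have hgx := hg0 (b - b')
      have e2 : (c * (rep A (b - b') : ℝ)) ^ (q + 2) = (c * rep A (b - b')) ^ 2 * g (b - b') ^ q := by
        simp only [hg]
        ring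
      show gt A c W (b - b') * g (b - b') ^ q ≤ 1 / (4000000 * W) * (c * (rep A (b - b') : ℝ)) ^ (q + 2)
      rw [e2, ← mul_assoc]
      exact mul_le_mul_of_nonneg_right (gt_le A hc hW0 _) (by positivity)
    have e2 := mul_le_mul_of_nonneg_left hm2 (by positivity : (0 : ℝ) ≤ 1 / (4000000 * W))
    have e3 : 1 / (4000000 * W) * (2 * W ^ 2 * mq) = 1 / 2000000 * (W * mq) := by
      field_simp
      ring
    have e4 := (e1.trans e2).trans (le_of_eq e3)
    calc N * _ ≤ N * (1 / 2000000 * (W * mq)) := mul_le_mul_of_nonneg_left e4 hN0.le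
      _ = _ := by ring
  have hS1 : ∀ s : Fin q → G, Sx A D (fun _ => 1) s = ((As A D s).card : ℝ) ^ 2 := by
    intro s
    simp only [Sx, sum_const, nsmul_eq_mul]
    ring
  -- small sets
  set θ : ℝ := 1 / 4000 * (1 / (c * A.card)) ^ (q + 1) with hθ
  have hM0 : 0 < c * (A.card : ℝ) := by positivity
  have hθ0 : 0 < θ := by positivity
  set Bg : Finset (Fin q → G) := univ.filter (fun s => θ * D.card ≤ ((As A D s).card : ℝ)) with hBg
  set Sm : Finset (Fin q → G) := univ.filter (fun s => ¬ θ * D.card ≤ ((As A D s).card : ℝ)) with hSm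
  have hsplit : ∀ f : (Fin q → G) → ℝ, ∑ s, f s = ∑ s ∈ Bg, f s + ∑ s ∈ Sm, f s := by
    intro f
    rw [hBg, hSm, sum_filter_add_sum_filter_not]
  have hsmall : ∑ s ∈ Sm, Sx A D g s ≤ 1 / 4000 * (N * mq) := by
    have e1 : ∀ s ∈ Sm, Sx A D g s ≤ c * A.card * (θ * D.card) * ((As A D s).card : ℝ) := by
      intro s hs
      have h1 := (not_le.mp (mem_filter.mp hs).2).le
      have h2 : Sx A D g s ≤ c * A.card * ((As A D s).card : ℝ) ^ 2 := by
        unfold Sx
        calc ∑ b ∈ As A D s, ∑ b' ∈ As A D s, g (b - b')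
            ≤ ∑ b ∈ As A D s, ∑ b' ∈ As A D s, c * A.card :=
              sum_le_sum fun b _ => sum_le_sum fun b' _ => hgM _
          _ = c * A.card * ((As A D s).card : ℝ) ^ 2 := by
              simp only [sum_const, nsmul_eq_mul]
              ring
      refine h2.trans ?_
      have h3 := mul_le_mul_of_nonneg_left
        (mul_le_mul_of_nonneg_right h1 (by positivity : (0 : ℝ) ≤ ((As A D s).card : ℝ))) hM0.le
      calc c * A.card * ((As A D s).card : ℝ) ^ 2
          = c * A.card * (((As A D s).card : ℝ) * (As A D s).card) := by ring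
        _ ≤ c * A.card * (θ * D.card * (As A D s).card) := h3
        _ = _ := by ring
    calc ∑ s ∈ Sm, Sx A D g s ≤ ∑ s ∈ Sm, c * A.card * (θ * D.card) * ((As A D s).card : ℝ) :=
          sum_le_sum e1
      _ ≤ ∑ s, c * A.card * (θ * D.card) * ((As A D s).card : ℝ) :=
          sum_le_sum_of_subset_of_nonneg (filter_subset _ _) fun s _ _ => by positivity
      _ = c * A.card * (θ * D.card) * (D.card * (A.card : ℝ) ^ q) := by
          rw [← mul_sum, sum_one]
      _ = 1 / 4000 * (N * 1) := by
          rw [hθ, hN]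
          have : (1 / (c * (A.card : ℝ))) ^ (q + 1) * (c * A.card) ^ (q + 1) = 1 := by
            rw [← mul_pow, one_div, inv_mul_cancel₀ hM0.ne', one_pow]
          have h3 : c * A.card * (1 / 4000 * (1 / (c * (A.card : ℝ))) ^ (q + 1) * D.card) *
              (D.card * (A.card : ℝ) ^ q) = 1 / 4000 * (((1 / (c * (A.card : ℝ))) ^ (q + 1) *
              (c * A.card) ^ (q + 1)) * ((D.card : ℝ) ^ 2 / c ^ q)) := by
            rw [mul_pow c]
            field_simp
            ring
          rw [h3, this]
          ring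
      _ ≤ _ := by
          apply mul_le_mul_of_nonneg_left _ (by norm_num)
          exact mul_le_mul_of_nonneg_left hm hN0.le
  have hYnn : ∀ s : Fin q → G, 0 ≤ Sx A D (gt A c W) s := fun s =>
    sum_nonneg fun b _ => sum_nonneg fun b' _ => gt_nonneg A hc W _
  -- the main step
  have hmain : ∃ s ∈ Bg, (1 - 1 / 1000) * W * ((As A D s).card : ℝ) ^ 2 <
      Sx A D g s - 1000 * Sx A D (gt A c W) s := by
    by_contra hcon
    push Not at hcon
    have e1 := sum_le_sum hcon
    rw [sum_sub_distrib, ← mul_sum, ← mul_sum] at e1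
    have e2 : ∑ s ∈ Bg, ((As A D s).card : ℝ) ^ 2 ≤ N * mq := by
      rw [← hZ]
      simp_rw [hS1]
      exact sum_le_sum_of_subset_of_nonneg (filter_subset _ _) fun s _ _ => by positivity
    have e3 : ∑ s ∈ Bg, Sx A D (gt A c W) s ≤ 1 / 2000000 * (W * (N * mq)) :=
      le_trans (sum_le_sum_of_subset_of_nonneg (filter_subset _ _) fun s _ _ => hYnn s) hY
    have e4 : W * (N * mq) - 1 / 4000 * (N * mq) ≤ ∑ s ∈ Bg, Sx A D g s := by
      have := hsplit (Sx A D g)
      rw [hX] at this
      linarith
    have e5 : (1 - 1 / 1000) * W * ∑ s ∈ Bg, ((As A D s).card : ℝ) ^ 2 ≤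
        (1 - 1 / 1000) * W * (N * mq) :=
      mul_le_mul_of_nonneg_left e2 (by nlinarith)
    have e6 : N * mq ≤ W * (N * mq) := by
      have : 0 ≤ N * mq := by positivity
      nlinarith
    have e7 : 0 < W * (N * mq) := by
      have : 0 < mq := by linarith
      positivity
    linarith
  obtain ⟨s, hs, hlt⟩ := hmain
  have hbig := (mem_filter.mp hs).2
  have hcardpos : (0 : ℝ) < (As A D s).card := lt_of_lt_of_le (by positivity) hbig
  have hYs := hYnn s
  refine ⟨As A D s, filter_subset _ _, ?_, hbig, ?_, ?_⟩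
  · rw [← card_pos]
    exact_mod_cast hcardpos
  · show (1 - 1 / 1000) * W ≤ Sx A D g s / ((As A D s).card : ℝ) ^ 2
    rw [le_div_iff₀ (by positivity)]
    linarith
  · show Sx A D (gt A c W) s / ((As A D s).card : ℝ) ^ 2 ≤
      1 / 1000 * (Sx A D g s / ((As A D s).card : ℝ) ^ 2)
    rw [← mul_div_assoc]
    apply div_le_div_of_nonneg_right _ (by positivity)
    have : 0 ≤ (1 - 1 / 1000) * W * ((As A D s).card : ℝ) ^ 2 := by
      have : (0 : ℝ) ≤ (1 - 1 / 1000) * W := by nlinarith
      positivity
    linarith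

end

end Vale.Agent.P057.SIFT
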