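import Vale.Agent.P057.Mods

open Finset

namespace Vale.Agent.P057
namespace SpanAux

variable {G : Type} [AddCommGroup G] [Fintype G]

lemma Lg_inv (T : Finset G) (ψ : AddChar G ℂ) : Lg T ψ⁻¹ ↔ Lg T ψ := by
  unfold Lg
  have h : ∑ x ∈ T, ψ⁻¹ x = (starRingEnd ℂ) (∑ x ∈ T, ψ x) := by
    rw [map_sum]
    refine Finset.sum_congr rfl (fun x _ => ?_)
    rw [AddChar.inv_apply']
    exact AddChar.inv_apply_eq_conj ψ x
  rw [h, RCLike.norm_conj]

lemma Lg_one (T : Finset G) : Lg T (1 : AddChar G ℂ) := by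
  unfold Lg
  simp only [AddChar.one_apply, Finset.sum_const, nsmul_eq_mul, mul_one, Complex.norm_natCast]
  have : (0 : ℝ) ≤ T.card := Nat.cast_nonneg _
  linarith

open Classical in
lemma pch_insert (Λ : Finset (AddChar G ℂ)) (ψ : AddChar G ℂ) (hψ : ψ ∉ Λ) (m : AddChar G ℂ → ℤ) :
    pch (insert ψ Λ) m = ψ ^ (m ψ) * pch Λ m := by
  unfold pch
  rw [Finset.prod_insert hψ]

lemma pch_neg (Λ : Finset (AddChar G ℂ)) (m : AddChar G ℂ → ℤ) :
    pch Λ (fun χ => - m χ) = (pch Λ m)⁻¹ := by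
  unfold pch
  simp only [zpow_neg]
  rw [Finset.prod_inv_distrib]

end SpanAux

theorem span_proof (h : CHANG) : SPAN := by
  intro G _ _ T D₄ D₄p B' ℓ n hT hTD hB' hsym hℓ hD hDp hsub hn
  classical
  by_contra hcon
  have hne : ∀ Λ : Finset (AddChar G ℂ), Λ.card ≤ n → (∀ χ ∈ Λ, Lg T χ) →
      ∃ ψ : AddChar G ℂ, Lg T ψ ∧ ∀ m : AddChar G ℂ → ℤ, (∀ χ, |m χ| ≤ 1) → ¬ Lg B' (ψ * pch Λ m) := by
    intro Λ h1 h2
    by_contra h3
    apply hcon
    refine ⟨Λ, h1, h2, fun ψ hψ => ?_⟩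
    by_contra h4
    apply h3
    exact ⟨ψ, hψ, fun m hm hL => h4 ⟨m, hm, hL⟩⟩
  have hk : ∀ k : ℕ, k ≤ n → ∃ Λ : Finset (AddChar G ℂ), Λ.card = k ∧ (∀ χ ∈ Λ, Lg T χ) ∧
      (∀ m : AddChar G ℂ → ℤ, (∀ χ, |m χ| ≤ 1) → (∃ χ ∈ Λ, m χ ≠ 0) → ¬ Lg B' (pch Λ m)) := by
    intro k
    induction k with
    | zero =>
      intro _
      refine ⟨∅, rfl, by simp, ?_⟩
      rintro m _ ⟨χ, hχ, _⟩
      simp at hχ
    | succ k ih =>
      intro hk
      obtain ⟨Λ, hc, hL, hP⟩ := ih (by omega)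
      obtain ⟨ψ, hψ, hψm⟩ := hne Λ (by omega) hL
      have hψΛ : ψ ∉ Λ := by
        intro hmem
        apply hψm (fun χ => if χ = ψ then -1 else 0)
        · intro χ
          split <;> norm_num
        · have e : pch Λ (fun χ => if χ = ψ then -1 else 0) = ψ⁻¹ := by
            unfold pch
            rw [Finset.prod_eq_single ψ]
            · simp
            · intro b _ hb
              simp [hb]
            · intro hb
              exact absurd hmem hb
          rw [e, mul_inv_cancel]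
          exact SpanAux.Lg_one B'
      refine ⟨insert ψ Λ, ?_, ?_, ?_⟩
      · rw [Finset.card_insert_of_notMem hψΛ, hc]
      · intro χ hχ
        rcases Finset.mem_insert.mp hχ with h1 | h1
        · rw [h1]; exact hψ
        · exact hL χ h1
      · rintro m hm ⟨χ, hχ, hχm⟩ hLg
        rw [SpanAux.pch_insert Λ ψ hψΛ] at hLg
        have h1 := hm ψ
        have h2 : m ψ = 0 ∨ m ψ = 1 ∨ m ψ = -1 := by
          rw [abs_le] at h1
          omega
        rcases h2 with h2 | h2 | h2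
        · rw [h2, zpow_zero, one_mul] at hLg
          refine hP m hm ?_ hLg
          rcases Finset.mem_insert.mp hχ with h3 | h3
          · rw [h3] at hχm
            exact absurd h2 hχm
          · exact ⟨χ, h3, hχm⟩
        · rw [h2, zpow_one] at hLg
          exact hψm m hm hLg
        · rw [h2, zpow_neg, zpow_one] at hLg
          apply hψm (fun χ => - m χ)
          · intro χ
            rw [abs_neg]
            exact hm χ
          · rw [SpanAux.pch_neg]
            have e : ψ * (pch Λ m)⁻¹ = (ψ⁻¹ * pch Λ m)⁻¹ := by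
              rw [mul_inv, inv_inv]
            rw [e, SpanAux.Lg_inv]
            exact hLg
  obtain ⟨Λ, hc, hL, hP⟩ := hk n le_rfl
  have := h G T D₄ D₄p B' Λ ℓ n hc hT hTD hB' hℓ hD hDp (hsub n le_rfl) hL hP
  linarith

end Vale.Agent.P057
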