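import Vale.Agent.P057.Mods

open Finset

namespace Vale.Agent.P057.UN

open Vale.Agent.P057

theorem num_gen (n : ℕ) (h : (200 : ℝ) ≤ (66 / 65) ^ n) :
    (65 / 64 : ℝ) ^ n ≤ 1 / 200 * (33 / 32) ^ n := by
  have e : (33 / 32 : ℝ) ^ n = (66 / 65) ^ n * (65 / 64) ^ n := by
    rw [← mul_pow]
    congr 1
    norm_num
  rw [e]
  have h5 : (0 : ℝ) < (65 / 64 : ℝ) ^ n := pow_pos (by norm_num) _
  nlinarith

theorem num_ineq : (65 / 64 : ℝ) ^ 400 ≤ 1 / 200 * (33 / 32) ^ 400 := by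
  apply num_gen
  have h100 : (4 : ℝ) ≤ (66 / 65) ^ 100 := by norm_num
  have h400 : (4 : ℝ) ^ 4 ≤ ((66 / 65 : ℝ) ^ 100) ^ 4 := pow_le_pow_left₀ (by norm_num) h100 4
  have e2 : (66 / 65 : ℝ) ^ 400 = ((66 / 65 : ℝ) ^ 100) ^ 4 := pow_mul _ 100 4
  rw [e2]
  refine le_trans ?_ h400
  norm_num

theorem unb_proof : UNB := by
  intro Ω _ σ F g p hσ hσ1 hg hFg hodd hp hpos hbig
  classical
  -- positive part
  have hplus : (1 / 8 : ℝ) ^ p / 2 ≤ ∑ ω, σ ω * (max (F ω) 0) ^ p := by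
    have key : ∀ ω, σ ω * (F ω) ^ p + σ ω * |F ω| ^ p = 2 * (σ ω * (max (F ω) 0) ^ p) := by
      intro ω
      rcases le_total 0 (F ω) with h | h
      · rw [abs_of_nonneg h, max_eq_left h]; ring
      · rw [abs_of_nonpos h, max_eq_right h, hodd.neg_pow, zero_pow (by omega)]; ring
    have := Finset.sum_congr (rfl : (univ : Finset Ω) = univ) fun ω _ => key ω
    rw [Finset.sum_add_distrib, ← Finset.mul_sum] at this
    linarith
  set T : Finset Ω := univ.filter fun ω => 1 / 16 ≤ F ω with hT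
  have hsplit : (1 / 8 : ℝ) ^ p / 4 ≤ ∑ ω ∈ T, σ ω * (F ω) ^ p := by
    have h1 : ∑ ω, σ ω * (max (F ω) 0) ^ p ≤ ∑ ω ∈ T, σ ω * (F ω) ^ p + (1 / 16 : ℝ) ^ p := by
      rw [← Finset.sum_filter_add_sum_filter_not univ (fun ω => 1 / 16 ≤ F ω)]
      apply add_le_add
      · apply le_of_eq
        apply Finset.sum_congr rfl
        intro ω hω
        simp only [Finset.mem_filter, Finset.mem_univ, true_and] at hω
        rw [max_eq_left (by linarith)]
      · calc ∑ ω ∈ univ.filter (fun ω => ¬ 1 / 16 ≤ F ω), σ ω * (max (F ω) 0) ^ p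
            ≤ ∑ ω ∈ univ.filter (fun ω => ¬ 1 / 16 ≤ F ω), σ ω * (1 / 16 : ℝ) ^ p := by
              apply Finset.sum_le_sum
              intro ω hω
              simp only [Finset.mem_filter, Finset.mem_univ, true_and, not_le] at hω
              apply mul_le_mul_of_nonneg_left _ (hσ ω)
              apply pow_le_pow_left₀ (le_max_right _ _)
              exact max_le hω.le (by norm_num)
          _ ≤ ∑ ω, σ ω * (1 / 16 : ℝ) ^ p := by
              apply Finset.sum_le_sum_of_subset_of_nonneg (Finset.filter_subset _ _)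
              intro ω _ _
              exact mul_nonneg (hσ ω) (by positivity)
          _ = (1 / 16 : ℝ) ^ p := by rw [← Finset.sum_mul, hσ1, one_mul]
    have h2 : (1 / 16 : ℝ) ^ p ≤ (1 / 8 : ℝ) ^ p / 4 := by
      have e : (1 / 16 : ℝ) ^ p = (1 / 8) ^ p * (1 / 2) ^ p := by
        rw [← mul_pow]; norm_num
      have e2 : (1 / 2 : ℝ) ^ p ≤ (1 / 2) ^ 3 :=
        pow_le_pow_of_le_one (by norm_num) (by norm_num) hp
      have e3 : (0 : ℝ) < (1 / 8) ^ p := by positivity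
      rw [e]
      nlinarith
    linarith
  have hTg : ∀ ω ∈ T, 0 ≤ F ω ∧ F ω ≤ g ω ∧ 33 / 32 ≤ g ω := by
    intro ω hω
    simp only [hT, Finset.mem_filter, Finset.mem_univ, true_and] at hω
    have := abs_le.mp (hFg ω)
    refine ⟨by linarith, by linarith [this.2], by linarith [this.2]⟩
  set M := ∑ ω, σ ω * (g ω) ^ (2 * p) with hMdef
  by_cases hM : (65 / 64 : ℝ) ^ (2 * p) ≤ M
  · have h1 : M ^ 200 ≤ ∑ ω, σ ω * ((g ω) ^ (2 * p)) ^ 200 :=
      Real.pow_arith_mean_le_arith_mean_pow univ σ (fun ω => (g ω) ^ (2 * p))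
        (fun ω _ => hσ ω) hσ1 (fun ω _ => pow_nonneg (hg ω) _) 200
    have h2 : ((65 / 64 : ℝ) ^ (2 * p)) ^ 200 ≤ M ^ 200 := pow_le_pow_left₀ (by positivity) hM 200
    have e1 : ((65 / 64 : ℝ) ^ (2 * p)) ^ 200 = (65 / 64) ^ (400 * p) := by
      rw [← pow_mul]; congr 1; ring
    have e2 : ∀ ω, ((g ω) ^ (2 * p)) ^ 200 = (g ω) ^ (400 * p) := by
      intro ω
      rw [← pow_mul]; congr 1; ring
    simp only [e2] at h1
    rw [e1] at h2
    exact h2.trans h1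
  · push Not at hM
    set P := ∑ ω ∈ T, σ ω with hP
    have hP0 : 0 ≤ P := Finset.sum_nonneg fun ω _ => hσ ω
    -- Cauchy-Schwarz
    have hCS : (∑ ω ∈ T, σ ω * (F ω) ^ p) ^ 2 ≤ P * ∑ ω ∈ T, σ ω * (F ω) ^ (2 * p) := by
      have := Finset.sum_mul_sq_le_sq_mul_sq T (fun ω => Real.sqrt (σ ω))
        (fun ω => Real.sqrt (σ ω) * (F ω) ^ p)
      have e1 : ∀ ω, Real.sqrt (σ ω) * (Real.sqrt (σ ω) * (F ω) ^ p) = σ ω * (F ω) ^ p := by
        intro ω
        rw [← mul_assoc, Real.mul_self_sqrt (hσ ω)]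
      have e2 : ∀ ω, Real.sqrt (σ ω) ^ 2 = σ ω := fun ω => Real.sq_sqrt (hσ ω)
      have e3 : ∀ ω, (Real.sqrt (σ ω) * (F ω) ^ p) ^ 2 = σ ω * (F ω) ^ (2 * p) := by
        intro ω
        rw [mul_pow, Real.sq_sqrt (hσ ω), ← pow_mul, mul_comm p 2]
      simp only [e1, e2, e3] at this
      exact this
    have hFM : ∑ ω ∈ T, σ ω * (F ω) ^ (2 * p) ≤ M := by
      calc ∑ ω ∈ T, σ ω * (F ω) ^ (2 * p) ≤ ∑ ω ∈ T, σ ω * (g ω) ^ (2 * p) := by
            apply Finset.sum_le_sum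
            intro ω hω
            obtain ⟨h1, h2, -⟩ := hTg ω hω
            exact mul_le_mul_of_nonneg_left (pow_le_pow_left₀ h1 h2 _) (hσ ω)
        _ ≤ M := by
            apply Finset.sum_le_sum_of_subset_of_nonneg (Finset.subset_univ _)
            intro ω _ _
            exact mul_nonneg (hσ ω) (pow_nonneg (hg ω) _)
    have h8 : (0 : ℝ) < (1 / 8) ^ p / 4 := by positivity
    have hsq : ((1 / 8 : ℝ) ^ p / 4) ^ 2 ≤ P * (65 / 64) ^ (2 * p) := by
      calc ((1 / 8 : ℝ) ^ p / 4) ^ 2 ≤ (∑ ω ∈ T, σ ω * (F ω) ^ p) ^ 2 :=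
            pow_le_pow_left₀ h8.le hsplit 2
        _ ≤ P * ∑ ω ∈ T, σ ω * (F ω) ^ (2 * p) := hCS
        _ ≤ P * (65 / 64) ^ (2 * p) := mul_le_mul_of_nonneg_left (hFM.trans hM.le) hP0
    have hPlow : (1 / 200 : ℝ) ^ p ≤ P := by
      have e1 : ((1 / 8 : ℝ) ^ p / 4) ^ 2 = (1 / 64) ^ p / 16 := by
        rw [div_pow, ← pow_mul, mul_comm p 2, pow_mul]; norm_num
      have e2 : (65 / 64 : ℝ) ^ (2 * p) = (4225 / 4096) ^ p := by
        rw [pow_mul]; norm_num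
      rw [e1, e2] at hsq
      have e3 : (16 : ℝ) ≤ (3 : ℝ) ^ p := by
        calc (16 : ℝ) ≤ 3 ^ 3 := by norm_num
          _ ≤ 3 ^ p := pow_le_pow_right₀ (by norm_num) hp
      have e4 : (3 : ℝ) ^ p * ((1 / 200) ^ p * (4225 / 4096) ^ p) ≤ (1 / 64) ^ p := by
        rw [← mul_pow, ← mul_pow]
        apply pow_le_pow_left₀ (by norm_num) (by norm_num)
      have e5 : (0 : ℝ) < (4225 / 4096 : ℝ) ^ p := by positivity
      have e6 : 16 * ((1 / 200 : ℝ) ^ p * (4225 / 4096) ^ p) ≤ (1 / 64) ^ p :=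
        (mul_le_mul_of_nonneg_right e3 (by positivity)).trans e4
      have e7 : (1 / 200 : ℝ) ^ p * (4225 / 4096) ^ p ≤ P * (4225 / 4096) ^ p := by linarith
      exact le_of_mul_le_mul_right e7 e5
    have hfin : P * (33 / 32 : ℝ) ^ (400 * p) ≤ ∑ ω, σ ω * (g ω) ^ (400 * p) := by
      calc P * (33 / 32 : ℝ) ^ (400 * p) = ∑ ω ∈ T, σ ω * (33 / 32 : ℝ) ^ (400 * p) := by
            rw [hP, Finset.sum_mul]
        _ ≤ ∑ ω ∈ T, σ ω * (g ω) ^ (400 * p) := by
            apply Finset.sum_le_sum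
            intro ω hω
            exact mul_le_mul_of_nonneg_left
              (pow_le_pow_left₀ (by norm_num) (hTg ω hω).2.2 _) (hσ ω)
        _ ≤ _ := by
            apply Finset.sum_le_sum_of_subset_of_nonneg (Finset.subset_univ _)
            intro ω _ _
            exact mul_nonneg (hσ ω) (pow_nonneg (hg ω) _)
    have hnum : (65 / 64 : ℝ) ^ 400 ≤ 1 / 200 * (33 / 32) ^ 400 := by
      exact num_ineq
    calc (65 / 64 : ℝ) ^ (400 * p) = ((65 / 64 : ℝ) ^ 400) ^ p := pow_mul _ _ _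
      _ ≤ (1 / 200 * (33 / 32) ^ 400) ^ p := pow_le_pow_left₀ (by positivity) hnum p
      _ = (1 / 200) ^ p * (33 / 32) ^ (400 * p) := by rw [mul_pow, ← pow_mul]
      _ ≤ P * (33 / 32) ^ (400 * p) := mul_le_mul_of_nonneg_right hPlow (by positivity)
      _ ≤ _ := hfin

end Vale.Agent.P057.UN
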